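import Vale.Agent.P219.Relax.RowField
import Vale.Agent.P219.Bend.Model

/-!
# P219: the model profile lies below its tangents
-/

noncomputable section

open MeasureTheory Set Filter Topology

namespace Vale.Agent.P219.CH.Relax

open Bend

variable {n : ℕ}

/-- Below `w` the area grows at least at the rate of the slope at `w`. -/
lemma area_step_lower (k : ℕ) (b : ℝ) {r w : ℝ} (hr : 0 < r) (hrw : r ≤ w) :
    ((k : ℝ) + 1) * Real.cosh (b * w) / sn b w * (modelVol (k + 2) b w - modelVol (k + 2) b r) ≤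
      modelArea (k + 2) b w - modelArea (k + 2) b r := by
  set c := ((k : ℝ) + 1) * Real.cosh (b * w) / sn b w with hc
  set F : ℝ → ℝ := fun t => modelArea (k + 2) b t - c * modelVol (k + 2) b t
  have hd : ∀ t, HasDerivAt F (((k + 2 : ℕ) : ℝ) * (((k + 2 - 1 : ℕ) : ℝ) *
      sn b t ^ (k + 2 - 1 - 1) * Real.cosh (b * t)) -
        c * (((k + 2 : ℕ) : ℝ) * sn b t ^ (k + 2 - 1))) t :=
    fun t => (((hasDerivAt_sn b t).pow (k + 2 - 1)).const_mul _).sub
      ((hasDerivAt_modelVol (k + 2) b t).const_mul c)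
  have hm : MonotoneOn F (Icc r w) := by
    refine monotoneOn_of_hasDerivWithinAt_nonneg (convex_Icc r w)
      (fun t _ => (hd t).continuousAt.continuousWithinAt) (fun t _ => (hd t).hasDerivWithinAt)
      fun t ht => ?_
    rw [interior_Icc] at ht
    have hsw : 0 < sn b w := sn_pos b (hr.trans_le hrw)
    have h1 : 0 ≤ sn b (w - t) := sn_nonneg b (by linarith [ht.2])
    have ht0 : 0 ≤ sn b t := sn_nonneg b (by linarith [ht.1])
    have hnn : 0 ≤ ((k : ℝ) + 2) * ((k : ℝ) + 1) * sn b t ^ k * sn b (w - t) / sn b w := by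
      positivity
    refine le_trans hnn (le_of_eq ?_)
    rw [sn_sub, show k + 2 - 1 = k + 1 by omega, show k + 1 - 1 = k by omega, pow_succ, hc]
    push_cast
    field_simp
  have h0 := hm ⟨le_rfl, hrw⟩ ⟨hrw, le_rfl⟩ hrw
  simp only [F] at h0
  linarith

/-- The model profiles have supporting lines with their slopes. -/
theorem supports_model (hn : 2 ≤ n) {b l : ℝ} (hb : 0 ≤ b) (hl : 0 < l) :
    Supports (modelProfile n b l) (modelSlope n b l) := by
  intro V W hV hW
  have hP := modelPin n hn b l hb hl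
  rcases le_total W V with hWV | hVW
  · exact hP.step V W hW hWV
  obtain ⟨k, rfl⟩ : ∃ k, n = k + 2 := ⟨n - 2, by omega⟩
  have h1n : 1 ≤ k + 2 := by omega
  have hω := unitBall_pos h1n
  set ω := unitBall (k + 2)
  set rr := fun V => modelRad (k + 2) b (V / ω)
  have hrs : ∀ V, 0 ≤ V → ω * modelVol (k + 2) b (rr V) = V := fun V hV => by
    obtain ⟨-, e⟩ := modelRad_spec h1n b (div_nonneg hV hω.le)
    simp only [rr]; rw [e]; field_simp
  have h := area_step_lower k b (modelRad_pos h1n b (div_pos hV hω))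
    (modelRad_mono h1n b (div_nonneg hV.le hω.le) (div_le_div_of_nonneg_right hVW hω.le))
  have h' := mul_le_mul_of_nonneg_left h (mul_pos hl hω).le
  have eV := hrs V hV.le
  have eW := hrs W hW.le
  have hcm : ((k + 2 : ℕ) : ℝ) - 1 = (k : ℝ) + 1 := by push_cast; ring
  simp only [modelProfile, modelSlope, hcm]
  have e1 : l * (((k : ℝ) + 1) * Real.cosh (b * rr W) / sn b (rr W)) * (V - W) =
      -(l * ω * (((k : ℝ) + 1) * Real.cosh (b * rr W) / sn b (rr W) *
        (modelVol (k + 2) b (rr W) - modelVol (k + 2) b (rr V)))) := by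
    conv_lhs => arg 2; rw [← eV, ← eW]
    ring
  simp only [rr] at e1
  rw [e1]
  simp only [ω] at h' ⊢
  linarith

end Vale.Agent.P219.CH.Relax
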