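import Mathlib

/-!
# P219: the trace and determinant bound of a Schur complement

For `Z ≥ 1` and a contraction `N`, the matrix `W = N Z⁻¹ Nᵀ` lies between `0` and `1`, so
`n - tr W ≥ 1 - det W`.
-/

noncomputable section

open Matrix

namespace Vale.Agent.P219.CH.Relax

variable {n : ℕ}

/-- `M ≥ 1` as a quadratic form, with `M` symmetric. -/
def GeOne (M : Matrix (Fin n) (Fin n) ℝ) : Prop :=
  M.IsHermitian ∧ ∀ v, v ⬝ᵥ v ≤ v ⬝ᵥ (M *ᵥ v)

/-- `M` does not expand. -/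
def Contr (M : Matrix (Fin n) (Fin n) ℝ) : Prop :=
  ∀ v, (M *ᵥ v) ⬝ᵥ (M *ᵥ v) ≤ v ⬝ᵥ v

lemma dot_self_pos {v : Fin n → ℝ} (hv : v ≠ 0) : 0 < v ⬝ᵥ v := by
  simpa using dotProduct_star_self_pos_iff.2 hv

lemma dot_self_nonneg (v : Fin n → ℝ) : 0 ≤ v ⬝ᵥ v := by
  simpa using dotProduct_star_self_nonneg v

lemma eigen_unit {M : Matrix (Fin n) (Fin n) ℝ} (hM : M.IsHermitian) (i : Fin n) :
    ∃ v : Fin n → ℝ, v ⬝ᵥ v = 1 ∧ hM.eigenvalues i = v ⬝ᵥ (M *ᵥ v) := by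
  refine ⟨WithLp.ofLp (hM.eigenvectorBasis i), ?_, ?_⟩
  · have := hM.eigenvectorBasis.orthonormal.1 i
    have h2 : ‖hM.eigenvectorBasis i‖ ^ 2 = 1 := by rw [this]; norm_num
    rw [EuclideanSpace.norm_sq_eq] at h2
    simpa [dotProduct, sq] using h2
  · simpa using hM.eigenvalues_eq i

lemma GeOne.posDef {M : Matrix (Fin n) (Fin n) ℝ} (h : GeOne M) : M.PosDef :=
  PosDef.of_dotProduct_mulVec_pos h.1 fun v hv => by
    simpa using (dot_self_pos hv).trans_le (h.2 v)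

lemma GeOne.one_le_det {M : Matrix (Fin n) (Fin n) ℝ} (h : GeOne M) : 1 ≤ M.det := by
  rw [h.1.det_eq_prod_eigenvalues]
  simp only [RCLike.ofReal_real_eq_id, id_eq]
  refine Finset.one_le_prod fun i _ => ?_
  obtain ⟨v, hv, he⟩ := eigen_unit h.1 i
  rw [he, ← hv]
  exact h.2 v

lemma GeOne.card_le_trace {M : Matrix (Fin n) (Fin n) ℝ} (h : GeOne M) : (n : ℝ) ≤ M.trace := by
  rw [h.1.trace_eq_sum_eigenvalues]
  simp only [RCLike.ofReal_real_eq_id, id_eq]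
  have : ∀ i, 1 ≤ h.1.eigenvalues i := fun i => by
    obtain ⟨v, hv, he⟩ := eigen_unit h.1 i
    rw [he, ← hv]
    exact h.2 v
  calc (n : ℝ) = ∑ _i : Fin n, (1 : ℝ) := by simp
    _ ≤ _ := Finset.sum_le_sum fun i _ => this i

lemma GeOne.inv_le {M : Matrix (Fin n) (Fin n) ℝ} (h : GeOne M) (w : Fin n → ℝ) :
    0 ≤ w ⬝ᵥ (M⁻¹ *ᵥ w) ∧ w ⬝ᵥ (M⁻¹ *ᵥ w) ≤ w ⬝ᵥ w := by
  set v := M⁻¹ *ᵥ w
  have hv : M *ᵥ v = w := by
    rw [mulVec_mulVec, mul_nonsing_inv _ h.posDef.det_pos.ne'.isUnit, one_mulVec]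
  have h1 := h.2 v
  rw [hv, dotProduct_comm v w] at h1
  have h2 := dot_self_nonneg v
  have h3 := dot_self_nonneg (w - v)
  rw [sub_dotProduct, dotProduct_sub, dotProduct_sub, dotProduct_comm v w] at h3
  constructor <;> linarith

lemma Contr.transpose {N : Matrix (Fin n) (Fin n) ℝ} (h : Contr N) : Contr Nᵀ := fun v => by
  set a := Nᵀ *ᵥ v
  have h1 := h a
  have h2 : a ⬝ᵥ a = v ⬝ᵥ (N *ᵥ a) := by
    show (Nᵀ *ᵥ v) ⬝ᵥ a = _
    rw [mulVec_transpose, ← dotProduct_mulVec]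
  have h3 := dot_self_nonneg (v - N *ᵥ a)
  rw [sub_dotProduct, dotProduct_sub, dotProduct_sub, dotProduct_comm (N *ᵥ a) v] at h3
  linarith

/-- The Schur complement term. -/
theorem trace_det_schur {Z N : Matrix (Fin n) (Fin n) ℝ} (hn : 0 < n) (hZ : GeOne Z)
    (hN : Contr N) :
    1 - N.det ^ 2 / Z.det ≤ (n : ℝ) - (N * Z⁻¹ * Nᵀ).trace := by
  set W := N * Z⁻¹ * Nᵀ
  have hW : W.IsHermitian := by
    have hi : Z⁻¹.IsHermitian := hZ.1.inv
    simpa [W, conjTranspose_eq_transpose_of_trivial] using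
      isHermitian_mul_mul_conjTranspose N hi
  have hμ : ∀ i, 0 ≤ hW.eigenvalues i ∧ hW.eigenvalues i ≤ 1 := fun i => by
    obtain ⟨v, hv, he⟩ := eigen_unit hW i
    have e : v ⬝ᵥ (W *ᵥ v) = (Nᵀ *ᵥ v) ⬝ᵥ (Z⁻¹ *ᵥ (Nᵀ *ᵥ v)) := by
      simp only [W, ← mulVec_mulVec]
      rw [dotProduct_mulVec, ← mulVec_transpose]
    obtain ⟨h1, h2⟩ := hZ.inv_le (Nᵀ *ᵥ v)
    rw [he, e]
    exact ⟨h1, h2.trans ((hN.transpose v).trans_eq hv)⟩
  have hdet : N.det ^ 2 / Z.det = ∏ i, hW.eigenvalues i := by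
    have := hW.det_eq_prod_eigenvalues
    simp only [RCLike.ofReal_real_eq_id, id_eq] at this
    rw [← this]
    simp only [W, det_mul, det_transpose, det_nonsing_inv, Ring.inverse_eq_inv']
    ring
  have htr : W.trace = ∑ i, hW.eigenvalues i := by
    simpa using hW.trace_eq_sum_eigenvalues
  rw [hdet, htr]
  obtain ⟨i₀⟩ : Nonempty (Fin n) := ⟨⟨0, hn⟩⟩
  have key : ∀ s : Finset (Fin n),
      1 - ∏ i ∈ s, hW.eigenvalues i ≤ ∑ i ∈ s, (1 - hW.eigenvalues i) := fun s => by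
    induction s using Finset.induction_on with
    | empty => simp
    | @insert a s ha ih =>
      rw [Finset.prod_insert ha, Finset.sum_insert ha]
      have hp : ∏ i ∈ s, hW.eigenvalues i ≤ 1 :=
        Finset.prod_le_one (fun i _ => (hμ i).1) fun i _ => (hμ i).2
      nlinarith [mul_nonneg (sub_nonneg.2 (hμ a).2) (sub_nonneg.2 hp)]
  have h1 := key Finset.univ
  rw [Finset.sum_sub_distrib] at h1
  simpa using h1

end Vale.Agent.P219.CH.Relax
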