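import Vale.Agent.P219.Six.Radial
import Vale.Agent.P219.Six.Exists
import Vale.Agent.P219.Relax.Schur

/-!
# P219: cutting a geodesic at an interior point

At `z` on the geodesic from `a` to `b` at the fraction `l`, the Hessian at `a` of `D b` and the mixed
Hessian of `a, b` are the Schur complements of those of the two parts, exactly.
-/

noncomputable section

open MeasureTheory Set Filter Topology Matrix

namespace Vale.Agent.P219.CH.Relax

open Six (Phase IsExp logv mixedD line flow lcv)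

variable {n : ℕ} {G : (Fin n → ℝ) → Matrix (Fin n) (Fin n) ℝ}
  {D : (Fin n → ℝ) → (Fin n → ℝ) → ℝ} {e : Phase n → Fin n → ℝ}

/-! ## Objects -/

/-- The derivative of the differential of `D b`. -/
def secL (D : (Fin n → ℝ) → (Fin n → ℝ) → ℝ) (b z : Fin n → ℝ) :
    (Fin n → ℝ) →L[ℝ] (Fin n → ℝ) :=
  fderiv ℝ (cd (D b)) z

/-- The part of the Riemannian Hessian linear in the gradient `g`, symmetrised. -/
def conn (G : (Fin n → ℝ) → Matrix (Fin n) (Fin n) ℝ) (y g : Fin n → ℝ) :
    Matrix (Fin n) (Fin n) ℝ :=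
  Matrix.of fun a b => -(g ⬝ᵥ (dG G y (ev a) *ᵥ ev b) + g ⬝ᵥ (dG G y (ev b) *ᵥ ev a)) / 2 +
    (dG G y g a b + dG G y g b a) / 4

/-- The Hessian of `D x` at `y` as a symmetric matrix. -/
def hmat (G : (Fin n → ℝ) → Matrix (Fin n) (Fin n) ℝ) (D : (Fin n → ℝ) → (Fin n → ℝ) → ℝ)
    (x y : Fin n → ℝ) : Matrix (Fin n) (Fin n) ℝ :=
  (1 / 2 : ℝ) • (hessMat G (D x) y + (hessMat G (D x) y)ᵀ)

/-- The Hessian of `D x` at `y` in an orthonormal frame. -/
def hbar (G : (Fin n → ℝ) → Matrix (Fin n) (Fin n) ℝ) (D : (Fin n → ℝ) → (Fin n → ℝ) → ℝ)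
    (x y : Fin n → ℝ) : Matrix (Fin n) (Fin n) ℝ :=
  Sharp.frame G y * hmat G D x y * Sharp.frame G y

/-- The mixed Hessian in orthonormal frames. -/
def nbar (G : (Fin n → ℝ) → Matrix (Fin n) (Fin n) ℝ) (D : (Fin n → ℝ) → (Fin n → ℝ) → ℝ)
    (x y : Fin n → ℝ) : Matrix (Fin n) (Fin n) ℝ :=
  Sharp.frame G x * opMat (mixedD D x y) * Sharp.frame G y

/-- The trace excess over the flat one of the Hessian of `D x` at `y`. -/
def excess (G : (Fin n → ℝ) → Matrix (Fin n) (Fin n) ℝ) (D : (Fin n → ℝ) → (Fin n → ℝ) → ℝ)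
    (x y : Fin n → ℝ) : ℝ :=
  (hbar G D x y).trace - n

/-- The inverse Jacobian in flat units. -/
def ijac (G : (Fin n → ℝ) → Matrix (Fin n) (Fin n) ℝ) (D : (Fin n → ℝ) → (Fin n → ℝ) → ℝ)
    (x y : Fin n → ℝ) : ℝ :=
  |(mixedD D x y).det| / (dens G x * dens G y)

/-- The point at the fraction `l` of the geodesic. -/
def zf (G : (Fin n → ℝ) → Matrix (Fin n) (Fin n) ℝ) (D : (Fin n → ℝ) → (Fin n → ℝ) → ℝ)
    (e : Phase n → Fin n → ℝ) (l : ℝ) (a b : Fin n → ℝ) : Fin n → ℝ :=
  e (a, l • logv G D a b)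

/-! ## Operators as matrices -/

lemma opMat_comp (L M : (Fin n → ℝ) →L[ℝ] (Fin n → ℝ)) :
    opMat (L.comp M) = opMat L * opMat M := by
  refine ext_iff_mulVec.2 fun v => ?_
  rw [← mulVec_mulVec, Six.opMat_mulVec, Six.opMat_mulVec, Six.opMat_mulVec]
  rfl

lemma opMat_add (L M : (Fin n → ℝ) →L[ℝ] (Fin n → ℝ)) :
    opMat (L + M) = opMat L + opMat M := by
  ext a b; simp [opMat]

lemma opMat_smul (c : ℝ) (L : (Fin n → ℝ) →L[ℝ] (Fin n → ℝ)) :
    opMat (c • L) = c • opMat L := by
  ext a b; simp [opMat]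

lemma opMat_secL (h : IsCH G D) (x y : Fin n → ℝ) (a b : Fin n) :
    opMat (secL D x y) a b = fderiv ℝ (fderiv ℝ (D x)) y (ev b) (ev a) := by
  have hd : HasFDerivAt (cd (D x)) (secL D x y) y :=
    ((h.contDiff_cd_dist x).differentiable one_ne_zero y).hasFDerivAt
  have hA : HasFDerivAt (fderiv ℝ (D x)) (fderiv ℝ (fderiv ℝ (D x)) y) y :=
    (((h.contDiff_D x).fderiv_right (m := 1) le_rfl).differentiable one_ne_zero y).hasFDerivAt
  have h3 := DFunLike.congr_fun ((hasFDerivAt_pi'.1 hd a).unique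
    (hA.clm_apply (hasFDerivAt_const (ev a) y))) (ev b)
  simpa [opMat, ev] using h3

/-- The Hessian is the coordinate one plus the part linear in the gradient. -/
lemma hmat_eq (h : IsCH G D) (x y : Fin n → ℝ) :
    hmat G D x y = opMat (secL D x y) + conn G y (grad G (D x) y) := by
  ext a b
  have hs : fderiv ℝ (fderiv ℝ (D x)) y (ev a) (ev b) =
      fderiv ℝ (fderiv ℝ (D x)) y (ev b) (ev a) :=
    (h.contDiff_D x).contDiffAt.isSymmSndFDerivAt (by simp) _ _
  simp only [hmat, hessMat, Matrix.smul_apply, Matrix.add_apply, Matrix.transpose_apply,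
    Matrix.of_apply, conn, smul_eq_mul, opMat_secL h, hs]
  ring

lemma conn_add (y g g' : Fin n → ℝ) : conn G y (g + g') = conn G y g + conn G y g' := by
  ext a b
  simp only [conn, Matrix.add_apply, Matrix.of_apply, add_dotProduct, dG, map_add]
  ring

lemma conn_smul (c : ℝ) (y g : Fin n → ℝ) : conn G y (c • g) = c • conn G y g := by
  ext a b
  simp only [conn, Matrix.smul_apply, Matrix.of_apply, smul_dotProduct, dG, map_smul, smul_eq_mul]
  ring

lemma conn_zero (y : Fin n → ℝ) : conn G y 0 = 0 := by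
  simpa using conn_smul (G := G) (0 : ℝ) y 0

lemma hmat_quad (x y v : Fin n → ℝ) : v ⬝ᵥ (hmat G D x y *ᵥ v) = hess G (D x) y v := by
  rw [hmat, smul_mulVec, dotProduct_smul, add_mulVec, dotProduct_add, mulVec_transpose,
    dotProduct_comm v (v ᵥ* _), ← dotProduct_mulVec, hessMat_quad, smul_eq_mul]
  ring

lemma isUnit_frame (h : IsCH G D) (y : Fin n → ℝ) : IsUnit (Sharp.frame G y).det := by
  obtain ⟨-, -, -, h4⟩ := Sharp.frame_spec h y
  refine isUnit_iff_ne_zero.2 fun h0 => ?_
  rw [h0, abs_zero] at h4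
  exact (inv_pos.2 (h.dens_pos y)).ne h4

lemma geOne_hbar (h : IsCH G D) (x y : Fin n → ℝ) : GeOne (hbar G D x y) := by
  obtain ⟨h1, h2, -, -⟩ := Sharp.frame_spec h y
  refine ⟨?_, fun v => ?_⟩
  · rw [IsHermitian, conjTranspose_eq_transpose_of_trivial, hbar, transpose_mul, transpose_mul, h1,
      hmat, transpose_smul, transpose_add, transpose_transpose, add_comm, Matrix.mul_assoc]
  · have e : v ⬝ᵥ (hbar G D x y *ᵥ v) =
        (Sharp.frame G y *ᵥ v) ⬝ᵥ (hmat G D x y *ᵥ (Sharp.frame G y *ᵥ v)) := by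
      simp only [hbar, ← mulVec_mulVec]
      rw [dotProduct_mulVec, ← mulVec_transpose, h1]
    rw [e, hmat_quad]
    refine le_of_eq_of_le ?_ (h.hessian x y _)
    rw [dotProduct_mulVec, vecMul_mulVec, h1, ← dotProduct_mulVec, mulVec_mulVec, h2, one_mulVec]

lemma contr_nbar (h : IsCH G D) (x y : Fin n → ℝ) : Contr (nbar G D x y) := by
  obtain ⟨hy1, hy2, -, -⟩ := Sharp.frame_spec h y
  set C := opMat (mixedD D x y)
  set A := Sharp.frame G x
  set A' := Sharp.frame G y
  have hu : ∀ v k, cd (fun z => Sharp.ucoord G D x z k) y ⬝ᵥ v = (A *ᵥ (C *ᵥ v)) k := fun v k => by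
    have hd : HasFDerivAt (fun z => A *ᵥ cd (D z) x)
        ((Matrix.toLin' A).toContinuousLinearMap.comp (mixedD D x y)) y :=
      ((Matrix.toLin' A).toContinuousLinearMap.hasFDerivAt).comp y (Six.hasFDerivAt_mixed h x y)
    rw [cd_dotProduct, show (fun z => Sharp.ucoord G D x z k) = fun z => (A *ᵥ cd (D z) x) k from rfl,
      (hasFDerivAt_pi'.1 hd k).fderiv, Six.opMat_mulVec]
    simp
  intro w
  have key := Sharp.sum_fderiv_ucoord_le h x y (A' *ᵥ w)
  simp only [hu] at key
  have e : qf G y (A' *ᵥ w) = w ⬝ᵥ w := by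
    rw [qf, dotProduct_mulVec, vecMul_mulVec, hy1, ← dotProduct_mulVec, mulVec_mulVec, hy2,
      one_mulVec]
  rw [nbar, ← mulVec_mulVec, ← mulVec_mulVec, ← e]
  simpa [dotProduct, sq] using key

lemma ijac_eq (h : IsCH G D) (x y : Fin n → ℝ) : ijac G D x y = |(nbar G D x y).det| := by
  rw [nbar, det_mul, det_mul, abs_mul, abs_mul, (Sharp.frame_spec h x).2.2.2,
    (Sharp.frame_spec h y).2.2.2, ijac, det_eq_det_opMat, div_eq_mul_inv, mul_inv]
  ring

lemma ijac_symm (h : IsCH G D) (x y : Fin n → ℝ) : ijac G D x y = ijac G D y x := by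
  rw [ijac, ijac, Six.det_mixed_symm h x y, mul_comm]

lemma nbar_transpose (h : IsCH G D) (x y : Fin n → ℝ) : (nbar G D x y)ᵀ = nbar G D y x := by
  rw [nbar, nbar, transpose_mul, transpose_mul, (Sharp.frame_spec h x).1,
    (Sharp.frame_spec h y).1, ← Six.opMat_mixed_symm h x y, Matrix.mul_assoc]

lemma ijac_pos (h : IsCH G D) (x y : Fin n → ℝ) : 0 < ijac G D x y := by
  refine div_pos (abs_pos.2 ?_) (mul_pos (h.dens_pos x) (h.dens_pos y))
  rw [det_eq_det_opMat]
  refine (Matrix.mulVec_injective_iff_isUnit.1 ?_ |> (Matrix.isUnit_iff_isUnit_det _).1).ne_zero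
  intro v w hvw
  simp only [Six.opMat_mulVec] at hvw
  exact Six.mixed_injective h x y hvw

lemma ijac_le_one (h : IsCH G D) (x y : Fin n → ℝ) : ijac G D x y ≤ 1 :=
  div_le_one_of_le₀ (Six.abs_det_mixed_le h x y) (mul_pos (h.dens_pos x) (h.dens_pos y)).le

/-! ## The point between -/

lemma mid_left (he : IsExp G D e) (l : ℝ) (a b : Fin n → ℝ) :
    logv G D a (zf G D e l a b) = l • logv G D a b := he.logv_exp _ _

lemma mid_right (h : IsCH G D) (he : IsExp G D e) (l : ℝ) (a b : Fin n → ℝ) :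
    logv G D b (zf G D e l a b) = (1 - l) • logv G D b a := by
  set p : Phase n := (a, logv G D a b)
  have hb : line e p 1 = b := by simp [line, p, he.exp_logv]
  have ha : line e p 0 = a := Six.line_zero he h p
  have hz : line e p l = zf G D e l a b := rfl
  have h1 := Six.logv_line_line h he p 1 (l - 1)
  have h2 := Six.logv_line_line h he p 1 (-1)
  rw [hb, show (1 : ℝ) + (l - 1) = l by ring, hz] at h1
  rw [hb, show (1 : ℝ) + -1 = 0 by ring, ha] at h2
  rw [h1, h2, smul_smul]
  congr 1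
  ring

lemma zf_swap (h : IsCH G D) (he : IsExp G D e) (l : ℝ) (a b : Fin n → ℝ) :
    zf G D e (1 - l) b a = zf G D e l a b := by
  rw [zf, ← mid_right h he]
  exact he.exp_logv _ _

lemma cd_of_logv (h : IsCH G D) (x y : Fin n → ℝ) :
    cd (D y) x = -(G x *ᵥ logv G D x y) := by
  rw [logv, mulVec_neg, neg_neg, grad, h.mulVec_inv]

lemma cd_left (h : IsCH G D) (he : IsExp G D e) (l : ℝ) (a b : Fin n → ℝ) :
    cd (D (zf G D e l a b)) a = l • cd (D b) a := by
  rw [cd_of_logv h, cd_of_logv h, mid_left he, mulVec_smul, smul_neg]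

lemma cd_right (h : IsCH G D) (he : IsExp G D e) (l : ℝ) (a b : Fin n → ℝ) :
    cd (D (zf G D e l a b)) b = (1 - l) • cd (D a) b := by
  rw [cd_of_logv h, cd_of_logv h, mid_right h he, mulVec_smul, smul_neg]

lemma cd_balance (h : IsCH G D) (he : IsExp G D e) (l : ℝ) (a b : Fin n → ℝ) :
    (1 - l) • cd (D a) (zf G D e l a b) + l • cd (D b) (zf G D e l a b) = 0 := by
  set p : Phase n := (a, logv G D a b)
  have hb : line e p 1 = b := by simp [line, p, he.exp_logv]
  have ha : line e p 0 = a := Six.line_zero he h p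
  have hz : line e p l = zf G D e l a b := rfl
  have h1 := Six.logv_line_line h he p l (-l)
  have h2 := Six.logv_line_line h he p l (1 - l)
  rw [show l + -l = 0 by ring, ha, hz] at h1
  rw [show l + (1 - l) = 1 by ring, hb, hz] at h2
  rw [cd_of_logv h, cd_of_logv h, h1, h2]
  simp only [mulVec_smul, smul_neg, smul_smul, ← neg_add, ← add_smul]
  rw [show (1 - l) * -l + l * (1 - l) = 0 by ring, zero_smul, neg_zero]

lemma hasFDerivAt_pair (h : IsCH G D) {α β : (Fin n → ℝ) → (Fin n → ℝ)}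
    {α' β' : (Fin n → ℝ) →L[ℝ] (Fin n → ℝ)} {q : Fin n → ℝ} (hα : HasFDerivAt α α' q)
    (hβ : HasFDerivAt β β' q) :
    HasFDerivAt (fun z => cd (D (β z)) (α z))
      ((secL D (β q) (α q)).comp α' + (mixedD D (α q) (β q)).comp β') q := by
  have hL := Six.hasFDerivAt_lcv h (α q, β q)
  set L := fderiv ℝ (lcv D) (α q, β q)
  have h2 : HasFDerivAt (fun z => lcv D (z, β q)) (secL D (β q) (α q)) (α q) :=
    ((h.contDiff_cd_dist (β q)).differentiable one_ne_zero (α q)).hasFDerivAt
  have h3 := hL.comp (f := fun z : Fin n → ℝ => (z, β q)) (α q)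
    (hasFDerivAt_prodMk_left (𝕜 := ℝ) (α q) (β q))
  have e1 : ∀ v, L (v, 0) = secL D (β q) (α q) v := fun v =>
    DFunLike.congr_fun (h3.unique h2) v
  refine (hL.comp q (hα.prodMk hβ)).congr_fderiv (ContinuousLinearMap.ext fun v => ?_)
  show L (α' v, β' v) = secL D (β q) (α q) (α' v) + mixedD D (α q) (β q) (β' v)
  rw [← e1, ← Six.fderiv_lcv_right h (α q) (β q) (β' v), ← map_add]
  simp

lemma differentiable_zf (h : IsCH G D) (he : IsExp G D e) (l : ℝ) (a b : Fin n → ℝ) :
    DifferentiableAt ℝ (fun z => zf G D e l a z) b := by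
  exact ((he.contDiff.differentiable one_ne_zero _).comp b
    ((differentiableAt_const a).prodMk ((Six.hasFDerivAt_logv h a b).differentiableAt.const_smul l)))

/-! ## The recursion -/

/-- The second derivative at the point between. -/
def zmat (G : (Fin n → ℝ) → Matrix (Fin n) (Fin n) ℝ) (D : (Fin n → ℝ) → (Fin n → ℝ) → ℝ)
    (e : Phase n → Fin n → ℝ) (l : ℝ) (a b : Fin n → ℝ) : Matrix (Fin n) (Fin n) ℝ :=
  (1 - l) • hbar G D a (zf G D e l a b) + l • hbar G D b (zf G D e l a b)

lemma geOne_zmat (h : IsCH G D) (e : Phase n → Fin n → ℝ) {l : ℝ} (h0 : 0 ≤ l) (h1 : l ≤ 1)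
    (a b : Fin n → ℝ) : GeOne (zmat G D e l a b) := by
  set z := zf G D e l a b
  obtain ⟨a1, a2⟩ := geOne_hbar h a z
  obtain ⟨b1, b2⟩ := geOne_hbar h b z
  refine ⟨?_, fun v => ?_⟩
  · simp only [IsHermitian, conjTranspose_eq_transpose_of_trivial] at a1 b1 ⊢
    rw [zmat, transpose_add, transpose_smul, transpose_smul, a1, b1]
  · rw [zmat, add_mulVec, dotProduct_add, smul_mulVec, smul_mulVec, dotProduct_smul,
      dotProduct_smul, smul_eq_mul, smul_eq_mul]
    have := mul_le_mul_of_nonneg_left (a2 v) (sub_nonneg.2 h1)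
    have := mul_le_mul_of_nonneg_left (b2 v) h0
    linarith

lemma zmat_coord (h : IsCH G D) (he : IsExp G D e) (l : ℝ) (a b : Fin n → ℝ) :
    zmat G D e l a b = Sharp.frame G (zf G D e l a b) *
      opMat ((1 - l) • secL D a (zf G D e l a b) + l • secL D b (zf G D e l a b)) *
        Sharp.frame G (zf G D e l a b) := by
  set z := zf G D e l a b with hzdef
  have hg : (1 - l) • grad G (D a) z + l • grad G (D b) z = 0 := by
    rw [grad, grad, ← mulVec_smul, ← mulVec_smul, ← mulVec_add, cd_balance h he, mulVec_zero]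
  have hc : (1 - l) • conn G z (grad G (D a) z) + l • conn G z (grad G (D b) z) = 0 := by
    rw [← conn_smul, ← conn_smul, ← conn_add, hg, conn_zero]
  have e1 : (1 - l) • hmat G D a z + l • hmat G D b z =
      opMat ((1 - l) • secL D a z + l • secL D b z) := by
    simp only [hmat_eq h, opMat_add, opMat_smul, smul_add]
    rw [add_add_add_comm, hc, add_zero]
  simp only [← e1, zmat, hbar, ← hzdef, Matrix.mul_add, Matrix.add_mul, Matrix.mul_smul,
    Matrix.smul_mul]

/-- Cancelling the middle of a Schur product. -/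
lemma schur_cancel (h : IsCH G D) {z : Fin n → ℝ} {S Z : Matrix (Fin n) (Fin n) ℝ}
    (hZ : Z = Sharp.frame G z * S * Sharp.frame G z) (hdet : IsUnit Z.det) :
    IsUnit S.det ∧ S⁻¹ = Sharp.frame G z * Z⁻¹ * Sharp.frame G z := by
  have hA := isUnit_frame h z
  have hS : IsUnit S.det := by
    rw [hZ, det_mul, det_mul, IsUnit.mul_iff, IsUnit.mul_iff] at hdet
    exact hdet.1.2
  refine ⟨hS, ?_⟩
  rw [hZ, Matrix.mul_inv_rev, Matrix.mul_inv_rev]
  simp only [← Matrix.mul_assoc]
  rw [mul_nonsing_inv _ hA, Matrix.one_mul, Matrix.mul_assoc, nonsing_inv_mul _ hA, Matrix.mul_one]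

/-- The mixed Hessian and the Hessian of the whole from those of the parts. -/
theorem split (h : IsCH G D) (he : IsExp G D e) {l : ℝ} (h0 : 0 < l) (h1 : l < 1)
    (a b : Fin n → ℝ) :
    nbar G D a b =
        -(nbar G D a (zf G D e l a b) * (zmat G D e l a b)⁻¹ * nbar G D (zf G D e l a b) b) ∧
      l • hbar G D b a = hbar G D (zf G D e l a b) a -
        (1 - l) • (nbar G D a (zf G D e l a b) * (zmat G D e l a b)⁻¹ *
          (nbar G D a (zf G D e l a b))ᵀ) := by
  set z := zf G D e l a b with hzdef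
  set T : (Fin n → ℝ) →L[ℝ] (Fin n → ℝ) := (1 - l) • secL D a z + l • secL D b z with hT
  obtain ⟨hS, hSinv⟩ := schur_cancel h (zmat_coord h he l a b)
    (geOne_zmat h e h0.le h1.le a b).posDef.det_pos.ne'.isUnit
  rw [← hzdef, ← hT] at hS hSinv
  have solve : ∀ X Y : Matrix (Fin n) (Fin n) ℝ, opMat T * X + Y = 0 → X = -((opMat T)⁻¹ * Y) :=
    fun X Y hXY => by
      rw [← Matrix.mul_neg, ← eq_neg_of_add_eq_zero_left hXY, ← Matrix.mul_assoc,
        nonsing_inv_mul _ hS, Matrix.one_mul]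
  have hzero : ∀ {φ : (Fin n → ℝ) → (Fin n → ℝ)} {L : (Fin n → ℝ) →L[ℝ] (Fin n → ℝ)}
      {q : Fin n → ℝ}, (∀ w, φ w = 0) → HasFDerivAt φ L q → L = 0 := fun {φ L q} hφ hL => by
    rw [funext hφ] at hL
    exact hL.unique (hasFDerivAt_const 0 q)
  constructor
  · set zb := fderiv ℝ (fun w => zf G D e l a w) b
    have hz : HasFDerivAt (fun w => zf G D e l a w) zb b :=
      (differentiable_zf h he l a b).hasFDerivAt
    have d1 := hzero (fun w => cd_balance h he l a w)
      (((hasFDerivAt_pair h hz (hasFDerivAt_const a b)).const_smul (1 - l)).add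
        ((hasFDerivAt_pair h hz (hasFDerivAt_id b)).const_smul l))
    have d2 := (hasFDerivAt_pair h (hasFDerivAt_const a b) hz).unique
      (((Six.hasFDerivAt_mixed h a b).const_smul l).congr_of_eventuallyEq
        (Eventually.of_forall fun w => cd_left h he l a w))
    replace d1 := congrArg opMat d1
    replace d2 := congrArg opMat d2
    simp only [id_eq, ContinuousLinearMap.comp_zero, ContinuousLinearMap.comp_id, add_zero,
      zero_add, opMat_add, opMat_smul, opMat_comp, ← hzdef] at d1 d2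
    have hX := solve (opMat zb) (l • opMat (mixedD D z b)) (by
      rw [hT, opMat_add, opMat_smul, opMat_smul, Matrix.add_mul, Matrix.smul_mul, Matrix.smul_mul,
        add_assoc, ← smul_add]
      refine d1.trans ?_
      ext i j; simp [opMat])
    rw [hX, Matrix.mul_neg, Matrix.mul_smul, Matrix.mul_smul, ← smul_neg] at d2
    have d3 : -(opMat (mixedD D a z) * ((opMat T)⁻¹ * opMat (mixedD D z b))) =
        opMat (mixedD D a b) := smul_right_injective _ h0.ne' d2
    simp only [nbar, ← d3, hSinv, Matrix.mul_neg, Matrix.neg_mul, Matrix.mul_assoc]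
  · have hza : DifferentiableAt ℝ (fun w => zf G D e l w b) a := by
      rw [show (fun w => zf G D e l w b) = fun w => zf G D e (1 - l) b w from
        funext fun w => (zf_swap h he l w b).symm]
      exact differentiable_zf h he (1 - l) b a
    set za := fderiv ℝ (fun w => zf G D e l w b) a
    have hz : HasFDerivAt (fun w => zf G D e l w b) za a := hza.hasFDerivAt
    have d1 := hzero (fun w => cd_balance h he l w b)
      (((hasFDerivAt_pair h hz (hasFDerivAt_id a)).const_smul (1 - l)).add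
        ((hasFDerivAt_pair h hz (hasFDerivAt_const b a)).const_smul l))
    have d2 := (hasFDerivAt_pair h (hasFDerivAt_id a) hz).unique
      ((((h.contDiff_cd_dist b).differentiable one_ne_zero a).hasFDerivAt.const_smul l
        ).congr_of_eventuallyEq (Eventually.of_forall fun w => cd_left h he l w b))
    replace d1 := congrArg opMat d1
    replace d2 := congrArg opMat d2
    simp only [id_eq, ContinuousLinearMap.comp_zero, ContinuousLinearMap.comp_id, add_zero,
      opMat_add, opMat_smul, opMat_comp, ← hzdef,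
      show fderiv ℝ (cd (D b)) a = secL D b a from rfl] at d1 d2
    have hX := solve (opMat za) ((1 - l) • opMat (mixedD D z a)) (by
      rw [hT, opMat_add, opMat_smul, opMat_smul, Matrix.add_mul, Matrix.smul_mul, Matrix.smul_mul,
        add_right_comm, ← smul_add]
      refine d1.trans ?_
      ext i j; simp [opMat])
    rw [hX, Matrix.mul_neg, Matrix.mul_smul, Matrix.mul_smul] at d2
    have hgrad : grad G (D z) a = l • grad G (D b) a := by
      rw [grad, grad, cd_left h he, mulVec_smul]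
    have e1 : l • hmat G D b a = hmat G D z a -
        (1 - l) • (opMat (mixedD D a z) * ((opMat T)⁻¹ * opMat (mixedD D z a))) := by
      rw [hmat_eq h, hmat_eq h, hgrad, conn_smul, smul_add, ← d2]
      abel
    rw [nbar_transpose h]
    simp only [hbar, nbar]
    rw [← Matrix.smul_mul, ← Matrix.mul_smul, e1, hSinv]
    simp only [Matrix.mul_sub, Matrix.sub_mul, Matrix.mul_smul, Matrix.smul_mul, Matrix.mul_assoc]

/-- The trace and the Jacobian of the whole. -/
theorem split_bounds (h : IsCH G D) (he : IsExp G D e) (hn : 0 < n) {l : ℝ} (h0 : 0 < l)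
    (h1 : l < 1) (a b : Fin n → ℝ) :
    ∃ Q : ℝ, 1 ≤ Q ∧
      ijac G D a b = ijac G D a (zf G D e l a b) * ijac G D (zf G D e l a b) b / Q ∧
      excess G D (zf G D e l a b) a + (1 - l) * (1 - ijac G D a (zf G D e l a b) ^ 2 / Q) ≤
        l * excess G D b a ∧
      excess G D (zf G D e l a b) b + l * (1 - ijac G D (zf G D e l a b) b ^ 2 / Q) ≤
        (1 - l) * excess G D a b := by
  set z := zf G D e l a b with hzdef
  set Z := zmat G D e l a b with hZdef
  have hZ := geOne_zmat h e h0.le h1.le a b (G := G)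
  have hQ := hZ.one_le_det
  refine ⟨Z.det, hQ, ?_, ?_, ?_⟩
  · rw [ijac_eq h, (split h he h0 h1 a b).1, det_neg, det_mul, det_mul, det_nonsing_inv,
      Ring.inverse_eq_inv', ijac_eq h, ijac_eq h, abs_mul, abs_pow, abs_neg, abs_one, one_pow,
      one_mul, abs_mul, abs_mul, abs_inv, abs_of_pos (by linarith : (0 : ℝ) < Z.det)]
    ring
  · have h3 := congrArg Matrix.trace (split h he h0 h1 a b).2
    have h4 := mul_le_mul_of_nonneg_left
      (trace_det_schur hn hZ (contr_nbar h a z)) (sub_nonneg.2 h1.le)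
    rw [trace_smul, trace_sub, trace_smul, smul_eq_mul, smul_eq_mul] at h3
    rw [ijac_eq h, sq_abs, excess, excess]
    linarith
  · have hs := split h he (l := 1 - l) (by linarith) (by linarith) b a
    rw [zf_swap h he] at hs
    have hZ' : zmat G D e (1 - l) b a = Z := by
      rw [hZdef, zmat, zmat, zf_swap h he, sub_sub_cancel, add_comm]
    rw [hZ', sub_sub_cancel] at hs
    have h3 := congrArg Matrix.trace hs.2
    have h4 := mul_le_mul_of_nonneg_left (trace_det_schur hn hZ (contr_nbar h b z)) h0.le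
    rw [trace_smul, trace_sub, trace_smul, smul_eq_mul, smul_eq_mul] at h3
    rw [ijac_symm h z b, ijac_eq h, sq_abs, excess, excess]
    linarith

end Vale.Agent.P219.CH.Relax
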