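import Vale.Agent.P219.Relax.Scalar
import Vale.Agent.P219.Relax.Split

/-!
# P219: the curvature gain of a pair of points

For a Cartan-Hadamard metric the trace excesses of the Hessians of the half squared distance at the
two ends and the inverse Jacobian `q` of the pair satisfy `(1 - q) ^ 2 ≤ excess * excess`. So a pair
with a large Jacobian carries a proportional gain in the first variation at one of its ends.
-/

noncomputable section

open MeasureTheory Set Filter Topology Matrix

namespace Vale.Agent.P219.CH.Relax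

open Six (Phase IsExp logv)

variable {n : ℕ} {G : (Fin n → ℝ) → Matrix (Fin n) (Fin n) ℝ}
  {D : (Fin n → ℝ) → (Fin n → ℝ) → ℝ}

lemma excess_nonneg (h : IsCH G D) (x y : Fin n → ℝ) : 0 ≤ excess G D x y :=
  sub_nonneg.2 (geOne_hbar h x y).card_le_trace

/-- The curvature gain. -/
theorem gain (h : IsCH G D) (hn : 0 < n) (x y : Fin n → ℝ) :
    (1 - ijac G D x y) ^ 2 ≤ excess G D x y * excess G D y x := by
  obtain ⟨e, he⟩ := Six.exists_isExp h
  set v := logv G D x y
  set z : ℝ → (Fin n → ℝ) := fun s => e (x, s • v) with hz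
  have hz1 : z 1 = y := by simp only [hz, one_smul]; exact he.exp_logv x y
  have hzs : ∀ s, logv G D x (z s) = s • v := fun s => he.logv_exp _ _
  have key := scalar_gain (X := fun s => excess G D (z s) x) (Y := fun s => excess G D x (z s))
    (d := fun s => ijac G D x (z s)) one_pos (fun s _ _ => excess_nonneg h _ _)
    (excess_nonneg h _ _) (fun s _ _ => ⟨ijac_pos h _ _, ijac_le_one h _ _⟩) ?_ ?_
  · simp only [hz1] at key
    rwa [mul_comm] at key
  · intro s s' hs hss hs'
    have hs0' : 0 < s' := hs.trans hss
    have hzf : zf G D e (s / s') x (z s') = z s := by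
      rw [zf, hzs, smul_smul, div_mul_cancel₀ _ hs0'.ne']
    obtain ⟨Q, hQ, -, hX, -⟩ := split_bounds h he hn (div_pos hs hs0')
      ((div_lt_one hs0').2 hss) x (z s')
    rw [hzf] at hX
    have h1 : ijac G D x (z s) ^ 2 / Q ≤ ijac G D x (z s) ^ 2 := div_le_self (sq_nonneg _) hQ
    have h2 := mul_le_mul_of_nonneg_left (sub_le_sub_left h1 1)
      (sub_nonneg.2 ((div_le_one hs0').2 hss.le))
    refine le_of_mul_le_mul_left ?_ hs
    have e1 : s * (excess G D (z s) x / s + (1 / s - 1 / s') * (1 - ijac G D x (z s) ^ 2)) =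
        excess G D (z s) x + (1 - s / s') * (1 - ijac G D x (z s) ^ 2) := by
      field_simp
    have e2 : s * (excess G D (z s') x / s') = s / s' * excess G D (z s') x := by ring
    rw [e1, e2]
    linarith
  · intro s hs hs1
    have hzf : zf G D e s x y = z s := rfl
    obtain ⟨Q, hQ, hd, -, hY⟩ := split_bounds h he hn hs hs1 x y
    rw [hzf] at hd hY
    simp only [hz1]
    obtain ⟨p0, p1⟩ := And.intro (ijac_pos h (z s) y) (ijac_le_one h (z s) y)
    obtain ⟨d0, q0⟩ := And.intro (ijac_pos h x (z s)) (ijac_pos h x y)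
    set d1 := ijac G D x (z s)
    set d2 := ijac G D (z s) y
    set d := ijac G D x y
    set Y := excess G D x y
    have h1 : d2 ^ 2 / Q ≤ d2 / Q := by
      gcongr
      rw [sq]; exact mul_le_of_le_one_left p0.le p1
    have h2 : d2 / Q = d / d1 := by rw [hd]; field_simp
    have h3 := excess_nonneg h (z s) y
    have h4 : s - (1 - s) * Y ≤ s * (d / d1) := by
      have := mul_le_mul_of_nonneg_left h1 hs.le
      rw [h2] at this
      linarith
    have e1 : 1 / d - (1 + Y) / d * (1 - s) = (s - (1 - s) * Y) / d := by ring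
    rw [e1, div_le_iff₀ q0]
    refine h4.trans (le_of_eq ?_)
    ring

end Vale.Agent.P219.CH.Relax
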