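import Vale.Agent.P219.Relax.Defs

/-!
# P219: the whole-line condition from pointwise facts

The pairs of crossings of two levels which may be negative are those looking into both superlevel
sets, an up crossing before a down crossing of the other level. Each but the two extreme ones has a
partner with one inward and one outward cosine, further apart and with one crossing in common, and
different pairs have different partners. The two extreme pairs pay for the whole target.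
-/

noncomputable section

open MeasureTheory Set Filter Topology
open scoped ENNReal

namespace Vale.Agent.P219.CH.Relax

variable {n : ℕ}

/-! ## Sums with partners -/

/-- All terms but one that may be negative have partners. -/
lemma le_sum_of_partner {ι : Type*} [DecidableEq ι] (Y : Finset ι) (bad : ι → Prop)
    [DecidablePred bad] (f : ι → ℝ) (π : ι → ι) {e : ι} (he : e ∈ Y) (heb : bad e)
    (hgood : ∀ y ∈ Y, ¬ bad y → 0 ≤ f y)
    (hπ : ∀ y ∈ Y, bad y → y ≠ e → π y ∈ Y ∧ ¬ bad (π y) ∧ 0 ≤ f y + f (π y))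
    (hinj : ∀ y ∈ Y, ∀ y' ∈ Y, bad y → bad y' → y ≠ e → y' ≠ e → π y = π y' → y = y') :
    f e ≤ ∑ y ∈ Y, f y := by
  set B := (Y.filter bad).erase e with hB
  have hmem : ∀ y ∈ B, y ∈ Y ∧ bad y ∧ y ≠ e := fun y hy => by
    simp only [hB, Finset.mem_erase, Finset.mem_filter] at hy
    exact ⟨hy.2.1, hy.2.2, hy.1⟩
  have hsub : B.image π ⊆ Y.filter (fun y => ¬ bad y) := by
    intro z hz
    obtain ⟨y, hy, rfl⟩ := Finset.mem_image.1 hz
    obtain ⟨h1, h2, h3⟩ := hmem y hy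
    exact Finset.mem_filter.2 ⟨(hπ y h1 h2 h3).1, (hπ y h1 h2 h3).2.1⟩
  have hinjB : Set.InjOn π ↑B := fun y hy y' hy' h => by
    obtain ⟨h1, h2, h3⟩ := hmem y hy
    obtain ⟨h1', h2', h3'⟩ := hmem y' hy'
    exact hinj y h1 y' h1' h2 h2' h3 h3' h
  have hge : ∑ y ∈ B, f (π y) ≤ ∑ y ∈ Y.filter (fun y => ¬ bad y), f y := by
    rw [← Finset.sum_image hinjB]
    exact Finset.sum_le_sum_of_subset_of_nonneg hsub fun y hy _ =>
      hgood y (Finset.mem_filter.1 hy).1 (Finset.mem_filter.1 hy).2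
  have hpair : 0 ≤ ∑ y ∈ B, f y + ∑ y ∈ B, f (π y) := by
    rw [← Finset.sum_add_distrib]
    exact Finset.sum_nonneg fun y hy => by
      obtain ⟨h1, h2, h3⟩ := hmem y hy
      exact (hπ y h1 h2 h3).2.2
  have hsplit := Finset.sum_filter_add_sum_filter_not Y bad f
  have he' : e ∈ Y.filter bad := Finset.mem_filter.2 ⟨he, heb⟩
  have := Finset.sum_erase_add (Y.filter bad) f he'
  rw [← hB] at this
  linarith

/-- The sum over the ordered pairs is at least the term of the extreme pair. -/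
lemma le_sum_chain (X Y : Finset ℝ) (up : ℝ → Prop) [DecidablePred up] (f : ℝ → ℝ → ℝ)
    {x₀ y₀ : ℝ} (hx₀ : x₀ ∈ X) (hy₀ : y₀ ∈ Y) (hmax : ∀ y ∈ Y, y ≤ y₀)
    (hux : up x₀) (hdy : ¬ up y₀) (hlt : x₀ < y₀)
    (hpred : ∀ x ∈ X, up x → x ≠ x₀ →
      ∃ z ∈ X, z < x ∧ ¬ up z ∧ ∀ w ∈ X, w < x → w ≤ z)
    (hsucc : ∀ y ∈ Y, ¬ up y → y ≠ y₀ →
      ∃ z ∈ Y, y < z ∧ up z ∧ ∀ w ∈ Y, y < w → z ≤ w)
    (hpos : ∀ x ∈ X, ∀ y ∈ Y, x < y → ¬ (up x ∧ ¬ up y) → 0 ≤ f x y)
    (hT₁ : ∀ x ∈ X, ∀ y ∈ Y, ∀ y' ∈ Y, x < y → y < y' → up x → ¬ up y → up y' →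
      0 ≤ f x y + f x y')
    (hT₂ : ∀ x ∈ X, ∀ x' ∈ X, ∀ y ∈ Y, x' < x → x < y → ¬ up x' → up x → ¬ up y →
      0 ≤ f x y + f x' y) :
    f x₀ y₀ ≤ ∑ x ∈ X, ∑ y ∈ Y, if x < y then f x y else 0 := by
  classical
  have inner : ∀ x ∈ X, (if x < y₀ then f x y₀ else 0) ≤
      ∑ y ∈ Y, if x < y then f x y else 0 := by
    intro x hx
    rw [← Finset.sum_filter]
    by_cases hxy : x < y₀
    · have hy₀' : y₀ ∈ Y.filter (fun y => x < y) := Finset.mem_filter.2 ⟨hy₀, hxy⟩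
      rw [if_pos hxy]
      by_cases hu : up x
      · choose! π hπY hπlt hπup hπmin using hsucc
        refine le_sum_of_partner (Y.filter fun y => x < y) (fun y => ¬ up y) (f x) π hy₀' hdy
          ?_ ?_ ?_
        · intro y hy hu'
          obtain ⟨hy1, hy2⟩ := Finset.mem_filter.1 hy
          exact hpos x hx y hy1 hy2 fun h => hu' h.2
        · intro y hy hu' hne
          obtain ⟨hy1, hy2⟩ := Finset.mem_filter.1 hy
          have h1 := hπlt y hy1 hu' hne
          have h2 := hπY y hy1 hu' hne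
          have h3 := hπup y hy1 hu' hne
          exact ⟨Finset.mem_filter.2 ⟨h2, hy2.trans h1⟩, fun h => h h3,
            hT₁ x hx y hy1 _ h2 hy2 h1 hu hu' h3⟩
        · intro y hy y' hy' hu' hu'' hne hne' he
          have h1 := (Finset.mem_filter.1 hy).1
          have h1' := (Finset.mem_filter.1 hy').1
          rcases lt_trichotomy y y' with h | h | h
          · exact absurd (he ▸ hπlt y' h1' hu'' hne')
              (not_lt.2 (hπmin y h1 hu' hne y' h1' h))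
          · exact h
          · exact absurd (he.symm ▸ hπlt y h1 hu' hne)
              (not_lt.2 (hπmin y' h1' hu'' hne' y h1 h))
      · exact Finset.single_le_sum (f := f x) (fun y hy => hpos x hx y (Finset.mem_filter.1 hy).1
          (Finset.mem_filter.1 hy).2 fun h => hu h.1) hy₀'
    · rw [if_neg hxy]
      refine Finset.sum_nonneg fun y hy => ?_
      obtain ⟨hy1, hy2⟩ := Finset.mem_filter.1 hy
      exact absurd (hy2.trans_le (hmax y hy1)) hxy
  refine le_trans ?_ (Finset.sum_le_sum inner)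
  rw [← Finset.sum_filter]
  choose! π hπX hπlt hπdown hπmax using hpred
  refine le_sum_of_partner (X.filter fun x => x < y₀) up (fun x => f x y₀) π
    (Finset.mem_filter.2 ⟨hx₀, hlt⟩) hux ?_ ?_ ?_
  · intro x hx hu
    obtain ⟨hx1, hx2⟩ := Finset.mem_filter.1 hx
    exact hpos x hx1 y₀ hy₀ hx2 fun h => hu h.1
  · intro x hx hu hne
    obtain ⟨hx1, hx2⟩ := Finset.mem_filter.1 hx
    have h1 := hπlt x hx1 hu hne
    have h2 := hπX x hx1 hu hne
    have h3 := hπdown x hx1 hu hne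
    exact ⟨Finset.mem_filter.2 ⟨h2, h1.trans hx2⟩, h3,
      hT₂ x hx1 _ h2 y₀ hy₀ h1 hx2 h3 hu hdy⟩
  · intro x hx x' hx' hu hu' hne hne' he
    have h1 := (Finset.mem_filter.1 hx).1
    have h1' := (Finset.mem_filter.1 hx').1
    rcases lt_trichotomy x x' with h | h | h
    · exact absurd (he.symm ▸ hπlt x h1 hu hne) (not_lt.2 (hπmax x' h1' hu' hne' x h1 h))
    · exact h
    · exact absurd (he ▸ hπlt x' h1' hu' hne') (not_lt.2 (hπmax x h1 hu hne x' h1' h))

/-! ## Crossings of a level -/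

section Crossings

variable {g : ℝ → ℝ} {h : ℝ}

/-- Just after an up crossing the function is above the level, just before it below. -/
lemma exists_near_up (hd : ∀ t, DifferentiableAt ℝ g t) {t : ℝ} (ht : g t = h)
    (hu : 0 < deriv g t) :
    (∀ b, t < b → ∃ s, t < s ∧ s < b ∧ h < g s) ∧ (∀ a, a < t → ∃ s, a < s ∧ s < t ∧ g s < h) := by
  have hs : ∀ᶠ s in 𝓝[≠] t, 0 < slope g t s :=
    (hasDerivAt_iff_tendsto_slope.1 (hd t).hasDerivAt).eventually (eventually_gt_nhds hu)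
  constructor
  · intro b hb
    have h1 : ∀ᶠ s in 𝓝[>] t, 0 < slope g t s ∧ s ∈ Ioo t b :=
      (hs.filter_mono (nhdsWithin_mono t fun s (h : t < s) => h.ne')).and (Ioo_mem_nhdsGT hb)
    obtain ⟨s, hs1, hs2, hs3⟩ := h1.exists
    rw [slope_def_field, ht] at hs1
    rcases div_pos_iff.1 hs1 with ⟨h2, -⟩ | ⟨-, h2⟩
    · exact ⟨s, hs2, hs3, by linarith⟩
    · linarith
  · intro a ha
    have h1 : ∀ᶠ s in 𝓝[<] t, 0 < slope g t s ∧ s ∈ Ioo a t :=
      (hs.filter_mono (nhdsWithin_mono t fun s (h : s < t) => h.ne)).and (Ioo_mem_nhdsLT ha)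
    obtain ⟨s, hs1, hs2, hs3⟩ := h1.exists
    rw [slope_def_field, ht] at hs1
    rcases div_pos_iff.1 hs1 with ⟨-, h2⟩ | ⟨h2, -⟩
    · linarith
    · exact ⟨s, hs2, hs3, by linarith⟩

/-- Just after a down crossing the function is below the level, just before it above. -/
lemma exists_near_down (hd : ∀ t, DifferentiableAt ℝ g t) {t : ℝ} (ht : g t = h)
    (hu : deriv g t < 0) :
    (∀ b, t < b → ∃ s, t < s ∧ s < b ∧ g s < h) ∧ (∀ a, a < t → ∃ s, a < s ∧ s < t ∧ h < g s) := by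
  have h1 := exists_near_up (g := fun s => -g s) (h := -h) (t := t) (fun s => (hd s).neg)
    (by simp [ht]) (by rw [deriv.fun_neg]; linarith)
  constructor
  · intro b hb
    obtain ⟨s, a1, a2, a3⟩ := h1.1 b hb
    exact ⟨s, a1, a2, by linarith⟩
  · intro a ha
    obtain ⟨s, a1, a2, a3⟩ := h1.2 a ha
    exact ⟨s, a1, a2, by linarith⟩

/-- Two consecutive crossings are crossed in opposite directions. -/
lemma consecutive (hd : ∀ t, DifferentiableAt ℝ g t) {a b : ℝ} (hab : a < b) (ha : g a = h)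
    (hb : g b = h) (ha' : deriv g a ≠ 0) (hb' : deriv g b ≠ 0)
    (hno : ∀ t ∈ Ioo a b, g t ≠ h) : 0 < deriv g a ↔ deriv g b < 0 := by
  have hcont : Continuous g := continuous_iff_continuousAt.2 fun t => (hd t).continuousAt
  constructor
  · intro hu
    by_contra hc
    have hv : 0 < deriv g b := lt_of_le_of_ne (not_lt.1 hc) (Ne.symm hb')
    obtain ⟨s, s1, s2, s3⟩ := (exists_near_up hd ha hu).1 b hab
    obtain ⟨t, t1, t2, t3⟩ := (exists_near_up hd hb hv).2 s s2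
    obtain ⟨z, hz, hz'⟩ := intermediate_value_Icc' t1.le hcont.continuousOn ⟨t3.le, s3.le⟩
    exact hno z ⟨s1.trans_le hz.1, hz.2.trans_lt t2⟩ hz'
  · intro hv
    by_contra hc
    have hu : deriv g a < 0 := lt_of_le_of_ne (not_lt.1 hc) ha'
    obtain ⟨s, s1, s2, s3⟩ := (exists_near_down hd ha hu).1 b hab
    obtain ⟨t, t1, t2, t3⟩ := (exists_near_down hd hb hv).2 s s2
    obtain ⟨z, hz, hz'⟩ := intermediate_value_Icc t1.le hcont.continuousOn ⟨s3.le, t3.le⟩
    exact hno z ⟨s1.trans_le hz.1, hz.2.trans_lt t2⟩ hz'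

/-- Left and right of the crossings a function with compact support is below a positive level. -/
lemma le_level_outside (hg : Continuous g) (hs : HasCompactSupport g) (hh : 0 < h)
    {S : Finset ℝ} (hS : ∀ t, t ∈ S ↔ g t = h) {t : ℝ} (ht : h < g t) :
    (∃ z ∈ S, z < t) ∧ ∃ z ∈ S, t < z := by
  obtain ⟨C, hC⟩ := hs.isBounded.subset_closedBall 0
  have hout : ∀ s : ℝ, C < |s| → g s = 0 := fun s h' => by
    apply image_eq_zero_of_notMem_tsupport
    intro h''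
    have := hC h''
    rw [Metric.mem_closedBall, Real.dist_0_eq_abs] at this
    linarith
  constructor
  · have h0 : g (-|C| - |t| - 1) = 0 := hout _ (by
      rw [abs_of_nonpos (by linarith [abs_nonneg C, abs_nonneg t])]
      linarith [le_abs_self C, abs_nonneg t])
    obtain ⟨z, hz, hz'⟩ := intermediate_value_Icc
      (show -|C| - |t| - 1 ≤ t by linarith [abs_nonneg C, neg_abs_le t]) hg.continuousOn
      (show h ∈ Icc (g (-|C| - |t| - 1)) (g t) from ⟨by linarith, ht.le⟩)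
    refine ⟨z, (hS z).2 hz', lt_of_le_of_ne hz.2 fun h' => ?_⟩
    rw [h'] at hz'
    linarith
  · have h0 : g (|C| + |t| + 1) = 0 := hout _ (by
      rw [abs_of_nonneg (by linarith [abs_nonneg C, abs_nonneg t])]
      linarith [le_abs_self C, abs_nonneg t])
    obtain ⟨z, hz, hz'⟩ := intermediate_value_Icc'
      (show t ≤ |C| + |t| + 1 by linarith [abs_nonneg C, le_abs_self t]) hg.continuousOn
      (show h ∈ Icc (g (|C| + |t| + 1)) (g t) from ⟨by linarith, ht.le⟩)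
    refine ⟨z, (hS z).2 hz', lt_of_le_of_ne hz.1 fun h' => ?_⟩
    rw [← h'] at hz'
    linarith

/-- The first crossing is up, the last down, the neighbours of any other are opposite. -/
lemma crossings (hd : ∀ t, DifferentiableAt ℝ g t) (hs : HasCompactSupport g) (hh : 0 < h)
    {S : Finset ℝ} (hS : ∀ t, t ∈ S ↔ g t = h) (hne : ∀ t ∈ S, deriv g t ≠ 0)
    (hn : S.Nonempty) :
    0 < deriv g (S.min' hn) ∧ deriv g (S.max' hn) < 0 ∧
    (∀ x ∈ S, 0 < deriv g x → x ≠ S.min' hn →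
      ∃ z ∈ S, z < x ∧ ¬ 0 < deriv g z ∧ ∀ w ∈ S, w < x → w ≤ z) ∧
    (∀ x ∈ S, ¬ 0 < deriv g x → x ≠ S.max' hn →
      ∃ z ∈ S, x < z ∧ 0 < deriv g z ∧ ∀ w ∈ S, x < w → z ≤ w) := by
  have hcont : Continuous g := continuous_iff_continuousAt.2 fun t => (hd t).continuousAt
  have hm := Finset.min'_mem S hn
  have hM := Finset.max'_mem S hn
  refine ⟨?_, ?_, ?_, ?_⟩
  · by_contra hc
    have hv := lt_of_le_of_ne (not_lt.1 hc) (hne _ hm)
    obtain ⟨s, -, s2, s3⟩ := (exists_near_down hd ((hS _).1 hm) hv).2 _ (sub_one_lt _)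
    obtain ⟨⟨z, hz, hz'⟩, -⟩ := le_level_outside hcont hs hh hS s3
    linarith [S.min'_le z hz]
  · by_contra hc
    have hv := lt_of_le_of_ne (not_lt.1 hc) (Ne.symm (hne _ hM))
    obtain ⟨s, s1, -, s3⟩ := (exists_near_up hd ((hS _).1 hM) hv).1 _ (lt_add_one _)
    obtain ⟨-, z, hz, hz'⟩ := le_level_outside hcont hs hh hS s3
    linarith [S.le_max' z hz]
  · intro x hx hu hx'
    have hF : (S.filter fun w => w < x).Nonempty :=
      ⟨S.min' hn, Finset.mem_filter.2 ⟨hm, lt_of_le_of_ne (S.min'_le x hx) (Ne.symm hx')⟩⟩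
    obtain ⟨hz1, hz2⟩ := Finset.mem_filter.1 (Finset.max'_mem _ hF)
    have hmax : ∀ w ∈ S, w < x → w ≤ (S.filter fun w => w < x).max' hF := fun w hw hw' =>
      Finset.le_max' _ w (Finset.mem_filter.2 ⟨hw, hw'⟩)
    refine ⟨_, hz1, hz2, fun hz => ?_, hmax⟩
    have := (consecutive hd hz2 ((hS _).1 hz1) ((hS _).1 hx) (hne _ hz1) (hne _ hx) fun t ht he =>
      by linarith [hmax t ((hS t).2 he) ht.2, ht.1]).1 hz
    linarith
  · intro x hx hu hx'
    have hF : (S.filter fun w => x < w).Nonempty :=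
      ⟨S.max' hn, Finset.mem_filter.2 ⟨hM, lt_of_le_of_ne (S.le_max' x hx) hx'⟩⟩
    obtain ⟨hz1, hz2⟩ := Finset.mem_filter.1 (Finset.min'_mem _ hF)
    have hmin : ∀ w ∈ S, x < w → (S.filter fun w => x < w).min' hF ≤ w := fun w hw hw' =>
      Finset.min'_le _ w (Finset.mem_filter.2 ⟨hw, hw'⟩)
    refine ⟨_, hz1, hz2, ?_, hmin⟩
    by_contra hz
    exact hu ((consecutive hd hz2 ((hS _).1 hx) ((hS _).1 hz1) (hne _ hx) (hne _ hz1) fun t ht he =>
      by linarith [hmin t ((hS t).2 he) ht.1, ht.2]).2 (lt_of_le_of_ne (not_lt.1 hz) (hne _ hz1)))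

end Crossings

/-! ## The whole line -/

lemma sym_comm (ρ : ℝ) (w : ℝ × ℝ → ℝ) (r c d : ℝ) : sym n ρ w r c d = sym n ρ w r d c := by
  unfold sym
  ring

lemma phi_comm (ρ ε : ℝ) (w : ℝ × ℝ → ℝ) (r c d : ℝ) :
    phi n ρ ε w r c d = phi n ρ ε w r d c := by
  simp only [phi, sym_comm ρ w r c d, mul_comm c d]

lemma crossPhi_comm (ρ ε : ℝ) (w : ℝ × ℝ → ℝ) (g : ℝ → ℝ) (σ : ℝ) (c : ℝ → ℝ) (t t' : ℝ) :
    crossPhi n ρ ε w g σ c t t' = crossPhi n ρ ε w g σ c t' t := by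
  simp only [crossPhi, min_comm t t', max_comm t t', abs_sub_comm t t']

/-- The whole-line condition from four pointwise facts: the value is nonpositive, the symmetrised
kernel of two inward cosines is above the two values, a pair with one outward cosine pays for any
shorter pair sharing a cosine, and pairs with an outward cosine are nonnegative. -/
theorem lineOK_of_pointwise {ρ β ε T : ℝ} {a : ℝ → ℝ} {w : ℝ × ℝ → ℝ}
    (hβ : 0 ≤ β) (hε : 0 ≤ ε) (ha : ∀ c ∈ Ioc (0 : ℝ) 1, a c ≤ 0)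
    (hF : ∀ r c d, r ∈ Ioc 0 T → c ∈ Ioc (0 : ℝ) 1 → d ∈ Ioc (0 : ℝ) 1 →
      a c / c + a d / d + 2 * β * r - 2 * ε ≤ phi n ρ ε w r c d)
    (hT : ∀ r p c d e, 0 < r → r ≤ p → p ≤ T → c ∈ Ioc (0 : ℝ) 1 → d ∈ Ioc (0 : ℝ) 1 →
      e ∈ Ioc (0 : ℝ) 1 → 0 ≤ phi n ρ ε w r c d + phi n ρ ε w p c (-e))
    (hM : ∀ r c d, r ∈ Ioc 0 T → c ∈ Ioc (0 : ℝ) 1 → d ∈ Ioc (0 : ℝ) 1 →
      0 ≤ phi n ρ ε w r c (-d) ∧ 0 ≤ phi n ρ ε w r (-c) (-d)) :
    LineOK n ρ a β ε T w := by
  intro g σ lo hi S U c hg hsupp hσ hlo hlh _hhi hS hU hder hc hdist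
  have hd : ∀ t, DifferentiableAt ℝ g t := fun t => hg.differentiable one_ne_zero t
  have hA : ∀ t ∈ S ∪ U, a (c t) / c t ≤ 0 := fun t ht =>
    div_nonpos_of_nonpos_of_nonneg (ha _ (hc t ht)) (hc t ht).1.le
  have hA' : ∀ t ∈ S ∪ U, a (c t) / c t - ε ≤ 0 := fun t ht => by linarith [hA t ht]
  rcases U.eq_empty_or_nonempty with hUe | hUn
  · have hv : {t | hi < g t} = (∅ : Set ℝ) := Set.eq_empty_iff_forall_notMem.2 fun t ht => by
      obtain ⟨⟨z, hz, -⟩, -⟩ := le_level_outside hg.continuous hsupp (hlo.trans hlh) hU ht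
      simp [hUe] at hz
    have h1 := Finset.sum_nonpos (s := S) (f := fun t => a (c t) / c t - ε)
      fun t ht => hA' t (Finset.mem_union_left _ ht)
    simpa [hUe, hv] using h1
  have hloU : ∀ t ∈ U, lo < g t := fun t ht => by rw [(hU t).1 ht]; exact hlh
  obtain ⟨t₀, ht₀⟩ := hUn
  obtain ⟨⟨z₀, hz₀, -⟩, -⟩ := le_level_outside hg.continuous hsupp hlo hS (hloU t₀ ht₀)
  have hSn : S.Nonempty := ⟨z₀, hz₀⟩
  have hUn : U.Nonempty := ⟨t₀, ht₀⟩
  obtain ⟨sup₁, sdn₁, sp, ss⟩ := crossings hd hsupp hlo hS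
    (fun t ht => hder t (Finset.mem_union_left _ ht)) hSn
  obtain ⟨uup₁, udn₁, upp, us⟩ := crossings hd hsupp (hlo.trans hlh) hU
    (fun t ht => hder t (Finset.mem_union_right _ ht)) hUn
  set a₁ := S.min' hSn
  set b₁ := S.max' hSn
  set p₁ := U.min' hUn
  set q₁ := U.max' hUn
  have ha₁ : a₁ ∈ S := S.min'_mem hSn
  have hb₁ : b₁ ∈ S := S.max'_mem hSn
  have hp₁ : p₁ ∈ U := U.min'_mem hUn
  have hq₁ : q₁ ∈ U := U.max'_mem hUn
  have hap : a₁ < p₁ := by
    obtain ⟨⟨z, hz, hz'⟩, -⟩ := le_level_outside hg.continuous hsupp hlo hS (hloU p₁ hp₁)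
    exact (S.min'_le z hz).trans_lt hz'
  have hqb : q₁ < b₁ := by
    obtain ⟨-, z, hz, hz'⟩ := le_level_outside hg.continuous hsupp hlo hS (hloU q₁ hq₁)
    exact hz'.trans_le (S.le_max' z hz)
  have hpq : p₁ ≤ q₁ := U.min'_le q₁ hq₁
  set f := fun x y : ℝ => crossPhi n ρ ε w g σ c x y
  have hf : ∀ {x y : ℝ}, x < y → f x y = phi n ρ ε w (σ * (y - x)) (Real.sign (deriv g x) * c x)
      (-(Real.sign (deriv g y) * c y)) := fun {x y} h => by
    simp only [f, crossPhi, min_eq_left h.le, max_eq_right h.le, abs_of_pos (sub_pos.2 h)]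
  have hup : ∀ {x : ℝ}, 0 < deriv g x → Real.sign (deriv g x) = 1 := Real.sign_of_pos
  have hdn : ∀ {x : ℝ}, x ∈ S ∪ U → ¬ 0 < deriv g x → Real.sign (deriv g x) = -1 := fun hx h =>
    Real.sign_of_neg (lt_of_le_of_ne (not_lt.1 h) (hder _ hx))
  have hr : ∀ {x y : ℝ}, x ∈ S ∪ U → y ∈ S ∪ U → x < y → σ * (y - x) ∈ Ioc 0 T := fun {x y} hx hy h =>
    ⟨mul_pos hσ (sub_pos.2 h), by simpa [abs_of_pos (sub_pos.2 h)] using hdist x hx y hy⟩
  have hpos : ∀ x ∈ S ∪ U, ∀ y ∈ S ∪ U, x < y → ¬ (0 < deriv g x ∧ ¬ 0 < deriv g y) → 0 ≤ f x y := by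
    intro x hx y hy hxy hns
    have hm := hM _ _ _ (hr hx hy hxy) (hc x hx) (hc y hy)
    rw [hf hxy]
    by_cases hux : 0 < deriv g x
    · have huy : 0 < deriv g y := by_contra fun h => hns ⟨hux, h⟩
      rw [hup hux, hup huy, one_mul, one_mul]
      exact hm.1
    · rw [hdn hx hux]
      by_cases huy : 0 < deriv g y
      · rw [hup huy, one_mul, neg_one_mul]
        exact hm.2
      · rw [hdn hy huy, neg_one_mul, neg_one_mul, neg_neg, phi_comm]
        exact (hM _ _ _ (hr hx hy hxy) (hc y hy) (hc x hx)).1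
  have hT₁ : ∀ x ∈ S ∪ U, ∀ y ∈ S ∪ U, ∀ y' ∈ S ∪ U, x < y → y < y' → 0 < deriv g x →
      ¬ 0 < deriv g y → 0 < deriv g y' → 0 ≤ f x y + f x y' := by
    intro x hx y hy y' hy' h1 h2 u1 u2 u3
    rw [hf h1, hf (h1.trans h2), hup u1, hdn hy u2, hup u3]
    simp only [one_mul, neg_one_mul, neg_neg]
    exact hT _ _ _ _ _ (hr hx hy h1).1 (by nlinarith) (hr hx hy' (h1.trans h2)).2
      (hc x hx) (hc y hy) (hc y' hy')
  have hT₂ : ∀ x ∈ S ∪ U, ∀ x' ∈ S ∪ U, ∀ y ∈ S ∪ U, x' < x → x < y → ¬ 0 < deriv g x' →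
      0 < deriv g x → ¬ 0 < deriv g y → 0 ≤ f x y + f x' y := by
    intro x hx x' hx' y hy h1 h2 u1 u2 u3
    rw [hf h2, hf (h1.trans h2), hup u2, hdn hx' u1, hdn hy u3]
    simp only [one_mul, neg_one_mul, neg_neg]
    rw [phi_comm ρ ε w _ (c x), phi_comm ρ ε w _ (-c x')]
    exact hT _ _ _ _ _ (hr hx hy h2).1 (by nlinarith) (hr hx' hy (h1.trans h2)).2
      (hc y hy) (hc x hx) (hc x' hx')
  have hS' := fun t (ht : t ∈ S) => Finset.mem_union_left U ht
  have hU' := fun t (ht : t ∈ U) => Finset.mem_union_right S ht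
  have hSU := le_sum_chain S U (fun t => 0 < deriv g t) f ha₁ hq₁
    (fun y hy => U.le_max' y hy) sup₁ (not_lt.2 udn₁.le) (hap.trans_le hpq) sp us
    (fun x hx y hy => hpos x (hS' x hx) y (hU' y hy))
    (fun x hx y hy y' hy' => hT₁ x (hS' x hx) y (hU' y hy) y' (hU' y' hy'))
    (fun x hx x' hx' y hy => hT₂ x (hS' x hx) x' (hS' x' hx') y (hU' y hy))
  have hUS := le_sum_chain U S (fun t => 0 < deriv g t) f hp₁ hb₁
    (fun y hy => S.le_max' y hy) uup₁ (not_lt.2 sdn₁.le) (hpq.trans_lt hqb) upp ss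
    (fun x hx y hy => hpos x (hU' x hx) y (hS' y hy))
    (fun x hx y hy y' hy' => hT₁ x (hU' x hx) y (hS' y hy) y' (hS' y' hy'))
    (fun x hx x' hx' y hy => hT₂ x (hU' x hx) x' (hU' x' hx') y (hS' y hy))
  have htot : ∑ t ∈ S, ∑ t' ∈ U, crossPhi n ρ ε w g σ c t t' =
      (∑ x ∈ S, ∑ y ∈ U, if x < y then f x y else 0) +
        ∑ x ∈ U, ∑ y ∈ S, if x < y then f x y else 0 := by
    rw [Finset.sum_comm (s := U) (t := S), ← Finset.sum_add_distrib]
    refine Finset.sum_congr rfl fun x hx => ?_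
    rw [← Finset.sum_add_distrib]
    refine Finset.sum_congr rfl fun y hy => ?_
    have hne : x ≠ y := fun h => by
      have h1 := (hS x).1 hx
      have h2 := (hU y).1 hy
      rw [h] at h1
      linarith
    rcases lt_or_gt_of_ne hne with h | h
    · simp [f, h, not_lt.2 h.le]
    · simp [f, h, not_lt.2 h.le, crossPhi_comm ρ ε w g σ c x y]
  have hF₁ := hF _ _ _ (hr (hS' _ ha₁) (hU' _ hq₁) (hap.trans_le hpq)) (hc _ (hS' _ ha₁))
    (hc _ (hU' _ hq₁))
  have hF₂ := hF _ _ _ (hr (hU' _ hp₁) (hS' _ hb₁) (hpq.trans_lt hqb)) (hc _ (hU' _ hp₁))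
    (hc _ (hS' _ hb₁))
  have e₁ : f a₁ q₁ = phi n ρ ε w (σ * (q₁ - a₁)) (c a₁) (c q₁) := by
    rw [hf (hap.trans_le hpq), hup sup₁, hdn (hU' _ hq₁) (not_lt.2 udn₁.le)]
    simp
  have e₂ : f p₁ b₁ = phi n ρ ε w (σ * (b₁ - p₁)) (c p₁) (c b₁) := by
    rw [hf (hpq.trans_lt hqb), hup uup₁, hdn (hS' _ hb₁) (not_lt.2 sdn₁.le)]
    simp
  have two : ∀ V : Finset ℝ, V ⊆ S ∪ U → ∀ x ∈ V, ∀ y ∈ V, x ≠ y →
      ∑ t ∈ V, (a (c t) / c t - ε) ≤ (a (c x) / c x - ε) + (a (c y) / c y - ε) := by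
    intro V hV x hx y hy hxy
    rw [← Finset.sum_pair (f := fun t => a (c t) / c t - ε) hxy]
    exact Finset.sum_le_sum_of_subset_of_nonpos'
      (Finset.insert_subset hx (Finset.singleton_subset_iff.2 hy))
      (fun t ht _ => hA' t (hV ht))
  have hAS := two S Finset.subset_union_left a₁ ha₁ b₁ hb₁ (hap.trans_le hpq |>.trans hqb).ne
  have hpq' : p₁ ≠ q₁ := fun h => by
    rw [h] at uup₁
    linarith
  have hAU := two U Finset.subset_union_right p₁ hp₁ q₁ hq₁ hpq'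
  have hvol : (volume {t | hi < g t}).toReal ≤ q₁ - p₁ := by
    refine (ENNReal.toReal_mono measure_Icc_lt_top.ne
      (measure_mono (t := Icc p₁ q₁) fun t ht => ?_)).trans_eq ?_
    · obtain ⟨⟨z, hz, hz'⟩, z', hz₂, hz₂'⟩ :=
        le_level_outside hg.continuous hsupp (hlo.trans hlh) hU ht
      exact ⟨((U.min'_le z hz).trans_lt hz').le, (hz₂'.trans_le (U.le_max' z' hz₂)).le⟩
    · rw [Real.volume_Icc, ENNReal.toReal_ofReal (sub_nonneg.2 hpq)]
  have hm : 4 * β * σ * (volume {t | hi < g t}).toReal ≤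
      2 * β * (σ * (q₁ - a₁)) + 2 * β * (σ * (b₁ - p₁)) := by
    have hk : 0 ≤ β * σ := mul_nonneg hβ hσ.le
    nlinarith [mul_le_mul_of_nonneg_left hvol hk, mul_le_mul_of_nonneg_left hap.le hk,
      mul_le_mul_of_nonneg_left hqb.le hk]
  rw [htot]
  linarith

/-- The pair bound in the form used by the pointwise certificates gives that of `phi`. -/
lemma phi_lower_of_pair {ρ β ε r c d : ℝ} {a : ℝ → ℝ} {w : ℝ × ℝ → ℝ} (hr : 0 ≤ r) (hε : 0 ≤ ε)
    (hc : 0 < c) (hd : 0 < d)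
    (h : a c * d + a d * c + 2 * β * c * d * r - ε * (c * d) ≤
      Real.sinh r ^ (n - 1) * sym n ρ w r c d) :
    a c / c + a d / d + 2 * β * r - 2 * ε ≤ phi n ρ ε w r c d := by
  have hcd : 0 < c * d := mul_pos hc hd
  rw [phi, abs_of_pos hcd, le_div_iff₀ hcd]
  have e : (a c / c + a d / d + 2 * β * r - 2 * ε) * (c * d) =
      a c * d + a d * c + 2 * β * c * d * r - 2 * ε * (c * d) := by
    field_simp
  rw [e, mul_add]
  nlinarith [mul_nonneg hε hcd.le, mul_nonneg (pow_nonneg (Real.sinh_nonneg_iff.2 hr) (n - 1)) hε]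

end Vale.Agent.P219.CH.Relax
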