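import Vale.Agent.P219.Relax.SplitBend
import Vale.Agent.P219.Gen.PolarBend
import Vale.Agent.P219.Six.PairPoint

/-!
# P219: the Hessian comparison weakens when the bound on the curvature weakens
-/

noncomputable section

open Set Filter Topology Matrix

namespace Vale.Agent.P219.CH.Relax

open Bend (cfac sfac csh cshd cshdd)

variable {n : ℕ} {G : (Fin n → ℝ) → Matrix (Fin n) (Fin n) ℝ}
  {D : (Fin n → ℝ) → (Fin n → ℝ) → ℝ}

/-- `x coth x` increases. -/
lemma mul_coth_mono {x y : ℝ} (hx : 0 < x) (hxy : x ≤ y) :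
    x * Real.cosh x / Real.sinh x ≤ y * Real.cosh y / Real.sinh y := by
  have hd : ∀ t, 0 < t → HasDerivAt (fun t => t * Real.cosh t / Real.sinh t)
      (((1 * Real.cosh t + t * Real.sinh t) * Real.sinh t - t * Real.cosh t * Real.cosh t) /
        Real.sinh t ^ 2) t := fun t ht =>
    ((hasDerivAt_id t).mul (Real.hasDerivAt_cosh t)).div (Real.hasDerivAt_sinh t)
      (Real.sinh_pos_iff.2 ht).ne'
  have hm : MonotoneOn (fun t => t * Real.cosh t / Real.sinh t) (Ici x) := by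
    refine monotoneOn_of_hasDerivWithinAt_nonneg (convex_Ici x)
      (fun t ht => (hd t (hx.trans_le ht)).continuousAt.continuousWithinAt)
      (fun t ht => (hd t (hx.trans_le (interior_subset ht))).hasDerivWithinAt) fun t ht => ?_
    have ht0 : 0 < t := hx.trans_le (interior_subset (s := Ici x) ht)
    refine div_nonneg ?_ (sq_nonneg _)
    have h1 : 2 * t ≤ Real.sinh (2 * t) := Real.self_le_sinh_iff.2 (by linarith)
    have h2 := Real.cosh_sq_sub_sinh_sq t
    rw [Real.sinh_two_mul] at h1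
    nlinarith
  exact hm self_mem_Ici hxy hxy

/-- `b r coth (b r)` increases in `b`. -/
lemma cfac_mono {b' b t : ℝ} (hb' : 0 < b') (hb : b' ≤ b) (ht : 0 < t) :
    cfac b' t ≤ cfac b t := by
  obtain ⟨r, hr, rfl⟩ : ∃ r, 0 < r ∧ r ^ 2 / 2 = t :=
    ⟨Real.sqrt (2 * t), Real.sqrt_pos.2 (by linarith), by rw [Real.sq_sqrt (by linarith)]; ring⟩
  have e : ∀ c : ℝ, 0 < c → cfac c (r ^ 2 / 2) = c * r * Real.cosh (c * r) / Real.sinh (c * r) := by
    intro c hc
    have h1 := cfac_sq c r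
    have h2 := Gen.mul_sfac c r
    rw [sn, if_neg hc.ne'] at h2
    have hs : 0 < Real.sinh (c * r) := Real.sinh_pos_iff.2 (mul_pos hc hr)
    rw [eq_div_iff hs.ne', ← h1]
    field_simp at h2
    rw [mul_comm r c] at h2
    linear_combination -(cfac c (r ^ 2 / 2)) * h2
  rw [e b' hb', e b (hb'.trans_le hb)]
  exact mul_coth_mono (mul_pos hb' hr) (mul_le_mul_of_nonneg_right hb hr.le)

/-- A comparison with curvature `-b ^ 2` gives one with every smaller bound. -/
theorem bendCH_mono (h : IsCH G D) {b' b : ℝ} (hbend : Bend.BendCH G D b) (hb' : 0 < b')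
    (hb : b' ≤ b) : Bend.BendCH G D b' := by
  refine ⟨fun x y v => ?_⟩
  have hD := h.dist_nonneg x y
  obtain ⟨L, hL⟩ : ∃ L, L = cd (D x) y ⬝ᵥ v := ⟨_, rfl⟩
  obtain ⟨q, hq⟩ : ∃ q, q = v ⬝ᵥ (G y *ᵥ v) := ⟨_, rfl⟩
  obtain ⟨H, hH⟩ : ∃ H, H = hess G (D x) y v := ⟨_, rfl⟩
  have hq0 : 0 ≤ q := by
    rw [hq]; simpa using (h.posDef y).posSemidef.dotProduct_mulVec_nonneg v
  have hLq : L ^ 2 ≤ 2 * D x y * q := by
    have h1 := h.dotProduct_le y (cd (D x) y) v
    have h2 := pow_le_pow_left₀ (abs_nonneg _) h1 2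
    rw [sq_abs, mul_pow, conorm, Six.vnorm, Real.sq_sqrt (by rw [h.eikonal]; linarith), h.eikonal,
      Real.sq_sqrt (hq ▸ hq0), ← hL, ← hq] at h2
    exact h2
  rw [← hL, ← hq, ← hH]
  rcases eq_or_lt_of_le hD with h0 | h0
  · have h1 := hbend.hessian x y v
    rw [← hL, ← hq, ← hH, ← h0] at h1
    rw [← h0, mul_zero, zero_mul] at hLq
    have hL0 : L = 0 := pow_eq_zero_iff two_ne_zero |>.1 (le_antisymm hLq (sq_nonneg L))
    simp only [← h0, hL0, mul_zero, Bend.csh_zero, Bend.cshd_zero] at h1 ⊢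
    linarith
  · have h1 := hbend.hess_ge h x y v
    rw [← hL, ← hq, ← hH] at h1
    have hc := cfac_mono hb' hb h0
    have hX : 0 ≤ 2 * b' ^ 2 * D x y := by positivity
    obtain ⟨X, hXd⟩ : ∃ X, X = 2 * b' ^ 2 * D x y := ⟨_, rfl⟩
    have hode : 2 * cshd X + 4 * X * cshdd X = csh X := by
      have := Bend.csh_ode (√X)
      rwa [Real.sq_sqrt (hXd ▸ hX)] at this
    have hs : 0 < 2 * cshd X := mul_pos two_pos (Bend.cshd_pos (hXd ▸ hX))
    have h2 : L ^ 2 + cfac b' (D x y) * (2 * D x y * q - L ^ 2) ≤ 2 * D x y * H := by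
      linarith [mul_le_mul_of_nonneg_right hc (sub_nonneg.2 hLq)]
    rw [cfac, ← hXd] at h2
    have h3 := mul_le_mul_of_nonneg_left h2 hs.le
    rw [mul_add, ← mul_assoc (2 * cshd X) (csh X / _), mul_div_cancel₀ _ hs.ne'] at h3
    rw [← hXd]
    refine le_of_mul_le_mul_left ?_ (show (0 : ℝ) < 2 * D x y by linarith)
    have e4 : 2 * D x y * (4 * b' ^ 2 * cshdd X * L ^ 2) = 4 * X * cshdd X * L ^ 2 := by
      rw [hXd]; ring
    rw [mul_add (2 * D x y), e4, ← hode]
    rw [← hode] at h3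
    linarith

end Vale.Agent.P219.CH.Relax
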