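import Vale.Agent.P219.Relax.PairRows
import Vale.Agent.P219.Relax.Profile
import Vale.Agent.P219.Relax.Mono
import Vale.Agent.P219.GenK.Assembly
import Vale.Agent.P219.Bend.Min

/-!
# P219: relaxed certificates give the sharp inequality against every space form

The profile is the model one times `l < 1`. A sphere of radius `t` has in the space form of
curvature `-b ^ 2` the mean curvature, times `l`, of the sphere of radius `t / l` in the space form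
of curvature `-(l b) ^ 2`, so the row is exact at every volume.
-/

noncomputable section

open MeasureTheory Set Filter Topology Matrix
open scoped ENNReal

namespace Vale.Agent.P219.CH.Relax

open Gen (mass radial cmean cmean_nonneg scaled conorm_dirCov_le dirCov)

variable {n : ℕ}

lemma sn_homothety {l b : ℝ} (hl : 0 < l) (hb : 0 < b) (x : ℝ) :
    sn (l * b) x = sn b (l * x) / l := by
  rw [sn, sn, if_neg (mul_pos hl hb).ne', if_neg hb.ne', show l * b * x = b * (l * x) by ring,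
    div_div, mul_comm b l]

lemma modelArea_homothety {l b : ℝ} (hl : 0 < l) (hb : 0 < b) (t : ℝ) :
    modelArea n (l * b) (t / l) = modelArea n b t / l ^ (n - 1) := by
  rw [modelArea, modelArea, sn_homothety hl hb, mul_div_cancel₀ _ hl.ne', div_pow, mul_div_assoc]

lemma modelVol_homothety (hn : 1 ≤ n) {l b : ℝ} (hl : 0 < l) (hb : 0 < b) (t : ℝ) :
    modelVol n (l * b) (t / l) = modelVol n b t / l ^ n := by
  simp only [modelVol, sn_homothety hl hb, div_pow, intervalIntegral.integral_div]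
  rw [intervalIntegral.integral_comp_mul_left (fun x => sn b x ^ (n - 1)) hl.ne', mul_zero,
    mul_div_cancel₀ _ hl.ne', smul_eq_mul]
  have e : l ^ n = l * l ^ (n - 1) := by rw [← pow_succ', Nat.sub_add_cancel hn]
  rw [e]
  field_simp

/-- Almost minimisers below the profile have no volume near that of a model ball. -/
theorem eventually_avoid [NeZero n] (hn : 2 ≤ n) (hC : Cert n)
    {G : (Fin n → ℝ) → Matrix (Fin n) (Fin n) ℝ} {D : (Fin n → ℝ) → (Fin n → ℝ) → ℝ}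
    (h : IsCH G D) {b l : ℝ} (hb : 0 < b) (hl : 0 < l) (hl1 : l < 1) (hbend : Bend.BendCH G D (l * b))
    {o : Fin n → ℝ} {R P₀ v₀ M : ℝ} (hP₀ : 0 ≤ P₀) (hv₀ : 0 < v₀) (hM : 0 ≤ M)
    {Vt : ℝ} (hVt : 0 < Vt) :
    ∃ U ∈ 𝓝 Vt, ∀ᶠ δ in 𝓝[>] (0 : ℝ), ∀ u,
      Bend.NearMinP G D o R P₀ v₀ (Bend.modelProfile n b l) M δ u →
      per G u ≤ Bend.modelProfile n b l (vol G u) → vol G u ∉ U := by
  have hn1 : 1 ≤ n := by omega
  have hΦ : Bend.IsProfile (Bend.modelProfile n b l) (Bend.modelSlope n b l) :=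
    Bend.modelPin n hn b l hb.le hl
  have hsup := supports_model hn hb.le hl
  obtain ⟨e, he⟩ := Six.exists_isExp h
  obtain ⟨hm0, hmrad, -⟩ := Gen.momentPin n hn
  obtain ⟨Mm, hMm⟩ : ∃ Mm, Mm = mass n := ⟨_, rfl⟩
  obtain ⟨Rd, hRd⟩ : ∃ Rd, Rd = radial n := ⟨_, rfl⟩
  obtain ⟨ω, hω⟩ : ∃ ω, ω = Bend.unitBall n := ⟨_, rfl⟩
  rw [← hMm, ← hω, ← hRd] at hmrad
  have hω0 : 0 < ω := hω ▸ Bend.unitBall_pos hn1
  have hM0 : 0 < Mm := hMm ▸ hm0
  have hRd0 : 0 ≤ Rd := hRd ▸ setIntegral_nonneg measurableSet_Ioi fun r hr =>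
    mul_nonneg (pow_nonneg (le_of_lt hr) _) (Real.exp_pos _).le
  have hRd1 : 0 < Rd := by
    refine lt_of_le_of_ne hRd0 fun h0 => ?_
    rw [← h0, mul_zero] at hmrad
    linarith
  obtain ⟨s, hsd⟩ : ∃ s, s = l * b := ⟨_, rfl⟩
  rw [← hsd] at hbend
  have hs : 0 < s := hsd ▸ mul_pos hl hb
  obtain ⟨t, ht⟩ : ∃ t, t = Bend.modelRad n b (Vt / ω) := ⟨_, rfl⟩
  have ht0 : 0 < t := ht ▸ Bend.modelRad_pos hn1 b (div_pos hVt hω0)
  have hVte : ω * modelVol n b t = Vt := by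
    rw [ht, (Bend.modelRad_spec hn1 b (div_nonneg hVt.le hω0.le)).2, mul_div_cancel₀ _ hω0.ne']
  obtain ⟨ρ, hρ⟩ : ∃ ρ, ρ = b * t := ⟨_, rfl⟩
  have eρ : s * (t / l) = ρ := by rw [hsd, hρ]; field_simp
  have hH : GenK.modelH n ρ * s = Bend.modelSlope n b l Vt := by
    rw [hsd, hρ, Bend.modelSlope, ← hω, ← ht, mul_comm l b, ← mul_assoc, GenK.modelH_mul hb]
    ring
  obtain ⟨a, β, hcert⟩ := hC ρ (hρ ▸ mul_pos hb ht0)
  obtain ⟨E, hE⟩ : ∃ E, E = cmean n fun c => -a c := ⟨_, rfl⟩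
  have hE0 : 0 ≤ E := hE ▸ cmean_nonneg hm0 fun c hc => by linarith [hcert.a_nonpos c hc]
  have hv := hcert.value
  rw [← eρ, ← hE] at hv
  have hval := GenK.value_model (n := n) (b := s) (s := t / l) (ω := ω) (Rd := Rd) (E := E)
    (β := β) hs hω0.le hRd0 hv
  rw [← hmrad] at hval
  have hL0 : 0 < l ^ n := pow_pos hl n
  have hL1 : l ^ n < 1 := pow_lt_one₀ hl.le hl1 (by omega)
  obtain ⟨A, hA⟩ : ∃ A, A = ω * modelArea n s (t / l) := ⟨_, rfl⟩
  obtain ⟨Vs, hVs⟩ : ∃ Vs, Vs = ω * modelVol n s (t / l) := ⟨_, rfl⟩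
  rw [← hA, ← hVs] at hval
  have hA0 : 0 < A := by
    rw [hA, modelArea]
    have := Bend.sn_pos s (div_pos ht0 hl)
    have : (0 : ℝ) < n := by exact_mod_cast hn1
    positivity
  have eΦ : Bend.modelProfile n b l Vt = l ^ n * A := by
    rw [Bend.modelProfile, ← hω, ← ht, hA, hsd, modelArea_homothety hl hb,
      show l ^ n = l * l ^ (n - 1) by rw [← pow_succ', Nat.sub_add_cancel hn1]]
    field_simp
  have eV : Vt = l ^ n * Vs := by
    rw [← hVte, hVs, hsd, modelVol_homothety hn1 hl hb]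
    field_simp
  obtain ⟨bk, hbk⟩ : ∃ bk, bk = s ^ (n - 1) := ⟨_, rfl⟩
  rw [← hbk] at hval
  have hbk0 : 0 < bk := hbk ▸ pow_pos hs _
  obtain ⟨Φt, hΦt⟩ : ∃ z, z = Bend.modelProfile n b l Vt := ⟨_, rfl⟩
  have hΦt0 : 0 ≤ Φt := by rw [hΦt, eΦ]; positivity
  obtain ⟨f, hf⟩ : ∃ f : ℝ → ℝ, f = fun x => 2 * Mm * (x + E) * (Φt + x) +
      Rd * bk * ((2 + 2 * x) * (Φt + x) ^ 2 + 2 * x * (Φt + x)) -
      2 * Mm * β * s * (1 - x) ^ 2 * (Vt - 2 * x) := ⟨_, rfl⟩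
  have hf0 : f 0 < 0 := by
    rw [hf, hΦt, eΦ, eV]
    have h1 := mul_le_mul_of_nonneg_left hval (mul_pos two_pos hL0).le
    have h2 : 0 < 2 * l ^ n * (1 - l ^ n) * (Rd * bk * A ^ 2) := by
      have : 0 < 1 - l ^ n := sub_pos.2 hL1
      positivity
    ring_nf at h1 h2 ⊢
    linarith
  have hfc : Continuous f := hf ▸ by fun_prop
  obtain ⟨x, ⟨hx0, hfx⟩, hx1⟩ : ∃ x, (0 < x ∧ f x < 0) ∧ x < 1 :=
    (((eventually_nhdsWithin_of_forall fun x (hx : x ∈ Ioi (0 : ℝ)) => hx).and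
      (((hfc.tendsto 0).eventually_lt_const hf0).filter_mono nhdsWithin_le_nhds)).and
      ((eventually_lt_nhds (show (0 : ℝ) < 1 by norm_num)).filter_mono
        (nhdsWithin_le_nhds (s := Ioi (0 : ℝ))))).exists
  have hK := h.proper o R
  obtain ⟨B, hB⟩ := (hK.prod hK).bddAbove_image h.continuous_D.continuousOn
  obtain ⟨T, hT⟩ : ∃ T : ℝ, T = s * Real.sqrt (2 * max B 0) + 1 := ⟨_, rfl⟩
  have hT0 : 0 < T := by rw [hT]; positivity
  obtain ⟨w, hw, hwpos, hwG, hwL⟩ := hcert.weight x T hx0 hT0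
  have hws : ContDiff ℝ 1 (scaled w s) :=
    hw.comp (by fun_prop : ContDiff ℝ 1 fun z : ℝ × ℝ => (s ^ 2 * z.1, s * z.2))
  have hwspos : ∀ p q, 0 ≤ p → q ^ 2 ≤ 2 * p → 0 < scaled w s (p, q) := fun p q hp hq =>
    hwpos _ _ (by positivity) (by
      calc (s * q) ^ 2 = s ^ 2 * q ^ 2 := mul_pow s q 2
        _ ≤ s ^ 2 * (2 * p) := by gcongr
        _ = _ := by ring)
  have hwc : Continuous fun q : ℝ × ℝ => q.1 / s * w (q.1 ^ 2 / 2, q.1 * q.2) :=
    (continuous_fst.div_const s).mul (hw.continuous.comp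
      (((continuous_fst.pow 2).div_const 2).prodMk (continuous_fst.mul continuous_snd)))
  obtain ⟨C, hC'⟩ := ((isCompact_Icc (a := (0 : ℝ)) (b := T)).prod
    (isCompact_Icc (a := (-1 : ℝ)) (b := 1))).exists_bound_of_continuousOn hwc.continuousOn
  obtain ⟨C₀, hC₀⟩ : ∃ C₀, C₀ = max C 0 := ⟨_, rfl⟩
  have hC₀0 : 0 ≤ C₀ := hC₀ ▸ le_max_right _ _
  have hcΦ : ContinuousAt (Bend.modelProfile n b l) Vt :=
    hΦ.cont.continuousAt (Ici_mem_nhds hVt)
  have hch : ContinuousAt (fun V => |Bend.modelSlope n b l V - GenK.modelH n ρ * s| * (C₀ * P₀)) Vt :=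
    (((hΦ.cont_slope.continuousAt (Ioi_mem_nhds hVt)).sub continuousAt_const).abs).mul continuousAt_const
  refine ⟨{V | Bend.modelProfile n b l V < Φt + x ∧ Vt - x < V ∧
      |Bend.modelSlope n b l V - GenK.modelH n ρ * s| * (C₀ * P₀) < x / 2}, ?_, ?_⟩
  · exact inter_mem (hcΦ.eventually_lt_const (hΦt ▸ lt_add_of_pos_right _ hx0))
      (inter_mem (Ioi_mem_nhds (by linarith)) (hch.eventually_lt_const (by simp [← hH, half_pos hx0])))
  filter_upwards [row_exact h (by omega) o (R := R) hP₀ hv₀ hΦ hsup hM (half_pos hx0) hws hwspos,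
    (eventually_le_nhds (by positivity : (0 : ℝ) < x * x)).filter_mono nhdsWithin_le_nhds]
    with δ hrow hδ
  rintro u hnear hPΦ ⟨hUΦ, hUV, hUh⟩
  obtain ⟨hu, hPu, -, hgu, -⟩ := id hnear
  have hTb : ∀ x y, D o x ≤ R → D o y ≤ R → s * Real.sqrt (2 * D x y) ≤ T := fun x y hx hy => by
    rw [hT]
    have := (hB ⟨(x, y), ⟨hx, hy⟩, rfl⟩).trans (le_max_left B 0)
    exact (mul_le_mul_of_nonneg_left (Real.sqrt_le_sqrt (by linarith)) hs.le).trans
      (le_add_of_nonneg_right zero_le_one)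
  have hCw : ∀ x y, D o x ≤ R → D o y ≤ R → Real.sqrt (2 * D x y) *
      w (s ^ 2 * D x y, s * (Dir.scos G D u y x * Real.sqrt (2 * D x y))) ≤ C₀ := fun x y hx hy => by
    have hm : (s * Real.sqrt (2 * D x y), Dir.scos G D u y x) ∈
        Icc (0 : ℝ) T ×ˢ Icc (-1 : ℝ) 1 :=
      ⟨⟨mul_nonneg hs.le (Real.sqrt_nonneg _), hTb x y hx hy⟩, Gen.scos_mem_Icc h u y x⟩
    refine le_trans (le_of_eq ?_) (((le_abs_self _).trans (hC' _ hm)).trans (hC₀ ▸ le_max_left C 0))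
    have e1 : (s * Real.sqrt (2 * D x y)) ^ 2 / 2 = s ^ 2 * D x y := by
      rw [mul_pow, Real.sq_sqrt (by linarith [h.dist_nonneg x y])]; ring
    show _ = s * Real.sqrt (2 * D x y) / s *
      w ((s * Real.sqrt (2 * D x y)) ^ 2 / 2, s * Real.sqrt (2 * D x y) * Dir.scos G D u y x)
    rw [e1, mul_div_cancel_left₀ _ hs.ne']
    ring_nf
  have hP := h.per_nonneg u
  have hr : ∀ y, D o y ≤ R → ∫ z, rowG G D u w s ρ y z ∂Sharp.pm G u ≤ x := fun y hy => by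
    refine (rowG_integral_le h (by omega) hbend hs hw hwpos hu hCw hy
      (hrow u hnear y (dirCov G u y) hy (conorm_dirCov_le h u y))).trans ?_
    have := mul_le_mul_of_nonneg_left hPu
      (mul_nonneg (abs_nonneg (Bend.modelSlope n b l (vol G u) - GenK.modelH n ρ * s)) hC₀0)
    linarith
  have hI := kerQ_le_rows h (by omega) hbend hs hw hwpos hu hx0.le hTb hwG hr
  have hp := pair_integral hn h hbend he hu hcert.measurable_a hcert.a_nonpos hcert.a_bounded hw hs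
    hcert.beta_nonneg hx0.le hx0 hx1 hTb hwG hwL
  rw [← hMm, ← hRd, ← hE, ← hbk] at hp
  have h5 := hp.trans (mul_le_mul_of_nonneg_left hI (mul_pos hRd1 hbk0).le)
  have hPb : per G u ≤ Φt + x := hPΦ.trans hUΦ.le
  have hg : gap G u / x ≤ x := by
    rw [div_le_iff₀ hx0]; exact hgu.trans hδ
  have hV : Vt - 2 * x ≤ vol G u - gap G u / x := by linarith
  have h6 := mul_le_mul_of_nonneg_left hV
    (by have := hcert.beta_nonneg; positivity : 0 ≤ 2 * Mm * β * s * (1 - x) ^ 2)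
  have h7 : 2 * Mm * (x + E) * per G u ≤ 2 * Mm * (x + E) * (Φt + x) :=
    mul_le_mul_of_nonneg_left hPb (by positivity)
  have h8 : Rd * bk * ((2 + 2 * x) * per G u ^ 2 + 2 * (x * per G u)) ≤
      Rd * bk * ((2 + 2 * x) * (Φt + x) ^ 2 + 2 * x * (Φt + x)) := by
    refine mul_le_mul_of_nonneg_left (add_le_add ?_ ?_) (mul_pos hRd1 hbk0).le
    · exact mul_le_mul_of_nonneg_left (pow_le_pow_left₀ hP hPb 2) (by positivity)
    · rw [← mul_assoc]
      exact mul_le_mul_of_nonneg_left hPb (by positivity)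
  rw [hf] at hfx
  linarith

/-- Relaxed certificates give the sharp inequality for every model radius. -/
theorem sharpBend_of_cert [NeZero n] (hn : 2 ≤ n) (hC : Cert n) (ρ₀ : ℝ) :
    GenK.SharpBend n ρ₀ := by
  intro G D h b hb hbend Ω A hΩ hΩb hA r hr _ hvol
  by_contra hlt
  rw [not_le] at hlt
  have hn1 : 1 ≤ n := by omega
  have hA0 : 0 ≤ A := by
    obtain ⟨S, v, -, -, -, hA'⟩ := hA
    exact le_trans (h.per_nonneg (v 0)) (hA' 0)
  obtain ⟨ω, hω⟩ : ∃ ω, ω = Bend.unitBall n := ⟨_, rfl⟩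
  rw [← hω] at hvol hlt
  have hω0 : 0 < ω := hω ▸ Bend.unitBall_pos hn1
  have hrad : Bend.modelRad n b (volG G Ω / ω) = r := by
    rw [← hvol, mul_div_cancel_left₀ _ hω0.ne', Bend.modelRad_modelVol hn1 b hr]
  obtain ⟨M₀, hM₀⟩ : ∃ M₀, M₀ = ω * modelArea n b r := ⟨_, rfl⟩
  rw [← hM₀] at hlt
  have hM₀0 : 0 < M₀ := hA0.trans_lt hlt
  obtain ⟨l, hl1, hl2⟩ := exists_between ((div_lt_one hM₀0).2 hlt)
  have hl : 0 < l := lt_of_le_of_lt (div_nonneg hA0 hM₀0.le) hl1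
  have hbl : Bend.BendCH G D (l * b) := bendCH_mono h hbend (mul_pos hl hb)
    (mul_le_of_le_one_left hb.le hl2.le)
  have hΦ := Bend.modelPin n hn b l hb.le hl
  obtain ⟨R, M, P₀, v₀, -, hM, hP₀, hv₀, hmin⟩ := Bend.minPinP n hn G D h Ω A _ _ hΩ hΩb hA hΦ (by
    rw [Bend.modelProfile, ← hω, hrad, ← hM₀]
    exact (div_lt_iff₀ hM₀0).1 hl1) 0
  obtain ⟨VK, hVK⟩ : ∃ VK, VK = volG G {y | D 0 y ≤ R} := ⟨_, rfl⟩
  have hpos : ∀ V ∈ Icc v₀ VK, 0 < V := fun V hV => hv₀.trans_le hV.1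
  choose U hU hev using fun V : ↥(Icc v₀ VK) =>
    eventually_avoid hn hC h hb hl hl2 hbl (o := 0) (R := R) hP₀ hv₀ hM (hpos V V.2)
  obtain ⟨F, hF⟩ := (isCompact_Icc (a := v₀) (b := VK)).elim_nhds_subcover'
    (fun V hV => U ⟨V, hV⟩) fun V hV => hU ⟨V, hV⟩
  obtain ⟨δ, hδev, hδ⟩ := (((eventually_all_finset F).2 fun V _ => hev V).and
    (self_mem_nhdsWithin : ∀ᶠ d in 𝓝[>] (0 : ℝ), d ∈ Ioi (0 : ℝ))).exists
  obtain ⟨u, hu, hPV⟩ := hmin δ hδ
  have hmem : vol G u ∈ Icc v₀ VK :=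
    ⟨hu.2.2.1, hVK ▸ h.vol_le (h.proper 0 R) hu.1⟩
  obtain ⟨V, hV, hVU⟩ := mem_iUnion₂.1 (hF hmem)
  exact hδev V hV u hu hPV hVU

end Vale.Agent.P219.CH.Relax
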