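import Mathlib

/-!
# Level sums of a `C¹` function of one variable

The real line off the critical points is cut into countably many pieces on which the function is
injective; the sum over a level is the sum of the values on the pieces.
-/

noncomputable section

open MeasureTheory Set Filter Topology Function
open scoped ENNReal

namespace Vale.Agent.P219.CH.Relax.Coarea

variable {g : ℝ → ℝ} {h : ℝ → ℝ≥0∞}

/-- The regular points. -/
def regPts (g : ℝ → ℝ) : Set ℝ := {t | deriv g t ≠ 0}

/-- An enumeration of the pairs of rationals. -/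
def ratPair : ℕ → ℚ × ℚ := (exists_surjective_nat (ℚ × ℚ)).choose

open Classical in
/-- The intervals with rational ends on which `g` is injective and regular. -/
def monoIvl (g : ℝ → ℝ) (k : ℕ) : Set ℝ :=
  let p := ratPair k
  if Ioo (p.1 : ℝ) p.2 ⊆ regPts g ∧ InjOn g (Ioo (p.1 : ℝ) p.2) then Ioo (p.1 : ℝ) p.2 else ∅

/-- The pieces. -/
def piece (g : ℝ → ℝ) : ℕ → Set ℝ := disjointed (monoIvl g)

lemma monoIvl_spec (g : ℝ → ℝ) (k : ℕ) :
    IsOpen (monoIvl g k) ∧ monoIvl g k ⊆ regPts g ∧ InjOn g (monoIvl g k) := by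
  unfold monoIvl
  simp only
  split_ifs with hk
  · exact ⟨isOpen_Ioo, hk⟩
  · exact ⟨isOpen_empty, empty_subset _, by simp⟩

lemma iUnion_monoIvl (hg : ContDiff ℝ 1 g) : ⋃ k, monoIvl g k = regPts g := by
  refine Subset.antisymm (iUnion_subset fun k => (monoIvl_spec g k).2.1) fun t ht => ?_
  have hc : Continuous (deriv g) := hg.continuous_deriv le_rfl
  have ho : IsOpen (regPts g) := isOpen_ne.preimage hc
  obtain ⟨r, hr, hsub⟩ := Metric.isOpen_iff.1 ho t ht
  obtain ⟨p, hp1, hp2⟩ := exists_rat_btwn (show t - r < t by linarith)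
  obtain ⟨q, hq1, hq2⟩ := exists_rat_btwn (show t < t + r by linarith)
  have hI : Ioo (p : ℝ) q ⊆ regPts g := fun x hx => hsub (by
    rw [Metric.mem_ball, Real.dist_eq, abs_lt]
    constructor <;> linarith [hx.1, hx.2])
  have hinj : InjOn g (Ioo (p : ℝ) q) := by
    intro x hx y hy hxy
    by_contra hne
    wlog hlt : x < y generalizing x y with H
    · exact H hy hx hxy.symm (Ne.symm hne) (lt_of_le_of_ne (not_lt.1 hlt) (Ne.symm hne))
    obtain ⟨z, hz, hz0⟩ := exists_deriv_eq_zero hlt hg.continuous.continuousOn hxy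
    exact hI ⟨hx.1.trans hz.1, hz.2.trans hy.2⟩ hz0
  obtain ⟨k, hk⟩ := (exists_surjective_nat (ℚ × ℚ)).choose_spec (p, q)
  refine mem_iUnion.2 ⟨k, ?_⟩
  simp only [monoIvl]
  have hk' : ratPair k = (p, q) := hk
  rw [hk', if_pos ⟨hI, hinj⟩]
  exact ⟨hp2, hq1⟩

lemma measurableSet_piece (g : ℝ → ℝ) (k : ℕ) : MeasurableSet (piece g k) :=
  MeasurableSet.disjointed (fun j => (monoIvl_spec g j).1.measurableSet) k

lemma injOn_piece (g : ℝ → ℝ) (k : ℕ) : InjOn g (piece g k) :=
  (monoIvl_spec g k).2.2.mono (disjointed_subset _ _)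

lemma iUnion_piece (hg : ContDiff ℝ 1 g) : ⋃ k, piece g k = regPts g := by
  rw [piece, iUnion_disjointed, iUnion_monoIvl hg]

/-- The value of `h` on the piece at the level. -/
def pieceVal (g : ℝ → ℝ) (h : ℝ → ℝ≥0∞) (k : ℕ) : ℝ → ℝ≥0∞ :=
  extend ((piece g k).domRestrict g) (fun t : piece g k => h t) 0

/-- The sum of `h` over the regular points of a level. -/
def levelSum (g : ℝ → ℝ) (h : ℝ → ℝ≥0∞) (v : ℝ) : ℝ≥0∞ := ∑' k, pieceVal g h k v

lemma pieceVal_apply {k : ℕ} {t : ℝ} (ht : t ∈ piece g k) : pieceVal g h k (g t) = h t :=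
  (injOn_iff_injective.1 (injOn_piece g k)).extend_apply (fun t : piece g k => h t) 0 ⟨t, ht⟩

lemma pieceVal_eq_zero {k : ℕ} {v : ℝ} (hv : v ∉ g '' piece g k) : pieceVal g h k v = 0 :=
  extend_apply' _ _ _ fun ⟨t, ht⟩ => hv ⟨t, t.2, ht⟩

lemma measurable_pieceVal (hg : Continuous g) (hh : Measurable h) (k : ℕ) :
    Measurable (pieceVal g h k) :=
  (hg.continuousOn.measurableEmbedding (measurableSet_piece g k) (injOn_piece g k)).measurable_extend
    (hh.comp measurable_subtype_coe) measurable_const

lemma measurable_levelSum (hg : Continuous g) (hh : Measurable h) : Measurable (levelSum g h) :=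
  Measurable.tsum fun k => measurable_pieceVal hg hh k

/-- The area formula. -/
theorem lintegral_levelSum (hg : ContDiff ℝ 1 g) (hh : Measurable h) :
    ∫⁻ v, levelSum g h v = ∫⁻ t, ENNReal.ofReal |deriv g t| * h t := by
  unfold levelSum
  rw [lintegral_tsum fun k => (measurable_pieceVal hg.continuous hh k).aemeasurable]
  have hk : ∀ k, ∫⁻ v, pieceVal g h k v =
      ∫⁻ t in piece g k, ENNReal.ofReal |deriv g t| * h t := by
    intro k
    have hm := measurableSet_piece g k
    have him := hm.image_of_continuousOn_injOn hg.continuous.continuousOn (injOn_piece g k)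
    calc ∫⁻ v, pieceVal g h k v = ∫⁻ v in g '' piece g k, pieceVal g h k v := by
          rw [← lintegral_indicator him]
          refine lintegral_congr fun v => ?_
          by_cases hv : v ∈ g '' piece g k
          · rw [indicator_of_mem hv]
          · rw [indicator_of_notMem hv, pieceVal_eq_zero hv]
      _ = ∫⁻ t in piece g k, ENNReal.ofReal |deriv g t| * pieceVal g h k (g t) :=
        lintegral_image_eq_lintegral_abs_deriv_mul hm
          (fun t _ => ((hg.differentiable one_ne_zero) t).hasDerivAt.hasDerivWithinAt)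
          (injOn_piece g k) _
      _ = _ := setLIntegral_congr_fun hm fun t ht => by rw [pieceVal_apply ht]
  simp only [hk]
  rw [← lintegral_iUnion (measurableSet_piece g) (disjoint_disjointed _), iUnion_piece hg]
  refine setLIntegral_eq_of_support_subset fun t ht => ?_
  simp only [mem_support, ne_eq, mul_eq_zero, not_or] at ht
  exact fun h0 => ht.1 (by simp [h0])

/-- Almost every level is regular. -/
theorem ae_regular (hg : ContDiff ℝ 1 g) : ∀ᵐ v : ℝ, ∀ t, g t = v → deriv g t ≠ 0 := by
  have h0 : volume (g '' {t | deriv g t = 0}) = 0 :=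
    addHaar_image_eq_zero_of_det_fderivWithin_eq_zero volume
      (fun t _ => ((hg.differentiable one_ne_zero) t).hasDerivAt.hasDerivWithinAt.hasFDerivWithinAt)
      fun t ht => by simpa using ht
  filter_upwards [compl_mem_ae_iff.2 h0] with v hv t ht hd
  exact hv ⟨t, hd, ht⟩

/-- A regular level off zero of a function with compact support is finite. -/
theorem finite_level (hg : ContDiff ℝ 1 g) (hc : HasCompactSupport g) {v : ℝ} (hv : v ≠ 0)
    (hreg : ∀ t, g t = v → deriv g t ≠ 0) : {t | g t = v}.Finite := by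
  have hK : IsCompact {t | g t = v} :=
    hc.of_isClosed_subset (isClosed_eq hg.continuous continuous_const) fun t ht =>
      subset_tsupport g (by simp only [mem_support]; rwa [show g t = v from ht])
  obtain ⟨F, hF⟩ := hK.elim_finite_subcover (monoIvl g) (fun k => (monoIvl_spec g k).1)
    fun t ht => by rw [iUnion_monoIvl hg]; exact hreg t ht
  refine (Set.Finite.biUnion F.finite_toSet (t := fun k => {t | g t = v} ∩ monoIvl g k)
    fun k _ => Set.Subsingleton.finite fun x hx y hy =>
      (monoIvl_spec g k).2.2 hx.2 hy.2 (hx.1.trans hy.1.symm)).subset fun t ht => ?_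
  obtain ⟨k, hk, hkt⟩ := mem_iUnion₂.1 (hF ht)
  exact mem_biUnion hk ⟨ht, hkt⟩

/-- The sum over a regular level. -/
theorem levelSum_eq (hg : ContDiff ℝ 1 g) {v : ℝ} {S : Finset ℝ} (hS : ∀ t, t ∈ S ↔ g t = v)
    (hreg : ∀ t ∈ S, deriv g t ≠ 0) : levelSum g h v = ∑ t ∈ S, h t := by
  classical
  have hk : ∀ k, pieceVal g h k v = ∑ t ∈ S, if t ∈ piece g k then h t else 0 := by
    intro k
    by_cases hv : v ∈ g '' piece g k
    · obtain ⟨t, ht, htv⟩ := hv
      rw [Finset.sum_eq_single_of_mem t ((hS t).2 htv), if_pos ht, ← htv, pieceVal_apply ht]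
      intro s hs hst
      exact if_neg fun hsk => hst (injOn_piece g k hsk ht (((hS s).1 hs).trans htv.symm))
    · rw [pieceVal_eq_zero hv, Finset.sum_eq_zero fun t ht => if_neg fun htk =>
        hv ⟨t, htk, (hS t).1 ht⟩]
  rw [levelSum]
  simp only [hk]
  rw [Summable.tsum_finsetSum fun t _ => ENNReal.summable]
  refine Finset.sum_congr rfl fun t ht => ?_
  obtain ⟨k, hkt⟩ := mem_iUnion.1 ((iUnion_piece hg).symm ▸ hreg t ht : t ∈ ⋃ k, piece g k)
  have hoth : ∀ j, j ≠ k → (if t ∈ piece g j then h t else 0) = 0 := fun j hj => if_neg fun hjt =>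
    (Set.disjoint_left.1 (disjoint_disjointed (monoIvl g) hj) hjt) hkt
  rw [tsum_eq_single k hoth, if_pos hkt]

/-- The regular points of one level form a null set. -/
theorem volume_level (hg : ContDiff ℝ 1 g) (v : ℝ) :
    volume ({t | g t = v} ∩ regPts g) = 0 := by
  refine measure_mono_null (t := ⋃ k, {t | g t = v} ∩ piece g k) ?_ (measure_iUnion_null fun k =>
    Set.Subsingleton.measure_zero (fun x hx y hy =>
      injOn_piece g k hx.2 hy.2 (hx.1.trans hy.1.symm)) _)
  rw [← inter_iUnion, iUnion_piece hg]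

end Vale.Agent.P219.CH.Relax.Coarea
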