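import Mathlib

/-!
# P219: the scalar inequality of the curvature gain, in any model

The parameter `ξ = ct (s) - ct (t)` of the cut runs over `[0, ∞)`; `f ξ` is the trace excess at the
start of the cut segment, `q ξ` its inverse Jacobian in model units and `Y` the excess at the end.
-/

noncomputable section

open Filter Topology

namespace Vale.Agent.P219.CH.Relax

/-- One step of the partition. -/
lemma step_gen {Y q₀ ξ ξ' : ℝ} (hY : 0 ≤ Y) (hq : 0 < q₀) (h' : ξ' ≤ ξ)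
    (hl : q₀ ≤ 1 - Y * ξ) :
    (ξ - q₀ ^ 2 * ξ / (1 - Y * ξ)) - (ξ' - q₀ ^ 2 * ξ' / (1 - Y * ξ')) -
        Y * (ξ - ξ') ^ 2 / q₀ ≤
      (ξ - ξ') * (1 - q₀ ^ 2 / (1 - Y * ξ) ^ 2) := by
  have hl' : q₀ ≤ 1 - Y * ξ' := hl.trans (by nlinarith)
  have l0 : 0 < 1 - Y * ξ := hq.trans_le hl
  have l0' : 0 < 1 - Y * ξ' := hq.trans_le hl'
  have e : (ξ - ξ') * (1 - q₀ ^ 2 / (1 - Y * ξ) ^ 2) =
      (ξ - q₀ ^ 2 * ξ / (1 - Y * ξ)) - (ξ' - q₀ ^ 2 * ξ' / (1 - Y * ξ')) -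
        Y * (ξ - ξ') ^ 2 * q₀ ^ 2 / ((1 - Y * ξ) ^ 2 * (1 - Y * ξ')) := by
    generalize hL : 1 - Y * ξ = L at *
    generalize hL' : 1 - Y * ξ' = L' at *
    field_simp
    subst hL hL'
    ring
  rw [e, sub_le_sub_iff_left, div_le_div_iff₀ (by positivity) hq]
  calc Y * (ξ - ξ') ^ 2 * q₀ ^ 2 * q₀ = Y * (ξ - ξ') ^ 2 * (q₀ ^ 2 * q₀) := by ring
    _ ≤ Y * (ξ - ξ') ^ 2 * ((1 - Y * ξ) ^ 2 * (1 - Y * ξ')) := by gcongr

/-- The scalar gain. -/
theorem scalar_gain_gen {f q : ℝ → ℝ} {Y : ℝ} (hY : 0 ≤ Y) (hf : ∀ ξ, 0 ≤ ξ → 0 ≤ f ξ)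
    (hq : ∀ ξ, 0 ≤ ξ → 0 < q ξ ∧ q ξ ≤ 1)
    (hrec : ∀ ξ ξ', 0 ≤ ξ' → ξ' < ξ → f ξ + (ξ - ξ') * (1 - q ξ ^ 2) ≤ f ξ')
    (hline : ∀ ξ, 0 < ξ → q ξ * (1 - Y * ξ) ≤ q 0) :
    (1 - q 0) ^ 2 ≤ f 0 * Y := by
  obtain ⟨q0, q1⟩ := hq 0 le_rfl
  rcases q1.eq_or_lt with h1 | h1
  · rw [h1]; simpa using mul_nonneg (hf 0 le_rfl) hY
  rcases hY.eq_or_lt with hy0 | hy0
  · exfalso
    have hK : 0 < 1 - q 0 ^ 2 := by nlinarith
    obtain ⟨k, hk⟩ := exists_nat_gt (f 0 / (1 - q 0 ^ 2))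
    have hk0 : (0 : ℝ) < k := lt_of_le_of_lt (div_nonneg (hf 0 le_rfl) hK.le) hk
    have h2 := hline k hk0
    rw [← hy0, zero_mul, sub_zero, mul_one] at h2
    have h3 := hrec k 0 le_rfl hk0
    have h4 := hf k hk0.le
    have h5 : (k : ℝ) * (1 - q 0 ^ 2) ≤ k * (1 - q k ^ 2) := by
      refine mul_le_mul_of_nonneg_left (sub_le_sub_left ?_ 1) hk0.le
      exact pow_le_pow_left₀ (hq k hk0.le).1.le h2 2
    rw [div_lt_iff₀ hK] at hk
    linarith
  set a := (1 - q 0) / Y with ha_def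
  have ha : 0 < a := div_pos (by linarith) hy0
  have hYa : Y * a = 1 - q 0 := by rw [ha_def]; field_simp
  set F : ℝ → ℝ := fun ξ => ξ - q 0 ^ 2 * ξ / (1 - Y * ξ) with hF
  have key : ∀ N : ℕ, 0 < N → F a - Y * a ^ 2 / q 0 * (N : ℝ)⁻¹ ≤ f 0 := by
    intro N hN
    have hN' : (0 : ℝ) < N := by exact_mod_cast hN
    set h := a / N
    have hh : 0 < h := div_pos ha hN'
    have hind : ∀ i : ℕ, i ≤ N →
        f (i * h) + F (i * h) - Y * h ^ 2 / q 0 * i ≤ f 0 := by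
      intro i
      induction i with
      | zero => intro _; simp [hF]
      | succ i ih =>
        intro hi
        push_cast
        have hi' : ((i : ℝ) + 1) ≤ N := by exact_mod_cast hi
        have e : (N : ℝ) * h = a := by simp only [h]; field_simp
        have hle : ((i : ℝ) + 1) * h ≤ a := e ▸ mul_le_mul_of_nonneg_right hi' hh.le
        have h0 := mul_nonneg (Nat.cast_nonneg (α := ℝ) i) hh.le
        have hlt : (i : ℝ) * h < ((i : ℝ) + 1) * h := by linarith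
        have hpos : 0 < ((i : ℝ) + 1) * h := by positivity
        have hl : q 0 ≤ 1 - Y * (((i : ℝ) + 1) * h) := by
          have := mul_le_mul_of_nonneg_left hle hy0.le
          linarith
        have h1 := hrec _ _ h0 hlt
        have h2 := step_gen hy0.le q0 hlt.le hl
        have h3 := hline _ hpos
        have hl0 : 0 < 1 - Y * (((i : ℝ) + 1) * h) := q0.trans_le hl
        have h4 : q (((i : ℝ) + 1) * h) ^ 2 ≤ q 0 ^ 2 / (1 - Y * (((i : ℝ) + 1) * h)) ^ 2 := by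
          rw [← div_pow]
          exact pow_le_pow_left₀ (hq _ hpos.le).1.le ((le_div_iff₀ hl0).2 h3) 2
        have h5 := mul_le_mul_of_nonneg_left (sub_le_sub_left h4 1) (sub_nonneg.2 hlt.le)
        have h6 := ih (by omega)
        have e2 : ((i : ℝ) + 1) * h - (i : ℝ) * h = h := by ring
        simp only [hF] at h6 ⊢
        rw [e2] at h2 h5 h1
        linarith
    have h1 := hind N le_rfl
    have e : (N : ℝ) * h = a := by simp only [h]; field_simp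
    have e2 : Y * h ^ 2 / q 0 * N = Y * a ^ 2 / q 0 * (N : ℝ)⁻¹ := by
      simp only [h]; field_simp
    rw [e, e2] at h1
    linarith [hf a ha.le]
  have hlim : F a ≤ f 0 := by
    refine le_of_tendsto (f := fun N : ℕ => F a - Y * a ^ 2 / q 0 * (N : ℝ)⁻¹) ?_
      (eventually_atTop.2 ⟨1, fun N hN => key N hN⟩)
    simpa using (tendsto_inv_atTop_nhds_zero_nat (𝕜 := ℝ)).const_mul (Y * a ^ 2 / q 0)
      |>.const_sub (F a)
  have hval : F a * Y = (1 - q 0) ^ 2 := by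
    simp only [hF]
    rw [hYa, show 1 - (1 - q 0) = q 0 by ring, ha_def]
    field_simp
  rw [← hval]
  exact mul_le_mul_of_nonneg_right hlim hy0.le

end Vale.Agent.P219.CH.Relax
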