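import Vale.Agent.P219.Relax.SplitBend
import Vale.Agent.P219.Relax.ScalarGen

/-!
# P219: the curvature gain of a pair against the space form of curvature `-b ^ 2`

With the inverse Jacobian `q` in units of the space form and the trace excesses over the Hessians
of the space form, `(1 - q) ^ 2 ≤ sfac ^ 2 * excess * excess`.
-/

noncomputable section

open MeasureTheory Set Filter Topology Matrix

namespace Vale.Agent.P219.CH.Relax

open Six (Phase IsExp logv)
open Bend (cfac sfac)

variable {n : ℕ} {G : (Fin n → ℝ) → Matrix (Fin n) (Fin n) ℝ}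
  {D : (Fin n → ℝ) → (Fin n → ℝ) → ℝ} {e : Phase n → Fin n → ℝ} {b : ℝ}

lemma excessB_nonneg (h : IsCH G D) (hb : Bend.BendCH G D b) (x y : Fin n → ℝ)
    (hD : 0 < D x y) : 0 ≤ excessB G D b x y := by
  set c := cfac b (D x y)
  set p := radv G D x y
  have key : ∀ i, p i ^ 2 + c * (2 * D x y - p i ^ 2) ≤ 2 * D x y * hbar G D x y i i := fun i => by
    simpa [p, c, mulVec_single, dotProduct_single, single_dotProduct] using
      hbar_model_le h hb x y (Pi.single i 1)
  have hs : ∑ i, p i ^ 2 = 2 * D x y := by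
    rw [← radv_sq h x y]; exact Finset.sum_congr rfl fun i _ => sq (p i)
  have := Finset.sum_le_sum (s := Finset.univ) fun i _ => key i
  simp only [Finset.sum_add_distrib, ← Finset.mul_sum, Finset.sum_sub_distrib, hs,
    Finset.sum_const, Finset.card_univ, Fintype.card_fin, nsmul_eq_mul] at this
  refine nonneg_of_mul_nonneg_right (a := 2 * D x y) ?_ (by linarith)
  rw [excessB, Matrix.trace]
  simp only [diag_apply]
  linarith

/-- The cut whose parameter is `ξ`. -/
def cutPt (β ξ : ℝ) : ℝ :=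
  Real.artanh (Real.cosh β / Real.sinh β + ξ / β)⁻¹ / β

lemma cutPt_spec {β ξ : ℝ} (hβ : 0 < β) (hξ : 0 ≤ ξ) :
    0 < cutPt β ξ ∧ cutPt β ξ ≤ 1 ∧
      β * (Real.cosh (β * cutPt β ξ) / Real.sinh (β * cutPt β ξ) -
        Real.cosh β / Real.sinh β) = ξ := by
  have hs := Real.sinh_pos_iff.2 hβ
  set w := Real.cosh β / Real.sinh β + ξ / β with hw
  have h1 : 1 < Real.cosh β / Real.sinh β := (one_lt_div hs).2 (Real.sinh_lt_cosh β)
  have h2 : Real.cosh β / Real.sinh β ≤ w := le_add_of_nonneg_right (div_nonneg hξ hβ.le)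
  have hmem : w⁻¹ ∈ Ioo (-1 : ℝ) 1 :=
    ⟨by linarith [inv_pos.2 (show 0 < w by linarith)], inv_lt_one_of_one_lt₀ (by linarith)⟩
  have hpos : 0 < Real.artanh w⁻¹ := Real.artanh_pos ⟨inv_pos.2 (by linarith), hmem.2⟩
  refine ⟨div_pos hpos hβ, ?_, ?_⟩
  · rw [cutPt, div_le_one hβ, ← hw]
    conv_rhs => rw [← Real.artanh_tanh β]
    refine Real.artanh_le_artanh hmem.1 (Real.tanh_lt_one β) ?_
    rw [Real.tanh_eq_sinh_div_cosh, ← inv_div (Real.cosh β)]
    exact inv_anti₀ (by linarith) h2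
  · have h3 := Real.tanh_artanh hmem
    rw [cutPt, ← hw, show β * (Real.artanh w⁻¹ / β) = Real.artanh w⁻¹ by field_simp]
    rw [Real.tanh_eq_sinh_div_cosh] at h3
    rw [← inv_div (Real.sinh _), h3, inv_inv, hw]
    field_simp
    ring

lemma cutPt_zero {β : ℝ} (hβ : 0 < β) : cutPt β 0 = 1 := by
  rw [cutPt, zero_div, add_zero, inv_div, ← Real.tanh_eq_sinh_div_cosh, Real.artanh_tanh,
    div_self hβ.ne']

lemma cutPt_lt {β ξ ξ' : ℝ} (hβ : 0 < β) (hξ' : 0 ≤ ξ') (hlt : ξ' < ξ) :
    cutPt β ξ < cutPt β ξ' := by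
  have hs := Real.sinh_pos_iff.2 hβ
  have h1 : 1 < Real.cosh β / Real.sinh β := (one_lt_div hs).2 (Real.sinh_lt_cosh β)
  have h2 : ξ' / β < ξ / β := div_lt_div_of_pos_right hlt hβ
  have h0 : 0 ≤ ξ' / β := div_nonneg hξ' hβ.le
  refine div_lt_div_of_pos_right (Real.artanh_lt_artanh ?_ ?_ ?_) hβ
  · linarith [inv_pos.2 (show 0 < Real.cosh β / Real.sinh β + ξ / β by linarith)]
  · exact inv_lt_one_of_one_lt₀ (by linarith)
  · exact inv_strictAnti₀ (by linarith) (by linarith)

/-- The coefficient of a cut of the segment `[0, β t]` at `β s`, in model units. -/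
lemma cut_coeff {r s t : ℝ} (hb : 0 < b) (hr : 0 < r) (hs : 0 < s) (hst : s < t) :
    (1 - s / t) / s * ((sfac b ((s * r) ^ 2 / 2))⁻¹ ^ 2 /
        ((1 - s / t) * cfac b ((s * r) ^ 2 / 2) +
          s / t * cfac b (((t - s) * r) ^ 2 / 2))) =
      b * r * (Real.cosh (b * r * s) / Real.sinh (b * r * s) -
        Real.cosh (b * r * t) / Real.sinh (b * r * t)) := by
  have ht : 0 < t := hs.trans hst
  obtain ⟨x, hx⟩ : ∃ x, x = b * (s * r) := ⟨_, rfl⟩
  obtain ⟨y, hy⟩ : ∃ y, y = b * ((t - s) * r) := ⟨_, rfl⟩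
  have hx0 : 0 < x := by rw [hx]; positivity
  have hts : 0 < t - s := by linarith
  have hy0 : 0 < y := by rw [hy]; positivity
  have a1 := sfac_sq b (s * r)
  have a2 := sfac_sq b ((t - s) * r)
  have b1 := cfac_sq b (s * r)
  have b2 := cfac_sq b ((t - s) * r)
  rw [← hx] at a1 b1
  rw [← hy] at a2 b2
  have p1 := Real.sinh_pos_iff.2 hx0
  have p2 := Real.sinh_pos_iff.2 hy0
  have p3 := Real.sinh_pos_iff.2 (add_pos hx0 hy0)
  have e1 : sfac b ((s * r) ^ 2 / 2) = Real.sinh x / x := by rw [← a1]; field_simp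
  have e2 : sfac b (((t - s) * r) ^ 2 / 2) = Real.sinh y / y := by rw [← a2]; field_simp
  have f1 : cfac b ((s * r) ^ 2 / 2) = x * Real.cosh x / Real.sinh x := by
    rw [← b1, e1]; field_simp
  have f2 : cfac b (((t - s) * r) ^ 2 / 2) = y * Real.cosh y / Real.sinh y := by
    rw [← b2, e2]; field_simp
  rw [e1, f1, f2, show b * r * s = x by rw [hx]; ring,
    show b * r * t = x + y by rw [hx, hy]; ring]
  have es : s / t = x / (x + y) := by rw [hx, hy]; field_simp; ring
  have es' : 1 - s / t = y / (x + y) := by rw [es]; field_simp; ring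
  have eb : b * r = x / s := by rw [hx]; field_simp
  rw [es', es, eb, Real.sinh_add, Real.cosh_add]
  have hA : 0 < y * (x * Real.cosh x) * Real.sinh y + x * (y * Real.cosh y) * Real.sinh x := by
    positivity
  rw [Real.sinh_add] at p3
  field_simp
  linear_combination (-(Real.sinh y * (Real.sinh x * Real.cosh y + Real.cosh x * Real.sinh y))) *
    Real.cosh_sq_sub_sinh_sq x

/-- The gain against the space form of curvature `-b ^ 2`. -/
theorem gainBend (h : IsCH G D) (hb : Bend.BendCH G D b) (hb0 : 0 < b) (hn : 0 < n)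
    (x y : Fin n → ℝ) {r : ℝ} (hr0 : 0 < r) (hr : r ^ 2 = 2 * D x y) :
    (1 - ijacB G D b x y) ^ 2 ≤
      sfac b (D x y) ^ 2 * excessB G D b x y * excessB G D b y x := by
  obtain ⟨e, he⟩ := Six.exists_isExp h
  have hβ : 0 < b * r := mul_pos hb0 hr0
  set v := logv G D x y
  set z : ℝ → (Fin n → ℝ) := fun s => e (x, s • v) with hz
  have hz1 : z 1 = y := by simp only [hz, one_smul]; exact he.exp_logv x y
  have hzs : ∀ s, logv G D x (z s) = s • v := fun s => he.logv_exp _ _
  have hzl : ∀ s, (s * r) ^ 2 = 2 * D x (z s) := fun s => by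
    have h1 := Six.logv_self_dot h x (z s)
    have h2 := Six.logv_self_dot h x y
    rw [hzs] at h1
    simp only [mulVec_smul, dotProduct_smul, smul_dotProduct, smul_eq_mul, h2, v] at h1
    rw [mul_pow, hr]
    linarith
  have hDp : ∀ s, 0 < s → 0 < D (z s) x := fun s hs => by
    rw [Sharp.dist_symm h]
    linarith [hzl s, show 0 < (s * r) ^ 2 by positivity]
  have hS : 0 < sfac b (D x y) := Bend.sfac_pos b (h.dist_nonneg x y)
  have key := scalar_gain_gen
    (f := fun ξ => excessB G D b (z (cutPt (b * r) ξ)) x / cutPt (b * r) ξ)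
    (q := fun ξ => ijacB G D b x (z (cutPt (b * r) ξ)))
    (Y := excessB G D b x y * sfac b (D x y) ^ 2)
    (mul_nonneg (excessB_nonneg h hb _ _ (by linarith [show 0 < r ^ 2 by positivity])) (sq_nonneg _))
    (fun ξ hξ => div_nonneg (excessB_nonneg h hb _ _ (hDp _ (cutPt_spec hβ hξ).1))
      (cutPt_spec hβ hξ).1.le)
    (fun ξ _ => ⟨ijacB_pos h b _ _, ijacB_le_one h hb _ _⟩) ?_ ?_
  · simp only [cutPt_zero hβ, hz1, div_one] at key
    exact key.trans (le_of_eq (by ring))
  · intro ξ ξ' hξ' hlt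
    obtain ⟨s0, -, sx⟩ := cutPt_spec hβ (hξ'.trans hlt.le)
    obtain ⟨t0, -, tx⟩ := cutPt_spec hβ hξ'
    have hst := cutPt_lt hβ hξ' hlt
    generalize cutPt (b * r) ξ = s at *
    generalize cutPt (b * r) ξ' = t at *
    have hzf : zf G D e (s / t) x (z t) = z s := by
      rw [zf, hzs, smul_smul, div_mul_cancel₀ _ t0.ne']
    have hl := div_pos s0 t0
    have hl1 := (div_lt_one t0).2 hst
    obtain ⟨hQ, hX⟩ := end_bend h he hb hb0 hn hl hl1 x (z t) (mul_pos t0 hr0) (hzl t)
    rw [hzf] at hX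
    rw [show s / t * (t * r) = s * r by field_simp,
      show (1 - s / t) * (t * r) = (t - s) * r by field_simp] at hX hQ
    set c := (sfac b ((s * r) ^ 2 / 2))⁻¹ ^ 2 / ((1 - s / t) * cfac b ((s * r) ^ 2 / 2) +
      s / t * cfac b (((t - s) * r) ^ 2 / 2)) with hc
    have e0 : ξ - ξ' = (1 - s / t) / s * c := by
      rw [hc, cut_coeff hb0 hr0 s0 hst, ← sx, ← tx]
      ring
    have hc0 : 0 ≤ c := by
      rw [hc]
      have := (cfac_pos b (show 0 ≤ (s * r) ^ 2 / 2 by positivity)).le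
      have := (cfac_pos b (show 0 ≤ ((t - s) * r) ^ 2 / 2 by positivity)).le
      have : 0 ≤ 1 - s / t := by linarith
      positivity
    have h1 := mul_le_mul_of_nonneg_left (mul_le_mul_of_nonneg_left
      (sub_le_sub_left (div_le_self (sq_nonneg (ijacB G D b x (z s))) hQ) 1) hc0)
      (sub_nonneg.2 hl1.le)
    refine le_of_mul_le_mul_left ?_ s0
    have e1 : s * (excessB G D b (z s) x / s +
        (ξ - ξ') * (1 - ijacB G D b x (z s) ^ 2)) =
        excessB G D b (z s) x + (1 - s / t) * (c * (1 - ijacB G D b x (z s) ^ 2)) := by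
      rw [e0]; field_simp
    have e2 : s * (excessB G D b (z t) x / t) = s / t * excessB G D b (z t) x := by ring
    rw [e1, e2]
    linarith
  · intro ξ hξ
    obtain ⟨s0, -, sx⟩ := cutPt_spec hβ hξ.le
    have hs1 : cutPt (b * r) ξ < 1 := cutPt_zero hβ ▸ cutPt_lt hβ le_rfl hξ
    simp only [cutPt_zero hβ, hz1]
    generalize cutPt (b * r) ξ = s at *
    have hzf : zf G D e s x y = z s := rfl
    have hr' : r ^ 2 = 2 * D y x := by rw [Sharp.dist_symm h y x]; exact hr
    have hd := jac_bend h he hb0 s0 hs1 x y hr0 hr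
    obtain ⟨hQ, hY⟩ :=
      end_bend h he hb hb0 hn (l := 1 - s) (by linarith) (by linarith) y x hr0 hr'
    have hZ : zmat G D e (1 - s) y x = zmat G D e s x y := by
      rw [zmat, zmat, zf_swap h he, sub_sub_cancel, add_comm]
    rw [hzf] at hd
    rw [zf_swap h he, hzf, sub_sub_cancel, hZ] at hY
    rw [hZ, sub_sub_cancel] at hQ
    rw [add_comm (s * cfac b (((1 - s) * r) ^ 2 / 2))] at hY hQ
    set K := (1 - s) * cfac b ((s * r) ^ 2 / 2) + s * cfac b (((1 - s) * r) ^ 2 / 2) with hK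
    set Q := (zmat G D e s x y).det / K ^ (n - 1)
    set c := (sfac b (((1 - s) * r) ^ 2 / 2))⁻¹ ^ 2 / K with hc
    have p0 := ijacB_pos h b (z s) y
    have p1 := ijacB_le_one h hb (z s) y
    rw [ijacB_symm h b y (z s)] at hY
    have d0 := ijacB_pos h b x (z s)
    have q0 := ijacB_pos h b x y
    have hQ0 : 0 < Q := zero_lt_one.trans_le hQ
    set d1 := ijacB G D b x (z s)
    set d2 := ijacB G D b (z s) y
    set d := ijacB G D b x y
    have h1 : d2 ^ 2 / Q ≤ d / d1 := by
      rw [hd, show d1 * d2 / Q / d1 = d2 / Q by field_simp]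
      gcongr
      nlinarith
    have h3 := excessB_nonneg h hb (z s) y (by
      have h4 := (dist_cut h he s x y hr).2
      rw [hzf] at h4
      rw [h4]
      have : 0 < (1 - s) * r := mul_pos (by linarith) hr0
      positivity)
    -- the coefficient at the other end
    have cc := cut_coeff (b := b) (s := 1 - s) (t := 1) hb0 hr0 (by linarith) (by linarith)
    rw [div_one, sub_sub_cancel, add_comm (s * cfac b (((1 - s) * r) ^ 2 / 2)), ← hK, ← hc,
      mul_one, mul_one_sub] at cc
    obtain ⟨B, hB⟩ : ∃ B, B = b * r := ⟨_, rfl⟩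
    rw [← hB] at cc sx
    obtain ⟨T, hT⟩ : ∃ T, T = s / (1 - s) * c := ⟨_, rfl⟩
    rw [← hT] at cc
    have pB : 0 < Real.sinh B := Real.sinh_pos_iff.2 (hB ▸ hβ)
    have pBs : 0 < Real.sinh (B * s) := Real.sinh_pos_iff.2 (mul_pos (hB ▸ hβ) s0)
    have pB1 : 0 < Real.sinh (B - B * s) :=
      Real.sinh_pos_iff.2 (by nlinarith [hB ▸ hβ, hs1])
    have eT : T = B * Real.sinh (B * s) / (Real.sinh (B - B * s) * Real.sinh B) := by
      rw [cc, show B * s = B - (B - B * s) by ring, Real.sinh_sub B (B - B * s), sub_sub_cancel]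
      generalize B - B * s = u at *
      field_simp
    have eξ : ξ = B * Real.sinh (B - B * s) / (Real.sinh (B * s) * Real.sinh B) := by
      rw [← sx, Real.sinh_sub]; field_simp
    have e3 : sfac b (D x y) ^ 2 * (ξ * T) = 1 := by
      have a3 := sfac_sq b r
      rw [← hB, show r ^ 2 / 2 = D x y by linarith] at a3
      rw [eT, eξ]
      generalize B - B * s = u at *
      field_simp
      rw [← a3]; ring
    have hT0 : 0 < T := by
      rw [eT]
      have := hB ▸ hβ
      positivity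
    have hY1 : T * (1 - d2 ^ 2 / Q) ≤ excessB G D b x y := by
      refine le_of_mul_le_mul_left ?_ (show 0 < 1 - s by linarith)
      have e4 : (1 - s) * (T * (1 - d2 ^ 2 / Q)) = s * (c * (1 - d2 ^ 2 / Q)) := by
        have : 1 - s ≠ 0 := (sub_pos.2 hs1).ne'
        rw [hT]; field_simp
      rw [e4]
      linarith
    have h4 : T * (1 - d / d1) ≤ excessB G D b x y :=
      le_trans (mul_le_mul_of_nonneg_left (sub_le_sub_left h1 1) hT0.le) hY1
    have h5 : 1 - d / d1 ≤ excessB G D b x y * sfac b (D x y) ^ 2 * ξ := by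
      refine le_of_mul_le_mul_left ?_ hT0
      refine h4.trans (le_of_eq ?_)
      linear_combination (-(excessB G D b x y)) * e3
    have h6 := mul_le_mul_of_nonneg_left h5 d0.le
    rw [mul_sub, mul_div_cancel₀ _ d0.ne'] at h6
    linarith

end Vale.Agent.P219.CH.Relax
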