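import Vale.Agent.P219.GenK.Defs
import Vale.Agent.P219.Relax.GainBend

/-!
# P219: relaxed certificates against the space form of curvature `-b ^ 2`

The flux enters the row with its sign, the symmetrised kernel may be negative where the curvature
gain of the pair pays for it (`gainClause`), and the comparison along a geodesic is asked for two
levels of a function on the whole line at once (`LineOK`).
-/

noncomputable section

open MeasureTheory Set Filter Topology Matrix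
open scoped ENNReal

namespace Vale.Agent.P219.CH.Relax

open Bend (cfac sfac)

variable {n : ℕ}

/-- The integrand of the row per unit of `|du| dvol` without the curvature excess: `h` is the mean
curvature, `a` the half squared distance, `s` the component along the covector and `d` the signed
cosine, which also signs the flux. -/
def kernS (n : ℕ) (b h : ℝ) (w : ℝ × ℝ → ℝ) (a s d : ℝ) : ℝ :=
  ((1 - d ^ 2) + cfac b a * (((n : ℝ) - 2) + d ^ 2)) * w (a, s)
    + (1 - d ^ 2) * (2 * a * Dir.wa w (a, s) + s * Dir.wb w (a, s))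
    - |Dir.wb w (a, s)| * |d| * Real.sqrt (1 - d ^ 2) * (Real.sqrt (2 * a - s ^ 2) / sfac b a)
    - h * Real.sqrt (2 * a) * d * w (a, s)

/-- Twice the symmetrised integrand `1 + kernS` in curvature `-1` against the ball of radius `ρ`. -/
def sym (n : ℕ) (ρ : ℝ) (w : ℝ × ℝ → ℝ) (r c d : ℝ) : ℝ :=
  2 + kernS n 1 (GenK.modelH n ρ) w (r ^ 2 / 2) (r * c) d +
    kernS n 1 (GenK.modelH n ρ) w (r ^ 2 / 2) (r * d) c

/-- The curvature gain of a pair per unit of the defect of its Jacobian. -/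
def gainW (w : ℝ × ℝ → ℝ) (r c d : ℝ) : ℝ :=
  2 * |c * d| * Real.sqrt (w (r ^ 2 / 2, r * c) * w (r ^ 2 / 2, r * d)) / sfac 1 (r ^ 2 / 2)

/-- The symmetrised integrand per unit of the two slopes along a geodesic. -/
def phi (n : ℕ) (ρ ε : ℝ) (w : ℝ × ℝ → ℝ) (r c d : ℝ) : ℝ :=
  Real.sinh r ^ (n - 1) * (sym n ρ w r c d + ε) / |c * d|

/-- `phi` of two crossings of levels of `g`, `t` to the left of `t'` or the other way round; the
distance is scaled by `σ` and `c` gives the absolute cosines. -/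
def crossPhi (n : ℕ) (ρ ε : ℝ) (w : ℝ × ℝ → ℝ) (g : ℝ → ℝ) (σ : ℝ) (c : ℝ → ℝ) (t t' : ℝ) : ℝ :=
  phi n ρ ε w (σ * |t' - t|) (Real.sign (deriv g (min t t')) * c (min t t'))
    (-(Real.sign (deriv g (max t t')) * c (max t t')))

/-- The inequality for two levels on a whole line: every crossing has the value `a (c) / c - ε`,
every point above the upper level `4 β`, and they are paid by the pairs of crossings of different
levels. -/
def LineOK (n : ℕ) (ρ : ℝ) (a : ℝ → ℝ) (β ε T : ℝ) (w : ℝ × ℝ → ℝ) : Prop :=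
  ∀ (g : ℝ → ℝ) (σ lo hi : ℝ) (S U : Finset ℝ) (c : ℝ → ℝ),
    ContDiff ℝ 1 g → HasCompactSupport g → 0 < σ → 0 < lo → lo < hi → hi < 1 →
    (∀ t, t ∈ S ↔ g t = lo) → (∀ t, t ∈ U ↔ g t = hi) →
    (∀ t ∈ S ∪ U, deriv g t ≠ 0) → (∀ t ∈ S ∪ U, c t ∈ Ioc (0 : ℝ) 1) →
    (∀ t ∈ S ∪ U, ∀ t' ∈ S ∪ U, σ * |t' - t| ≤ T) →
    ∑ t ∈ S, (a (c t) / c t - ε) + ∑ t ∈ U, (a (c t) / c t - ε) +
        4 * β * σ * (volume {t | hi < g t}).toReal ≤
      ∑ t ∈ S, ∑ t' ∈ U, crossPhi n ρ ε w g σ c t t'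

/-- The kernel is negative by no more than the curvature gain. -/
def GainOK (n : ℕ) (ρ ε T : ℝ) (w : ℝ × ℝ → ℝ) : Prop :=
  ∀ r c d, r ∈ Icc 0 T → c ∈ Icc (-1 : ℝ) 1 → d ∈ Icc (-1 : ℝ) 1 →
    -ε ≤ sym n ρ w r c d + gainW w r c d

/-- A relaxed certificate against the ball of radius `ρ` in curvature `-1`. -/
structure CertAt (n : ℕ) [NeZero n] (ρ : ℝ) (a : ℝ → ℝ) (β : ℝ) : Prop where
  beta_nonneg : 0 ≤ β
  measurable_a : Measurable a
  a_nonpos : ∀ c ∈ Icc (0 : ℝ) 1, a c ≤ 0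
  a_bounded : ∃ B, ∀ c ∈ Icc (0 : ℝ) 1, -B ≤ a c
  value : Real.sinh ρ ^ (2 * (n - 1)) + Gen.cmean n (fun c => -a c) * Real.sinh ρ ^ (n - 1) ≤
    β * ∫ t in (0 : ℝ)..ρ, Real.sinh t ^ (n - 1)
  weight : ∀ ε T : ℝ, 0 < ε → 0 < T → ∃ w : ℝ × ℝ → ℝ, ContDiff ℝ 1 w ∧
    (∀ p q, 0 ≤ p → q ^ 2 ≤ 2 * p → 0 < w (p, q)) ∧
    GainOK n ρ ε T w ∧ LineOK n ρ a β ε T w

/-- Relaxed certificates against every ball. -/
def Cert (n : ℕ) [NeZero n] : Prop :=
  ∀ ρ : ℝ, 0 < ρ → ∃ (a : ℝ → ℝ) (β : ℝ), CertAt n ρ a β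

end Vale.Agent.P219.CH.Relax
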