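import Vale.Agent.P219.Relax.LineOf
import Vale.Agent.P219.GenK.Four.Weight

/-!
# P219, dimension four: gain and whole-line condition for a radial weight

With `u r = r * v (r ^ 2 / 2)` the symmetrised kernel is `psi c + psi d` for the quadratic
`psi c = radP - radH c + radQ c ^ 2`. The gain and the two conditions on pairs with an outward cosine
follow from facts on these three coefficients and `radK = u / sinh r`, in the distance alone.
-/

noncomputable section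

open MeasureTheory Set Filter Topology

namespace Vale.Agent.P219.CH.Relax

open Bend (cfac sfac)

variable {v : ℝ → ℝ}

/-- A weight depending only on the distance, as a function of the half squared one. -/
def radW (v : ℝ → ℝ) (z : ℝ × ℝ) : ℝ := v z.1

/-- The weight times the distance. -/
def radU (v : ℝ → ℝ) (r : ℝ) : ℝ := r * v (r ^ 2 / 2)

lemma hasDerivAt_radU (hv : Differentiable ℝ v) (r : ℝ) :
    HasDerivAt (radU v) (v (r ^ 2 / 2) + r ^ 2 * deriv v (r ^ 2 / 2)) r := by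
  have h1 : HasDerivAt (fun x : ℝ => x ^ 2 / 2) r r :=
    (((hasDerivAt_id r).pow 2).div_const 2).congr_deriv (by simp)
  exact ((hasDerivAt_id r).mul ((hv _).hasDerivAt.comp r h1)).congr_deriv (by simp; ring)

lemma wa_radW (hv : Differentiable ℝ v) (z : ℝ × ℝ) : Dir.wa (radW v) z = deriv v z.1 := by
  have h : HasFDerivAt (radW v) _ z := (hv z.1).hasDerivAt.hasFDerivAt.comp z hasFDerivAt_fst
  rw [Dir.wa, h.fderiv]
  simp

lemma wb_radW (hv : Differentiable ℝ v) (z : ℝ × ℝ) : Dir.wb (radW v) z = 0 := by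
  have h : HasFDerivAt (radW v) _ z := (hv z.1).hasDerivAt.hasFDerivAt.comp z hasFDerivAt_fst
  rw [Dir.wb, h.fderiv]
  simp

/-- The symmetrised kernel of a radial weight in dimension four. -/
theorem sym_radW (hv : Differentiable ℝ v) {ρ r : ℝ} (hr : 0 < r) (c d : ℝ) :
    sym 4 ρ (radW v) r c d = 2 + (2 - c ^ 2 - d ^ 2) * deriv (radU v) r +
      ((4 + c ^ 2 + d ^ 2) * (Real.cosh r / Real.sinh r) - GenK.modelH 4 ρ * (c + d)) * radU v r := by
  have e3 : Real.sqrt (2 * (r ^ 2 / 2)) = r := by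
    rw [show 2 * (r ^ 2 / 2) = r ^ 2 by ring, Real.sqrt_sq hr.le]
  have hc : cfac 1 (r ^ 2 / 2) = r * (Real.cosh r / Real.sinh r) := by
    have hs := (Real.sinh_pos_iff.2 hr).ne'
    rw [Bend.cfac, show 2 * (1 : ℝ) ^ 2 * (r ^ 2 / 2) = r ^ 2 by ring, Bend.csh_sq,
      show Real.cosh r / (2 * Bend.cshd (r ^ 2)) = r * (Real.cosh r / Real.sinh r) by
        rw [← Bend.two_mul_cshd_sq r]; field_simp]
  rw [(hasDerivAt_radU hv r).deriv]
  simp only [sym, kernS, wa_radW hv, wb_radW hv, hc, e3, radW, radU, abs_zero, zero_mul, sub_zero,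
    mul_zero, add_zero]
  push_cast
  ring

/-- The gain of a radial weight. -/
theorem gainW_radW {r : ℝ} (hr : 0 < r) (hv0 : 0 ≤ v (r ^ 2 / 2)) (c d : ℝ) :
    gainW (radW v) r c d = 2 * |c * d| * radU v r / Real.sinh r := by
  rw [gainW, radW, radW, Real.sqrt_mul_self hv0, GenK.Four.sfac_one hr, radU, div_div_eq_mul_div]
  ring

/-- The constant coefficient of the radial kernel. -/
def radP (v : ℝ → ℝ) (r : ℝ) : ℝ :=
  1 + deriv (radU v) r + 2 * (Real.cosh r / Real.sinh r) * radU v r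

/-- The linear coefficient of the radial kernel. -/
def radH (ρ : ℝ) (v : ℝ → ℝ) (r : ℝ) : ℝ := GenK.modelH 4 ρ * radU v r

/-- The quadratic coefficient of the radial kernel. -/
def radQ (v : ℝ → ℝ) (r : ℝ) : ℝ := Real.cosh r / Real.sinh r * radU v r - deriv (radU v) r

/-- The coefficient of the gain. -/
def radK (v : ℝ → ℝ) (r : ℝ) : ℝ := radU v r / Real.sinh r

lemma sym_coeff (hv : Differentiable ℝ v) {ρ r : ℝ} (hr : 0 < r) (c d : ℝ) :
    sym 4 ρ (radW v) r c d =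
      2 * radP v r - radH ρ v r * (c + d) + radQ v r * (c ^ 2 + d ^ 2) := by
  rw [sym_radW hv hr, radP, radH, radQ]
  ring

lemma gainW_coeff {r : ℝ} (hr : 0 < r) (hv0 : 0 ≤ v (r ^ 2 / 2)) (c d : ℝ) :
    gainW (radW v) r c d = 2 * radK v r * |c * d| := by
  rw [gainW_radW hr hv0, radK]
  ring

lemma radH_nonneg {ρ r : ℝ} (hρ : 0 ≤ ρ) (hu : 0 ≤ radU v r) : 0 ≤ radH ρ v r := by
  refine mul_nonneg ?_ hu
  rw [GenK.modelH]
  exact div_nonneg (mul_nonneg (by norm_num) (Real.cosh_pos ρ).le) (Real.sinh_nonneg_iff.2 hρ)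

/-- The symmetrised kernel of two nonnegative cosines is negative by at most the gain. -/
def GainAt (ρ : ℝ) (v : ℝ → ℝ) (r : ℝ) : Prop :=
  ∀ c ∈ Icc (0 : ℝ) 1, ∀ d ∈ Icc (0 : ℝ) 1,
    0 ≤ 2 * radP v r - radH ρ v r * (c + d) + radQ v r * (c ^ 2 + d ^ 2) + 2 * radK v r * (c * d)

/-- A pair with one outward cosine has room for the gain. -/
def MixAt (ρ : ℝ) (v : ℝ → ℝ) (r : ℝ) : Prop :=
  ∀ c ∈ Icc (0 : ℝ) 1, ∀ d ∈ Icc (0 : ℝ) 1,
    2 * radK v r * (c * d) ≤
      2 * radP v r - radH ρ v r * c + radH ρ v r * d + radQ v r * (c ^ 2 + d ^ 2)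

/-- A quadratic nonnegative on the unit interval. -/
lemma quad_nonneg {p h g x : ℝ} (hx : x ∈ Icc (0 : ℝ) 1) (hh : 0 ≤ h) (h1 : 0 ≤ p - h + g)
    (h2 : 2 * g ≤ h ∨ h ^ 2 ≤ 4 * p * g) : 0 ≤ p - h * x + g * x ^ 2 := by
  obtain ⟨hx0, hx1⟩ := hx
  by_cases hg : 2 * g ≤ h
  · have h3 : 0 ≤ h - g * (1 + x) := by
      rcases le_total g 0 with h4 | h4 <;>
        nlinarith [mul_nonneg (sub_nonneg.2 hx1) (abs_nonneg g)]
    nlinarith [mul_nonneg (sub_nonneg.2 hx1) h3]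
  · have h3 := h2.resolve_left hg
    refine nonneg_of_mul_nonneg_right ?_ (show (0 : ℝ) < 4 * g by linarith)
    nlinarith [sq_nonneg (2 * g * x - h)]

/-- The gain of one pair from the two facts. -/
lemma gain_core {p h q k c d : ℝ} (hh : 0 ≤ h) (h1 : 0 ≤ p - h + (q + min q k))
    (h2 : 2 * (q + min q k) ≤ h ∨ h ^ 2 ≤ 4 * p * (q + min q k))
    (hc : c ∈ Icc (0 : ℝ) 1) (hd : d ∈ Icc (0 : ℝ) 1) :
    0 ≤ 2 * p - h * (c + d) + q * (c ^ 2 + d ^ 2) + 2 * k * (c * d) := by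
  have key := quad_nonneg (x := (c + d) / 2)
    ⟨by linarith [hc.1, hd.1], by linarith [hc.2, hd.2]⟩ hh h1 h2
  have e2 := mul_le_mul_of_nonneg_right (min_le_right q k) (mul_nonneg hc.1 hd.1)
  have e3 := mul_le_mul_of_nonneg_right (min_le_left q k) (sq_nonneg (c - d))
  linarith

/-- A pair with one outward cosine has room for the gain. -/
lemma mixed_core {p h q k c d : ℝ} (hh : 0 ≤ h) (hp : 0 ≤ p) (h1 : 0 ≤ 2 * p - h + q)
    (h2 : q ≤ 2 * p) (h3 : k ≤ p + min q 0) (hc : c ∈ Icc (0 : ℝ) 1) (hd : d ∈ Icc (0 : ℝ) 1) :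
    2 * k * (c * d) ≤ 2 * p - h * c + h * d + q * (c ^ 2 + d ^ 2) := by
  obtain ⟨hc0, hc1⟩ := hc
  obtain ⟨hd0, hd1⟩ := hd
  have a := mul_nonneg (sub_nonneg.2 hc1) (sub_nonneg.2 hd1)
  have b := mul_nonneg hc0 (sub_nonneg.2 hd1)
  have b' := mul_nonneg (sub_nonneg.2 hc1) hd0
  have e := mul_nonneg hc0 hd0
  rcases le_total 0 q with hq | hq
  · rw [min_eq_right hq] at h3
    nlinarith [mul_nonneg a (show 0 ≤ 2 * p - q by linarith), mul_nonneg b h1,
      mul_nonneg b' (show 0 ≤ 2 * p - q + h by linarith),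
      mul_nonneg e (show 0 ≤ 2 * p + q - 2 * k by linarith),
      mul_nonneg hq (sq_nonneg (1 - c)), mul_nonneg hq (sq_nonneg d)]
  · rw [min_eq_left hq] at h3
    nlinarith [mul_nonneg a hp, mul_nonneg b h1,
      mul_nonneg b' (show 0 ≤ 2 * p + h + q by linarith),
      mul_nonneg e (show 0 ≤ 2 * p + 2 * q - 2 * k by linarith),
      mul_nonneg (neg_nonneg.2 hq) (mul_nonneg hc0 (sub_nonneg.2 hc1)),
      mul_nonneg (neg_nonneg.2 hq) (mul_nonneg hd0 (sub_nonneg.2 hd1))]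

/-- The gain condition of a radial weight from its facts. -/
theorem gainOK_radial {ρ ε T : ℝ} (hv : Differentiable ℝ v) (hρ : 0 ≤ ρ) (hε : 0 ≤ ε)
    (hv0 : ∀ r ∈ Icc 0 T, 0 ≤ v (r ^ 2 / 2)) (hg : ∀ r ∈ Ioc 0 T, GainAt ρ v r) :
    GainOK 4 ρ ε T (radW v) := by
  intro r c d hr hc hd
  rcases hr.1.lt_or_eq with h | h
  · have hu : 0 ≤ radU v r := mul_nonneg h.le (hv0 r hr)
    have h1 := hg r ⟨h, hr.2⟩ |c| ⟨abs_nonneg c, abs_le.2 hc⟩ |d| ⟨abs_nonneg d, abs_le.2 hd⟩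
    have e1 : radH ρ v r * (c + d) ≤ radH ρ v r * (|c| + |d|) :=
      mul_le_mul_of_nonneg_left (add_le_add (le_abs_self c) (le_abs_self d)) (radH_nonneg hρ hu)
    rw [sym_coeff hv h, gainW_coeff h (hv0 r hr), abs_mul]
    simp only [sq_abs] at h1
    linarith
  · subst h
    have h0 := hv0 0 hr
    norm_num at h0
    have hsc : ∀ c d, sym 4 ρ (radW v) 0 c d = 2 + 6 * v 0 := fun c d => by
      simp only [sym, kernS, wa_radW hv, wb_radW hv, radW]
      simp [Bend.cfac, Bend.csh_zero, Bend.cshd_zero]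
      ring
    have : 0 ≤ gainW (radW v) 0 c d := by
      rw [gainW]
      exact div_nonneg (by positivity) (Bend.sfac_pos 1 (by norm_num)).le
    rw [hsc]
    linarith

/-- Squared sine times `u` increases when `u' + 2 coth r u ≥ 0`. -/
lemma sq_sinh_radU_mono (hv : Differentiable ℝ v) {T : ℝ}
    (hu' : ∀ r ∈ Ioc 0 T, 0 ≤ deriv (radU v) r + 2 * (Real.cosh r / Real.sinh r) * radU v r) :
    MonotoneOn (fun r => Real.sinh r ^ 2 * radU v r) (Icc 0 T) := by
  have hd : ∀ r, HasDerivAt (fun r => Real.sinh r ^ 2 * radU v r)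
      (2 * Real.sinh r * Real.cosh r * radU v r + Real.sinh r ^ 2 * deriv (radU v) r) r := fun r =>
    (((Real.hasDerivAt_sinh r).pow 2).mul
      (hasDerivAt_radU hv r).differentiableAt.hasDerivAt).congr_deriv (by simp)
  refine monotoneOn_of_deriv_nonneg (convex_Icc 0 T)
    (fun r _ => (hd r).continuousAt.continuousWithinAt)
    (fun r _ => (hd r).differentiableAt.differentiableWithinAt) fun r hr => ?_
  rw [interior_Icc] at hr
  have hs := Real.sinh_pos_iff.2 hr.1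
  rw [(hd r).deriv]
  have h := mul_nonneg (sq_nonneg (Real.sinh r)) (hu' r ⟨hr.1, hr.2.le⟩)
  calc (0 : ℝ) ≤ _ := h
    _ = _ := by field_simp; ring

/-- The whole-line condition for a radial weight from the facts and the pair bound. -/
theorem lineOK_radial {ρ β ε T : ℝ} {a : ℝ → ℝ} (hv : Differentiable ℝ v) (hρ : 0 ≤ ρ)
    (hβ : 0 ≤ β) (hε : 0 ≤ ε) (ha : ∀ c ∈ Ioc (0 : ℝ) 1, a c ≤ 0)
    (hv0 : ∀ r ∈ Icc 0 T, 0 ≤ v (r ^ 2 / 2))
    (hp : ∀ r ∈ Ioc 0 T, 1 ≤ radP v r) (hm : ∀ r ∈ Ioc 0 T, MixAt ρ v r)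
    (hg : ∀ r ∈ Ioc 0 T, GainAt ρ v r)
    (hF : ∀ r c d, r ∈ Ioc 0 T → c ∈ Ioc (0 : ℝ) 1 → d ∈ Ioc (0 : ℝ) 1 →
      a c / c + a d / d + 2 * β * r - 2 * ε ≤ phi 4 ρ ε (radW v) r c d) :
    LineOK 4 ρ a β ε T (radW v) := by
  have hu : ∀ r ∈ Ioc 0 T, 0 ≤ radU v r := fun r hr =>
    mul_nonneg hr.1.le (hv0 r (Ioc_subset_Icc_self hr))
  have hmix : ∀ r c d, r ∈ Ioc 0 T → c ∈ Ioc (0 : ℝ) 1 → d ∈ Ioc (0 : ℝ) 1 →
      2 * radK v r * c * d ≤ sym 4 ρ (radW v) r c (-d) ∧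
      0 ≤ sym 4 ρ (radW v) r (-c) (-d) := by
    intro r c d hr hc hd
    have hh := radH_nonneg hρ (hu r hr)
    have h := hm r hr c (Ioc_subset_Icc_self hc) d (Ioc_subset_Icc_self hd)
    have hk : 0 ≤ 2 * radK v r * c * d := by
      have : 0 ≤ radK v r := div_nonneg (hu r hr) (Real.sinh_pos_iff.2 hr.1).le
      have := hc.1.le
      have := hd.1.le
      positivity
    rw [sym_coeff hv hr.1, sym_coeff hv hr.1]
    simp only [neg_sq]
    exact ⟨by linarith, by linarith [mul_nonneg hh hc.1.le]⟩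
  refine lineOK_of_pointwise hβ hε ha hF ?_ ?_
  · intro r p c d e hr hrp hpT' hc hd he
    have hrT : r ∈ Ioc 0 T := ⟨hr, hrp.trans hpT'⟩
    have hpT : p ∈ Ioc 0 T := ⟨hr.trans_le hrp, hpT'⟩
    have hs := Real.sinh_pos_iff.2 hr
    have hsp := Real.sinh_pos_iff.2 hpT.1
    have hgn := gainOK_radial hv hρ hε hv0 hg r c d (Ioc_subset_Icc_self hrT)
      ⟨by linarith [hc.1], hc.2⟩ ⟨by linarith [hd.1], hd.2⟩
    rw [gainW_coeff hr (hv0 r (Ioc_subset_Icc_self hrT)), abs_of_pos (mul_pos hc.1 hd.1)] at hgn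
    have hmx := (hmix p c e hpT hc he).1
    have hmono : Real.sinh r ^ 2 * radU v r ≤ Real.sinh p ^ 2 * radU v p :=
      sq_sinh_radU_mono hv (fun x hx => by
        have := hp x hx
        rw [radP] at this
        linarith) (Ioc_subset_Icc_self hrT) (Ioc_subset_Icc_self hpT) hrp
    have h1 : -(2 * (Real.sinh r ^ 2 * radU v r)) ≤ phi 4 ρ ε (radW v) r c d := by
      rw [phi, abs_of_pos (mul_pos hc.1 hd.1), le_div_iff₀ (mul_pos hc.1 hd.1)]
      have h := mul_le_mul_of_nonneg_left (show -(2 * radK v r * (c * d)) ≤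
        sym 4 ρ (radW v) r c d + ε by linarith) (pow_nonneg hs.le 3)
      calc -(2 * (Real.sinh r ^ 2 * radU v r)) * (c * d)
          = Real.sinh r ^ 3 * -(2 * radK v r * (c * d)) := by rw [radK]; field_simp
        _ ≤ _ := h
    have h2 : 2 * (Real.sinh p ^ 2 * radU v p) ≤ phi 4 ρ ε (radW v) p c (-e) := by
      rw [phi, mul_neg, abs_neg, abs_of_pos (mul_pos hc.1 he.1), le_div_iff₀ (mul_pos hc.1 he.1)]
      have h := mul_le_mul_of_nonneg_left (show 2 * radK v p * c * e ≤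
        sym 4 ρ (radW v) p c (-e) + ε by linarith) (pow_nonneg hsp.le 3)
      calc 2 * (Real.sinh p ^ 2 * radU v p) * (c * e)
          = Real.sinh p ^ 3 * (2 * radK v p * c * e) := by rw [radK]; field_simp
        _ ≤ _ := h
    linarith
  · intro r c d hr hc hd
    obtain ⟨h1, h2⟩ := hmix r c d hr hc hd
    have hs := Real.sinh_pos_iff.2 hr.1
    have h3 : 0 ≤ 2 * radK v r * c * d := by
      have : 0 ≤ radK v r := div_nonneg (hu r hr) hs.le
      have := hc.1.le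
      have := hd.1.le
      positivity
    exact ⟨div_nonneg (mul_nonneg (pow_nonneg hs.le _) (by linarith)) (abs_nonneg _),
      div_nonneg (mul_nonneg (pow_nonneg hs.le _) (by linarith)) (abs_nonneg _)⟩

end Vale.Agent.P219.CH.Relax
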