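import Vale.Agent.P219.Relax.Coarea

/-!
# The two-level inequality, integrated over the levels

An inequality between the sums over two regular levels of a function on the line becomes an
inequality between integrals over ordered pairs of times.
-/

noncomputable section

open MeasureTheory Set Filter Topology Function
open scoped ENNReal

namespace Vale.Agent.P219.CH.Relax.LineInt

open Coarea

variable {g : ℝ → ℝ} {Ψ : ℝ → ℝ → ℝ}

/-- The integral of the positive part over ordered pairs of times, weighted by the two slopes. -/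
def ordInt (g : ℝ → ℝ) (Ψ : ℝ → ℝ → ℝ) : ℝ≥0∞ :=
  ∫⁻ a, ∫⁻ b in Ioi a,
    ENNReal.ofReal |deriv g a| * (ENNReal.ofReal |deriv g b| * ENNReal.ofReal (Ψ a b))

/-- The positive part on pairs ordered by the value. -/
def upPair (g : ℝ → ℝ) (Ψ : ℝ → ℝ → ℝ) (a b : ℝ) : ℝ≥0∞ :=
  (Ioi (g a)).indicator (fun _ => ENNReal.ofReal (Ψ a b)) (g b)

lemma measurable_upPair (hg : Continuous g) (hΨ : Measurable (uncurry Ψ)) :
    Measurable (uncurry (upPair g Ψ)) := by
  have e : uncurry (upPair g Ψ) = ({z : ℝ × ℝ | g z.1 < g z.2}).indicator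
      fun z => ENNReal.ofReal (Ψ z.1 z.2) := by
    funext z
    simp only [uncurry, upPair, indicator_apply, mem_Ioi, mem_ofPred_eq]
  rw [e]
  exact hΨ.ennreal_ofReal.indicator
    (isOpen_lt (hg.comp continuous_fst) (hg.comp continuous_snd)).measurableSet

/-- The integral over pairs ordered by the value. -/
def upInt (g : ℝ → ℝ) (Ψ : ℝ → ℝ → ℝ) : ℝ≥0∞ :=
  ∫⁻ a, ENNReal.ofReal |deriv g a| * ∫⁻ b, ENNReal.ofReal |deriv g b| * upPair g Ψ a b

/-- Ordering by the value or by the time gives the same integral. -/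
theorem upInt_eq (hg : ContDiff ℝ 1 g) (hΨ : Measurable (uncurry Ψ))
    (hsymm : ∀ a b, Ψ a b = Ψ b a) : upInt g Ψ = ordInt g Ψ := by
  have hd : Measurable fun t => ENNReal.ofReal |deriv g t| :=
    (measurable_deriv g).abs.ennreal_ofReal
  set F : ℝ → ℝ → ℝ≥0∞ := fun a b =>
    ENNReal.ofReal |deriv g a| * (ENNReal.ofReal |deriv g b| * ENNReal.ofReal (Ψ a b))
  have hFm : Measurable (uncurry F) :=
    (hd.comp measurable_fst).mul ((hd.comp measurable_snd).mul hΨ.ennreal_ofReal)
  have hFs : ∀ a b, F a b = F b a := fun a b => by simp only [F, hsymm a b]; ring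
  have hgc := hg.continuous
  have hcmp := fun (f₁ f₂ : ℝ × ℝ → ℝ) (h₁ : Continuous f₁) (h₂ : Continuous f₂) =>
    (isOpen_lt h₁ h₂).measurableSet
  set A : Set (ℝ × ℝ) := {z | g z.1 < g z.2}
  set T : Set (ℝ × ℝ) := {z | z.1 < z.2}
  have hA : MeasurableSet A := hcmp _ _ (hgc.comp continuous_fst) (hgc.comp continuous_snd)
  have hT : MeasurableSet T := hcmp _ _ continuous_fst continuous_snd
  have hA' : MeasurableSet {z : ℝ × ℝ | g z.2 < g z.1} :=
    hcmp _ _ (hgc.comp continuous_snd) (hgc.comp continuous_fst)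
  have hT' : MeasurableSet {z : ℝ × ℝ | z.2 < z.1} := hcmp _ _ continuous_snd continuous_fst
  have e1 : upInt g Ψ = ∫⁻ a, ∫⁻ b, A.indicator (uncurry F) (a, b) := by
    refine lintegral_congr fun a => ?_
    rw [← lintegral_const_mul' _ _ ENNReal.ofReal_ne_top]
    refine lintegral_congr fun b => ?_
    simp only [upPair, indicator_apply, mem_Ioi, A, mem_ofPred_eq, uncurry, F]
    split_ifs <;> simp
  have e2 : ordInt g Ψ = ∫⁻ a, ∫⁻ b, T.indicator (uncurry F) (a, b) := by
    refine lintegral_congr fun a => ?_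
    rw [← lintegral_indicator measurableSet_Ioi]
    refine lintegral_congr fun b => ?_
    simp only [indicator_apply, mem_Ioi, T, mem_ofPred_eq, uncurry, F]
  have e3 : ∫⁻ a, ∫⁻ b, A.indicator (uncurry F) (a, b) =
      (∫⁻ a, ∫⁻ b, (A ∩ T).indicator (uncurry F) (a, b)) +
        ∫⁻ a, ∫⁻ b, ({z : ℝ × ℝ | g z.2 < g z.1} ∩ T).indicator (uncurry F) (a, b) := by
    have m1 := hFm.indicator (hA.inter hT)
    have m2 := hFm.indicator (hA.inter hT')
    have hsw : ∫⁻ a, ∫⁻ b, (A ∩ {z : ℝ × ℝ | z.2 < z.1}).indicator (uncurry F) (a, b) =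
        ∫⁻ a, ∫⁻ b, ({z : ℝ × ℝ | g z.2 < g z.1} ∩ T).indicator (uncurry F) (a, b) := by
      rw [lintegral_lintegral_swap
        (f := fun a b => (A ∩ {z : ℝ × ℝ | z.2 < z.1}).indicator (uncurry F) (a, b))
        m2.aemeasurable]
      refine lintegral_congr fun a => lintegral_congr fun b => ?_
      simp only [indicator_apply, mem_inter_iff, A, T, mem_ofPred_eq, uncurry, hFs a b]
    rw [← hsw, ← lintegral_add_left m1.lintegral_prod_right']
    refine lintegral_congr fun a => ?_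
    rw [← lintegral_add_left (f := fun b => (A ∩ T).indicator (uncurry F) (a, b))
      (m1.comp measurable_prodMk_left)]
    refine lintegral_congr fun b => ?_
    simp only [indicator_apply, mem_inter_iff, A, T, mem_ofPred_eq]
    rcases lt_trichotomy a b with hab | rfl | hab
    · simp [hab, not_lt.2 hab.le]
    · simp
    · simp [hab, not_lt.2 hab.le]
  rw [e1, e2, e3, ← lintegral_add_left (hFm.indicator (hA.inter hT)).lintegral_prod_right']
  refine lintegral_congr fun a => ?_
  rw [← lintegral_add_left (f := fun b => (A ∩ T).indicator (uncurry F) (a, b))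
    ((hFm.indicator (hA.inter hT)).comp measurable_prodMk_left)]
  refine lintegral_congr_ae ?_
  filter_upwards [compl_mem_ae_iff.2 (volume_level hg (g a))] with b hb
  simp only [indicator_apply, mem_inter_iff, A, T, mem_ofPred_eq]
  rcases lt_trichotomy (g a) (g b) with hab | hab | hab
  · simp [hab, not_lt.2 hab.le]
  · have h0 : deriv g b = 0 := by
      by_contra hne
      exact hb ⟨hab.symm, hne⟩
    simp [hab, uncurry, F, h0]
  · simp [hab, not_lt.2 hab.le]

/-- The values over the first level, each integrated against the second. -/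
def levInner (g : ℝ → ℝ) (Ψ : ℝ → ℝ → ℝ) (a : ℝ) : ℝ≥0∞ :=
  ∫⁻ m, levelSum g (upPair g Ψ a) m

lemma levInner_eq (hg : ContDiff ℝ 1 g) (hΨ : Measurable (uncurry Ψ)) (a : ℝ) :
    levInner g Ψ a = ∫⁻ b, ENNReal.ofReal |deriv g b| * upPair g Ψ a b :=
  lintegral_levelSum hg ((measurable_upPair hg.continuous hΨ).of_uncurry_left)

lemma measurable_levInner (hg : ContDiff ℝ 1 g) (hΨ : Measurable (uncurry Ψ)) :
    Measurable (levInner g Ψ) := by
  have hfun : levInner g Ψ = fun a => ∫⁻ b, ENNReal.ofReal |deriv g b| * upPair g Ψ a b :=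
    funext (levInner_eq hg hΨ)
  rw [hfun]
  exact Measurable.lintegral_prod_right'
    (f := fun z : ℝ × ℝ => ENNReal.ofReal |deriv g z.2| * upPair g Ψ z.1 z.2)
    ((((measurable_deriv g).comp measurable_snd).abs.ennreal_ofReal).mul
      (measurable_upPair hg.continuous hΨ))

lemma lintegral_levInner (hg : ContDiff ℝ 1 g) (hΨ : Measurable (uncurry Ψ))
    (hsymm : ∀ a b, Ψ a b = Ψ b a) :
    ∫⁻ l, levelSum g (levInner g Ψ) l = ordInt g Ψ := by
  rw [lintegral_levelSum hg (measurable_levInner hg hΨ), ← upInt_eq hg hΨ hsymm, upInt]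
  exact lintegral_congr fun a => by rw [levInner_eq hg hΨ]

/-- The triangle of pairs of levels below `t`. -/
def tri (t : ℝ) : ℝ × ℝ → ℝ≥0∞ := {z | 0 < z.1 ∧ z.1 < z.2 ∧ z.2 < t}.indicator 1

lemma measurableSet_tri (t : ℝ) : MeasurableSet {z : ℝ × ℝ | 0 < z.1 ∧ z.1 < z.2 ∧ z.2 < t} :=
  (isOpen_lt continuous_const continuous_fst).measurableSet.inter
    ((isOpen_lt continuous_fst continuous_snd).measurableSet.inter
      (isOpen_lt continuous_snd continuous_const).measurableSet)

lemma measurable_tri (t : ℝ) : Measurable (tri t) :=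
  measurable_one.indicator (measurableSet_tri t)

lemma lintegral_tri_left (t l : ℝ) :
    ∫⁻ m, tri t (l, m) = (Ioi (0 : ℝ)).indicator (fun l => ENNReal.ofReal (t - l)) l := by
  by_cases hl : 0 < l
  · rw [indicator_of_mem (mem_Ioi.2 hl), ← Real.volume_Ioo,
      ← lintegral_indicator_one measurableSet_Ioo]
    exact lintegral_congr fun m => by simp [tri, indicator_apply, hl]
  · rw [indicator_of_notMem (show l ∉ Ioi (0 : ℝ) from hl), lintegral_eq_zero_of_ae_eq_zero]
    exact Eventually.of_forall fun m => indicator_of_notMem (fun h => hl h.1) _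

lemma lintegral_tri_right_le (l : ℝ) :
    ∫⁻ m, tri 1 (m, l) ≤ (Iio (1 : ℝ)).indicator (fun l => ENNReal.ofReal l) l := by
  by_cases hl : l < 1
  · rw [indicator_of_mem (mem_Iio.2 hl), ← sub_zero l, ← Real.volume_Ioo, sub_zero,
      ← lintegral_indicator_one measurableSet_Ioo]
    exact (lintegral_congr fun m => by simp [tri, indicator_apply, hl]).le
  · rw [indicator_of_notMem (show l ∉ Iio (1 : ℝ) from hl)]
    refine le_of_eq (lintegral_eq_zero_of_ae_eq_zero ?_)
    exact Eventually.of_forall fun m => indicator_of_notMem (fun h => hl h.2.2) _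

lemma tri_total_le (l : ℝ) : (∫⁻ m, tri 1 (l, m)) + ∫⁻ m, tri 1 (m, l) ≤ 1 := by
  refine le_trans (add_le_add (lintegral_tri_left 1 l).le (lintegral_tri_right_le l)) ?_
  by_cases h0 : 0 < l <;> by_cases h1 : l < 1 <;>
    simp only [indicator_apply, mem_Ioi, mem_Iio, h0, h1, if_true, if_false]
  · rw [← ENNReal.ofReal_add (by linarith) (by linarith)]
    simp
  · simp only [add_zero]
    exact ENNReal.ofReal_le_one.2 (by linarith)
  · simp only [zero_add]
    exact ENNReal.ofReal_le_one.2 (by linarith)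
  · simp

lemma lintegral_tri {t : ℝ} (ht : 0 ≤ t) :
    ∫⁻ l, ∫⁻ m, tri t (l, m) = ENNReal.ofReal (t ^ 2 / 2) := by
  simp only [lintegral_tri_left]
  have e : ∀ l, (Ioi (0 : ℝ)).indicator (fun l => ENNReal.ofReal (t - l)) l =
      (Ioc (0 : ℝ) t).indicator (fun l => ENNReal.ofReal (t - l)) l := fun l => by
    by_cases h0 : 0 < l <;> by_cases h1 : l ≤ t <;> simp [h0, h1]
    linarith
  simp only [e]
  rw [lintegral_indicator measurableSet_Ioc, ← ofReal_integral_eq_lintegral_ofReal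
    (ContinuousOn.integrableOn_Icc (by fun_prop) |>.mono_set Ioc_subset_Icc_self)
    (ae_restrict_of_forall_mem measurableSet_Ioc fun l hl => sub_nonneg.2 hl.2)]
  congr 1
  rw [← intervalIntegral.integral_of_le ht, intervalIntegral.integral_sub
    (by simp) intervalIntegral.intervalIntegrable_id]
  simp
  ring

/-- A real inequality between sums gives one between the positive parts. -/
lemma ofReal_split {S U : Finset ℝ} {F : ℝ → ℝ → ℝ} {w : ℝ → ℝ} {C : ℝ} (hC : 0 ≤ C)
    (hle : ∑ t ∈ S, -w t + ∑ t ∈ U, -w t + C ≤ ∑ t ∈ S, ∑ t' ∈ U, F t t') :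
    (∑ t ∈ S, ∑ t' ∈ U, ENNReal.ofReal (-F t t')) + ENNReal.ofReal C ≤
      (∑ t ∈ S, ∑ t' ∈ U, ENNReal.ofReal (F t t')) +
        ((∑ t ∈ S, ENNReal.ofReal (w t)) + ∑ t ∈ U, ENNReal.ofReal (w t)) := by
  have hs : ∀ (T : Finset ℝ) (f : ℝ → ℝ),
      ENNReal.ofReal (∑ t ∈ T, max (f t) 0) = ∑ t ∈ T, ENNReal.ofReal (f t) := fun T f => by
    rw [ENNReal.ofReal_sum_of_nonneg fun t _ => le_max_right _ _]
    exact Finset.sum_congr rfl fun t _ => by simp [ENNReal.ofReal_max]
  have hd : ∀ (f : ℝ → ℝ → ℝ), ENNReal.ofReal (∑ t ∈ S, ∑ t' ∈ U, max (f t t') 0) =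
      ∑ t ∈ S, ∑ t' ∈ U, ENNReal.ofReal (f t t') := fun f => by
    rw [ENNReal.ofReal_sum_of_nonneg fun t _ => Finset.sum_nonneg fun t' _ => le_max_right _ _]
    exact Finset.sum_congr rfl fun t _ => hs U _
  rw [← hd, ← hd, ← hs S, ← hs U]
  have p0 : 0 ≤ ∑ t ∈ S, ∑ t' ∈ U, max (-F t t') 0 :=
    Finset.sum_nonneg fun t _ => Finset.sum_nonneg fun t' _ => le_max_right _ _
  have q0 : 0 ≤ ∑ t ∈ S, ∑ t' ∈ U, max (F t t') 0 :=
    Finset.sum_nonneg fun t _ => Finset.sum_nonneg fun t' _ => le_max_right _ _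
  have s0 : 0 ≤ ∑ t ∈ S, max (w t) 0 := Finset.sum_nonneg fun t _ => le_max_right _ _
  have u0 : 0 ≤ ∑ t ∈ U, max (w t) 0 := Finset.sum_nonneg fun t _ => le_max_right _ _
  rw [← ENNReal.ofReal_add s0 u0, ← ENNReal.ofReal_add q0 (add_nonneg s0 u0),
    ← ENNReal.ofReal_add p0 hC]
  refine ENNReal.ofReal_le_ofReal ?_
  have hFF : ∑ t ∈ S, ∑ t' ∈ U, F t t' =
      (∑ t ∈ S, ∑ t' ∈ U, max (F t t') 0) - ∑ t ∈ S, ∑ t' ∈ U, max (-F t t') 0 := by
    simp only [← Finset.sum_sub_distrib, max_zero_sub_max_neg_zero_eq_self]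
  have a1 := Finset.sum_le_sum fun t (_ : t ∈ S) => le_max_left (w t) 0
  have a2 := Finset.sum_le_sum fun t (_ : t ∈ U) => le_max_left (w t) 0
  simp only [Finset.sum_neg_distrib] at hle
  linarith

/-- The integrated inequality. -/
theorem lines_le (hg : ContDiff ℝ 1 g) (hc : HasCompactSupport g)
    (h01 : ∀ t, g t ∈ Icc (0 : ℝ) 1) (hΨ : Measurable (uncurry Ψ))
    (hsymm : ∀ a b, Ψ a b = Ψ b a) {w : ℝ → ℝ} (hw : Measurable w) {C η : ℝ} (hC : 0 ≤ C)
    (hη : 0 < η) (hη1 : η < 1)
    (hlev : ∀ (lo hi : ℝ) (S U : Finset ℝ), 0 < lo → lo < hi → hi < 1 →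
      (∀ t, t ∈ S ↔ g t = lo) → (∀ t, t ∈ U ↔ g t = hi) → (∀ t ∈ S ∪ U, deriv g t ≠ 0) →
      ∑ t ∈ S, -w t + ∑ t ∈ U, -w t + C * (volume {t | hi < g t}).toReal ≤
        ∑ t ∈ S, ∑ t' ∈ U, Ψ t t') :
    ordInt g (fun a b => -Ψ a b) +
        ENNReal.ofReal (C * ((1 - η) ^ 2 / 2)) * volume {t | 1 - η < g t} ≤
      ordInt g Ψ + ∫⁻ t, ENNReal.ofReal |deriv g t| * ENNReal.ofReal (w t) := by
  set W : ℝ → ℝ≥0∞ := fun t => ENNReal.ofReal (w t)
  have hW : Measurable W := hw.ennreal_ofReal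
  set L := levelSum g W
  have hL : Measurable L := measurable_levelSum hg.continuous hW
  have hΨn : Measurable (uncurry fun a b => -Ψ a b) := hΨ.neg
  have hns : ∀ a b, (fun a b => -Ψ a b) a b = (fun a b => -Ψ a b) b a := fun a b => by
    simp only [hsymm a b]
  set K := ENNReal.ofReal C * volume {t | 1 - η < g t}
  have hpt : ∀ᵐ l : ℝ, ∀ᵐ m : ℝ,
      levelSum g (fun a => levelSum g (upPair g (fun a b => -Ψ a b) a) m) l + K * tri (1 - η) (l, m) ≤
        levelSum g (fun a => levelSum g (upPair g Ψ a) m) l + (L l + L m) * tri 1 (l, m) := by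
    filter_upwards [ae_regular hg, Measure.ae_ne volume (0 : ℝ)] with l hl hl0
    filter_upwards [ae_regular hg, Measure.ae_ne volume (0 : ℝ), Measure.ae_ne volume (1 : ℝ)]
      with m hm hm0 hm1
    obtain ⟨S, hS⟩ : ∃ S : Finset ℝ, ∀ t, t ∈ S ↔ g t = l :=
      ⟨(finite_level hg hc hl0 hl).toFinset, fun t => by simp⟩
    obtain ⟨U, hU⟩ : ∃ U : Finset ℝ, ∀ t, t ∈ U ↔ g t = m :=
      ⟨(finite_level hg hc hm0 hm).toFinset, fun t => by simp⟩
    have hSr : ∀ t ∈ S, deriv g t ≠ 0 := fun t ht => hl t ((hS t).1 ht)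
    have hUr : ∀ t ∈ U, deriv g t ≠ 0 := fun t ht => hm t ((hU t).1 ht)
    simp only [L, levelSum_eq hg hS hSr, levelSum_eq hg hU hUr]
    have hup : ∀ (F : ℝ → ℝ → ℝ), l < m → ∀ a ∈ S, ∀ b ∈ U,
        upPair g F a b = ENNReal.ofReal (F a b) := fun F hlm a ha b hb =>
      indicator_of_mem (show g b ∈ Ioi (g a) by rwa [(hS a).1 ha, (hU b).1 hb]) _
    by_cases hout : 0 < l ∧ l < m ∧ m < 1
    · obtain ⟨h0, hlm, h1⟩ := hout
      rw [Finset.sum_congr rfl fun a ha => Finset.sum_congr rfl (hup _ hlm a ha),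
        Finset.sum_congr rfl fun a ha => Finset.sum_congr rfl (hup Ψ hlm a ha)]
      have hreal := ofReal_split (mul_nonneg hC ENNReal.toReal_nonneg)
        (hlev l m S U h0 hlm h1 hS hU fun t ht =>
          (Finset.mem_union.1 ht).elim (hSr t) (hUr t))
      rw [show tri 1 (l, m) = 1 from indicator_of_mem (show (l, m) ∈ {z : ℝ × ℝ | 0 < z.1 ∧ z.1 < z.2 ∧ z.2 < 1} from ⟨h0, hlm, h1⟩) _, mul_one]
      refine le_trans (add_le_add le_rfl ?_) hreal
      by_cases hη' : m < 1 - η
      · rw [show tri (1 - η) (l, m) = 1 from indicator_of_mem (show (l, m) ∈ {z : ℝ × ℝ | 0 < z.1 ∧ z.1 < z.2 ∧ z.2 < 1 - η} from ⟨h0, hlm, hη'⟩) _, mul_one,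
          ENNReal.ofReal_mul hC, ENNReal.ofReal_toReal]
        · exact mul_le_mul_right (measure_mono fun t (ht : 1 - η < g t) => hη'.trans ht) _
        · refine ne_of_lt (lt_of_le_of_lt (measure_mono fun t (ht : m < g t) =>
            subset_tsupport g (show g t ≠ 0 by linarith)) hc.isCompact.measure_lt_top)
      · rw [show tri (1 - η) (l, m) = 0 from indicator_of_notMem (fun h => hη' h.2.2) _,
          mul_zero]
        exact zero_le
    · have hz : ∀ (F : ℝ → ℝ → ℝ), ∀ a ∈ S, ∀ b ∈ U, upPair g F a b = 0 := fun F a ha b hb => by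
        refine indicator_of_notMem (fun hab => hout ?_) _
        have hab' : l < m := by rw [← (hS a).1 ha, ← (hU b).1 hb]; exact hab
        refine ⟨lt_of_le_of_ne ((hS a).1 ha ▸ (h01 a).1) (Ne.symm hl0), hab',
          lt_of_le_of_ne ((hU b).1 hb ▸ (h01 b).2) hm1⟩
      rw [Finset.sum_eq_zero fun a ha => Finset.sum_eq_zero (hz _ a ha),
        Finset.sum_eq_zero fun a ha => Finset.sum_eq_zero (hz Ψ a ha),
        show tri 1 (l, m) = 0 from indicator_of_notMem (show (l, m) ∉ {z : ℝ × ℝ | 0 < z.1 ∧ z.1 < z.2 ∧ z.2 < 1} from hout) _,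
        show tri (1 - η) (l, m) = 0 from
          indicator_of_notMem (fun h => hout ⟨h.1, h.2.1, h.2.2.trans (by linarith)⟩) _]
      simp
  have hord : ∀ (F : ℝ → ℝ → ℝ), Measurable (uncurry F) → (∀ a b, F a b = F b a) →
      ∫⁻ l, ∫⁻ m, levelSum g (fun a => levelSum g (upPair g F a) m) l = ordInt g F := by
    intro F hF hFs
    rw [← lintegral_levInner hg hF hFs]
    refine lintegral_congr_ae ?_
    filter_upwards [ae_regular hg, Measure.ae_ne volume (0 : ℝ)] with l hl hl0
    obtain ⟨S, hS⟩ : ∃ S : Finset ℝ, ∀ t, t ∈ S ↔ g t = l :=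
      ⟨(finite_level hg hc hl0 hl).toFinset, fun t => by simp⟩
    have hSr : ∀ t ∈ S, deriv g t ≠ 0 := fun t ht => hl t ((hS t).1 ht)
    simp only [levelSum_eq hg hS hSr, levInner]
    exact lintegral_finsetSum _ fun a _ =>
      measurable_levelSum hg.continuous (measurable_upPair hg.continuous hF).of_uncurry_left
  have hKi : ∫⁻ l, ∫⁻ m, K * tri (1 - η) (l, m) =
      ENNReal.ofReal (C * ((1 - η) ^ 2 / 2)) * volume {t | 1 - η < g t} := by
    have hm : Measurable fun l => ∫⁻ m, tri (1 - η) (l, m) :=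
      (measurable_tri _).lintegral_prod_right'
    have e : ∀ l, ∫⁻ m, K * tri (1 - η) (l, m) = K * ∫⁻ m, tri (1 - η) (l, m) := fun l =>
      lintegral_const_mul _ ((measurable_tri _).comp measurable_prodMk_left)
    simp only [e]
    rw [lintegral_const_mul _ hm, lintegral_tri (by linarith), ENNReal.ofReal_mul hC]
    ring
  have hLi : ∫⁻ l, ∫⁻ m, (L l + L m) * tri 1 (l, m) ≤
      ∫⁻ t, ENNReal.ofReal |deriv g t| * ENNReal.ofReal (w t) := by
    rw [show ∫⁻ t, ENNReal.ofReal |deriv g t| * ENNReal.ofReal (w t) = ∫⁻ l, L l from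
      (lintegral_levelSum hg hW).symm]
    have m1 : Measurable fun z : ℝ × ℝ => L z.1 * tri 1 z :=
      (hL.comp measurable_fst).mul (measurable_tri 1)
    have m2 : Measurable fun z : ℝ × ℝ => L z.2 * tri 1 z :=
      (hL.comp measurable_snd).mul (measurable_tri 1)
    simp only [add_mul]
    rw [lintegral_congr fun l => lintegral_add_left (f := fun m => L l * tri 1 (l, m))
        (m1.comp measurable_prodMk_left) (fun m => L m * tri 1 (l, m)),
      lintegral_add_left m1.lintegral_prod_right',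
      lintegral_lintegral_swap (f := fun l m => L m * tri 1 (l, m)) m2.aemeasurable,
      ← lintegral_add_left m1.lintegral_prod_right']
    refine lintegral_mono fun l => ?_
    show (∫⁻ m, L l * tri 1 (l, m)) + ∫⁻ m, L l * tri 1 (m, l) ≤ L l
    rw [lintegral_const_mul _ (show Measurable fun m => tri 1 (l, m) from
        (measurable_tri 1).comp measurable_prodMk_left),
      lintegral_const_mul _ (show Measurable fun m => tri 1 (m, l) from
        (measurable_tri 1).comp measurable_prodMk_right), ← mul_add]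
    exact mul_le_of_le_one_right' (tri_total_le l)
  rw [← hKi, ← hord _ hΨn hns, ← hord Ψ hΨ hsymm]
  refine le_trans ?_ (add_le_add le_rfl hLi)
  refine le_trans ?_ ((lintegral_mono_ae (hpt.mono fun l hl => lintegral_mono_ae hl)).trans ?_)
  · refine le_trans (le_lintegral_add _ _) (lintegral_mono fun l => le_lintegral_add _ _)
  · have h2 : ∀ l, Measurable fun m => (L l + L m) * tri 1 (l, m) := fun l =>
      (measurable_const.add hL).mul ((measurable_tri 1).comp measurable_prodMk_left)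
    rw [lintegral_congr fun l => lintegral_add_right _ (h2 l)]
    exact (lintegral_add_right _
      (((hL.comp measurable_fst).add (hL.comp measurable_snd)).mul
        (measurable_tri 1)).lintegral_prod_right').le

end Vale.Agent.P219.CH.Relax.LineInt
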