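import Vale.Agent.P219.Relax.GainBend
import Vale.Agent.P219.Gen.PolarBend
import Vale.Agent.P219.Six.Flow
import Vale.Agent.P219.Six.PairMeasure

/-!
# P219: polar coordinates with the exact Jacobian
-/

noncomputable section

open MeasureTheory Set Filter Topology Matrix
open scoped ENNReal

namespace Vale.Agent.P219.CH.Relax

open Six (Phase vnorm fibre volM IsExp)

variable {n : ℕ}

/-- The radial integral, exactly. -/
lemma radial_eq (m : ℕ) {a : ℝ} (ha : 0 < a) :
    ∫⁻ t in Ioi (0 : ℝ), ENNReal.ofReal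
        (a ^ (m + 1) * (t⁻¹ ^ (m + 2) * Real.exp (-((a / t) ^ 2 / 2)))) =
      ENNReal.ofReal (Gen.radial (m + 1)) := by
  set g : ℝ → ℝ≥0∞ := fun r => ENNReal.ofReal (r ^ m * Real.exp (-(r ^ 2 / 2)))
  set φ : ℝ → ℝ := fun t => a / t
  have hd : ∀ t ∈ Ioi (0 : ℝ), HasDerivWithinAt φ (-(a / t ^ 2)) (Ioi 0) t := fun t ht => by
    have h := (hasDerivAt_inv (mem_Ioi.1 ht).ne').const_mul a
    refine (h.congr_deriv (by ring)).hasDerivWithinAt.congr (fun s _ => ?_) ?_ <;>
      simp [φ, div_eq_mul_inv]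
  have hinj : InjOn φ (Ioi 0) := fun s hs t ht hst => by
    simp only [φ] at hst
    rw [div_eq_div_iff (mem_Ioi.1 hs).ne' (mem_Ioi.1 ht).ne'] at hst
    exact mul_left_cancel₀ ha.ne' hst.symm
  have himg : φ '' Ioi 0 = Ioi 0 := by
    refine Subset.antisymm ?_ fun r hr => ⟨a / r, mem_Ioi.2 (div_pos ha (mem_Ioi.1 hr)), ?_⟩
    · rintro _ ⟨t, ht, rfl⟩
      exact mem_Ioi.2 (div_pos ha (mem_Ioi.1 ht))
    · have : (r : ℝ) ≠ 0 := (mem_Ioi.1 hr).ne'
      simp only [φ]
      field_simp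
  have h1 := lintegral_image_eq_lintegral_abs_deriv_mul measurableSet_Ioi hd hinj g
  calc ∫⁻ t in Ioi (0 : ℝ),
        ENNReal.ofReal (a ^ (m + 1) * (t⁻¹ ^ (m + 2) * Real.exp (-((a / t) ^ 2 / 2))))
      = ∫⁻ t in Ioi (0 : ℝ), ENNReal.ofReal |(-(a / t ^ 2))| * g (φ t) := by
        refine setLIntegral_congr_fun measurableSet_Ioi fun t ht => ?_
        have ht' : 0 < t := mem_Ioi.1 ht
        simp only [g, φ]
        rw [← ENNReal.ofReal_mul (abs_nonneg _), abs_neg, abs_of_pos (by positivity)]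
        congr 1
        rw [pow_succ, pow_add, div_pow a t m, inv_pow, inv_pow]
        ring
    _ = ∫⁻ s in φ '' Ioi 0, g s := h1.symm
    _ = ∫⁻ s in Ioi 0, g s := by rw [himg]
    _ = ENNReal.ofReal (Gen.radial (m + 1)) := by
        rw [Gen.radial, Nat.add_sub_cancel, ofReal_integral_eq_lintegral_ofReal
          (Gen.integrableOn_radial m) (ae_restrict_of_forall_mem measurableSet_Ioi fun r hr => by
            have : (0 : ℝ) < r := hr
            positivity)]

variable {G : (Fin n → ℝ) → Matrix (Fin n) (Fin n) ℝ}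
  {D : (Fin n → ℝ) → (Fin n → ℝ) → ℝ} {e : Phase n → Fin n → ℝ}

/-- Polar coordinates from `x`: the model Jacobian along the geodesics carries exactly the inverse
Jacobian in model units. -/
theorem polar_exact (hn : 2 ≤ n) (h : IsCH G D) (he : IsExp G D e) (b : ℝ) (x : Fin n → ℝ)
    {f : (Fin n → ℝ) → ℝ≥0∞} (hf : Measurable f) :
    ∫⁻ v, ENNReal.ofReal (fibre G x v) * ∫⁻ t in Ioi (0 : ℝ),
        f (Six.line e (x, v) t) *
          ENNReal.ofReal (sn b (t * vnorm G x v) ^ (n - 1) * vnorm G x v) =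
      ENNReal.ofReal (Gen.radial n) *
        ∫⁻ y, f y * ENNReal.ofReal (ijacB G D b x y) ∂volM G := by
  obtain ⟨k, rfl⟩ : ∃ k, n = k + 1 := ⟨n - 1, by omega⟩
  rw [Nat.add_sub_cancel]
  have hec := he.contDiff.continuous
  have hcx : Continuous fun w => e (x, w) := hec.comp (continuous_const.prodMk continuous_id)
  have hs : Continuous fun y => Bend.sfac b (D x y) ^ k :=
    ((continuous_const.mul ((Bend.contDiff_cshd (k := 1)).continuous.comp
      (continuous_const.mul (h.contDiff_D x).continuous))).pow k)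
  set g : (Fin (k + 1) → ℝ) → ℝ≥0∞ := fun y => f y * ENNReal.ofReal (Bend.sfac b (D x y) ^ k)
  have hg : Measurable g := hf.mul hs.measurable.ennreal_ofReal
  have key : ∀ v, ∀ t ∈ Ioi (0 : ℝ), f (Six.line e (x, v) t) *
      ENNReal.ofReal (sn b (t * vnorm G x v) ^ k * vnorm G x v) =
      g (Six.line e (x, v) t) * ENNReal.ofReal ((t * vnorm G x v) ^ k * vnorm G x v) := fun v t ht => by
    have ht' : 0 < t := ht
    have hD : D x (Six.line e (x, v) t) = (t * vnorm G x v) ^ 2 / 2 := by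
      have h1 := Six.logv_self_dot h x (Six.line e (x, v) t)
      rw [Six.line, he.logv_exp] at h1
      rw [mul_pow, Six.vnorm_sq h, Six.line]
      simp only [mulVec_smul, dotProduct_smul, smul_dotProduct, smul_eq_mul] at h1
      linarith
    have hp : 0 ≤ Bend.sfac b (D x (Six.line e (x, v) t)) ^ k :=
      pow_nonneg (Bend.sfac_pos b (h.dist_nonneg _ _)).le k
    simp only [g]
    rw [mul_assoc, ← ENNReal.ofReal_mul hp, hD, ← Gen.mul_sfac b (t * vnorm G x v), mul_pow]
    congr 2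
    ring
  simp only [fun v => setLIntegral_congr_fun (μ := volume) measurableSet_Ioi (key v)]
  rw [Gen.swap_and_scale hec hg x]
  have hw0 : ∀ᵐ w : Fin (k + 1) → ℝ, w ≠ 0 := Measure.ae_ne volume 0
  have e1 : ∀ w : Fin (k + 1) → ℝ, w ≠ 0 →
      ∫⁻ t in Ioi (0 : ℝ), ENNReal.ofReal ((t ^ (k + 1))⁻¹) * Gen.radialFn G e g x w t =
        ENNReal.ofReal (Gen.radial (k + 1)) * (ENNReal.ofReal (dens G x) * g (e (x, w))) := by
    intro w hw
    have h0 : 0 < vnorm G x w := h.vnorm_pos hw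
    have e2 : ∀ t ∈ Ioi (0 : ℝ), ENNReal.ofReal ((t ^ (k + 1))⁻¹) * Gen.radialFn G e g x w t =
        (ENNReal.ofReal (dens G x) * g (e (x, w))) * ENNReal.ofReal (vnorm G x w ^ (k + 1) *
          (t⁻¹ ^ (k + 2) * Real.exp (-((vnorm G x w / t) ^ 2 / 2)))) := by
      intro t ht
      have ht' : 0 < t := mem_Ioi.1 ht
      simp only [Gen.radialFn.eq_def]
      rw [show vnorm G x w ^ (k + 1) * (t⁻¹ ^ (k + 2) * Real.exp (-((vnorm G x w / t) ^ 2 / 2))) =
          (t ^ (k + 1))⁻¹ * (Real.exp (-((vnorm G x w / t) ^ 2 / 2)) *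
            (vnorm G x w ^ (k + 1) / t)) by
        rw [show k + 2 = (k + 1) + 1 by rfl, pow_succ t⁻¹ (k + 1), inv_pow]
        ring,
        ENNReal.ofReal_mul (h.dens_pos x).le, ENNReal.ofReal_mul (inv_nonneg.2 (by positivity)),
        ENNReal.ofReal_mul (Real.exp_pos _).le]
      ring
    rw [setLIntegral_congr_fun measurableSet_Ioi e2, lintegral_const_mul _ (by fun_prop),
      radial_eq k h0, mul_comm]
  rw [lintegral_congr_ae (hw0.mono e1), lintegral_const_mul' _ _ ENNReal.ofReal_ne_top]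
  congr 1
  rw [Six.lintegral_logv h he x, volM,
    lintegral_withDensity_eq_lintegral_mul_non_measurable _ h.continuous_dens.measurable.ennreal_ofReal
      (Eventually.of_forall fun y => ENNReal.ofReal_lt_top)]
  refine lintegral_congr fun y => ?_
  rw [he.exp_logv, Pi.mul_apply]
  simp only [g]
  have hy := h.dens_pos y
  have hx := h.dens_pos x
  have hp : 0 ≤ Bend.sfac b (D x y) ^ k := pow_nonneg (Bend.sfac_pos b (h.dist_nonneg _ _)).le k
  have e3 : |(fderiv ℝ (Six.logv G D x) y).det| * dens G x = dens G y * ijac G D x y := by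
    have := Six.abs_det_fderiv_logv h x y
    rw [← Six.dens_mul_self h x] at this
    rw [ijac, ← this]
    field_simp
  rw [ijacB, Nat.add_sub_cancel, ENNReal.ofReal_mul (ijac_pos h x y).le]
  calc ENNReal.ofReal |(fderiv ℝ (Six.logv G D x) y).det| *
        (ENNReal.ofReal (dens G x) * (f y * ENNReal.ofReal (Bend.sfac b (D x y) ^ k)))
      = ENNReal.ofReal (|(fderiv ℝ (Six.logv G D x) y).det| * dens G x) *
          (f y * ENNReal.ofReal (Bend.sfac b (D x y) ^ k)) := by
        rw [ENNReal.ofReal_mul (abs_nonneg _)]; ring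
    _ = _ := by rw [e3, ENNReal.ofReal_mul hy.le]; ring

end Vale.Agent.P219.CH.Relax
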