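import Vale.Agent.P219.Relax.Defs
import Vale.Agent.P219.GenK.PairParts

/-!
# P219: the pair integrand with the signed flux
-/

noncomputable section

open MeasureTheory Set Filter Topology Matrix
open scoped ENNReal

namespace Vale.Agent.P219.CH.Relax

open Gen (measurable_scos scos_mem_Icc)

variable {n : ℕ} {G : (Fin n → ℝ) → Matrix (Fin n) (Fin n) ℝ}
  {D : (Fin n → ℝ) → (Fin n → ℝ) → ℝ} {u : (Fin n → ℝ) → ℝ} {w : ℝ × ℝ → ℝ}
  {s ρ ε T : ℝ} {o : Fin n → ℝ} {R : ℝ}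

/-- The symmetrised kernel of a pair at scale `s` with the two densities of perimeter. -/
def pairS (G : (Fin n → ℝ) → Matrix (Fin n) (Fin n) ℝ) (D : (Fin n → ℝ) → (Fin n → ℝ) → ℝ)
    (u : (Fin n → ℝ) → ℝ) (w : ℝ × ℝ → ℝ) (s ρ ε : ℝ) (x y : Fin n → ℝ) : ℝ :=
  (sym n ρ w (s * Real.sqrt (2 * D x y)) (Dir.scos G D u y x) (Dir.scos G D u x y) + ε) *
    (conorm G x (cd u x) * conorm G y (cd u y))

lemma continuous_sym (hw : ContDiff ℝ 1 w) :
    Continuous fun q : ℝ × ℝ × ℝ => sym n ρ w q.1 q.2.1 q.2.2 := by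
  have key : ∀ f g : ℝ × ℝ × ℝ → ℝ, Continuous f → Continuous g → Continuous fun q =>
      kernS n 1 (GenK.modelH n ρ) w (q.1 ^ 2 / 2) (q.1 * f q) (g q) := by
    intro f g hf hg
    have hz : Continuous fun q : ℝ × ℝ × ℝ => (q.1 ^ 2 / 2, q.1 * f q) :=
      ((continuous_fst.pow 2).div_const 2).prodMk (continuous_fst.mul hf)
    have hd : ∀ v : ℝ × ℝ, Continuous fun q : ℝ × ℝ × ℝ => fderiv ℝ w (q.1 ^ 2 / 2, q.1 * f q) v :=
      fun v => ((hw.continuous_fderiv one_ne_zero).comp hz).clm_apply continuous_const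
    have w1 : Continuous fun q : ℝ × ℝ × ℝ => w (q.1 ^ 2 / 2, q.1 * f q) := hw.continuous.comp hz
    have a1 : Continuous fun q : ℝ × ℝ × ℝ => Dir.wa w (q.1 ^ 2 / 2, q.1 * f q) := hd (1, 0)
    have b1 : Continuous fun q : ℝ × ℝ × ℝ => Dir.wb w (q.1 ^ 2 / 2, q.1 * f q) := hd (0, 1)
    have c1 : Continuous fun q : ℝ × ℝ × ℝ => Bend.cfac 1 (q.1 ^ 2 / 2) :=
      (GenK.continuous_cfac_sq 1).comp continuous_fst
    have e1 : Continuous fun q : ℝ × ℝ × ℝ =>
        Real.sqrt (2 * (q.1 ^ 2 / 2) - (q.1 * f q) ^ 2) / Bend.sfac 1 (q.1 ^ 2 / 2) :=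
      (Real.continuous_sqrt.comp (by fun_prop)).div
        ((GenK.continuous_sfac_sq 1).comp continuous_fst)
        fun q => (Bend.sfac_pos 1 (show (0 : ℝ) ≤ q.1 ^ 2 / 2 by positivity)).ne'
    unfold kernS
    fun_prop
  unfold sym
  exact (continuous_const.add (key _ _ (by fun_prop) (by fun_prop))).add
    (key _ _ (by fun_prop) (by fun_prop))

lemma measurable_phi (hw : ContDiff ℝ 1 w) :
    Measurable fun q : ℝ × ℝ × ℝ => phi n ρ ε w q.1 q.2.1 q.2.2 := by
  have h1 : Measurable fun q : ℝ × ℝ × ℝ => sym n ρ w q.1 q.2.1 q.2.2 + ε :=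
    ((continuous_sym hw).measurable).add_const ε
  have h2 : Measurable fun q : ℝ × ℝ × ℝ => Real.sinh q.1 ^ (n - 1) := by fun_prop
  have h3 : Measurable fun q : ℝ × ℝ × ℝ => |q.2.1 * q.2.2| := by fun_prop
  exact (h2.mul h1).div h3

lemma measurable_pairS (h : IsCH G D) (hu : ContDiff ℝ 1 u) (hw : ContDiff ℝ 1 w) :
    Measurable fun z : (Fin n → ℝ) × (Fin n → ℝ) => pairS G D u w s ρ ε z.1 z.2 := by
  have hd := measurable_scos h hu
  have hc : Measurable fun z : (Fin n → ℝ) × (Fin n → ℝ) => Dir.scos G D u z.2 z.1 := by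
    simpa only [Function.comp_def, Prod.fst_swap, Prod.snd_swap] using
      hd.comp (measurable_swap (α := Fin n → ℝ) (β := Fin n → ℝ))
  have hr : Measurable fun z : (Fin n → ℝ) × (Fin n → ℝ) => s * Real.sqrt (2 * D z.1 z.2) :=
    ((h.continuous_D.measurable.const_mul 2).sqrt).const_mul s
  have h3 := ((continuous_sym (n := n) (ρ := ρ) hw).measurable.comp
    (hr.prodMk (hc.prodMk hd))).add_const ε
  have h2 : Measurable fun z : (Fin n → ℝ) × (Fin n → ℝ) =>
      conorm G z.1 (cd u z.1) * conorm G z.2 (cd u z.2) :=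
    ((h.continuous_conorm_cd hu).measurable.comp measurable_fst).fun_mul
      ((h.continuous_conorm_cd hu).measurable.comp measurable_snd)
  exact h3.fun_mul h2

lemma conorm_eq_zero_out (hu : Comp {y | D o y ≤ R} u) {z : Fin n → ℝ} (hz : ¬D o z ≤ R) :
    conorm G z (cd u z) = 0 := by
  rw [cd_eq_zero_of_notMem fun hs' => hz (hu.2.1 hs'), conorm_zero]

/-- Where a cosine vanishes the kernel is nonnegative. -/
lemma pairS_nonneg_of_crit (h : IsCH G D) (hu : Comp {y | D o y ≤ R} u) (hs : 0 ≤ s)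
    (hT : ∀ x y, D o x ≤ R → D o y ≤ R → s * Real.sqrt (2 * D x y) ≤ T)
    (hG : GainOK n ρ ε T w) (x y : Fin n → ℝ)
    (hcrit : Dir.scos G D u y x = 0 ∨ Dir.scos G D u x y = 0) :
    0 ≤ pairS G D u w s ρ ε x y := by
  by_cases hx : D o x ≤ R
  swap
  · simp [pairS, conorm_eq_zero_out hu hx]
  by_cases hy : D o y ≤ R
  swap
  · simp [pairS, conorm_eq_zero_out hu hy]
  refine mul_nonneg ?_ (mul_nonneg (conorm_nonneg _ _) (conorm_nonneg _ _))
  have := hG _ _ _ ⟨mul_nonneg hs (Real.sqrt_nonneg _), hT x y hx hy⟩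
    (scos_mem_Icc h u y x) (scos_mem_Icc h u x y)
  have e : gainW w (s * Real.sqrt (2 * D x y)) (Dir.scos G D u y x) (Dir.scos G D u x y) = 0 := by
    rcases hcrit with h0 | h0 <;> simp [gainW, h0]
  linarith

end Vale.Agent.P219.CH.Relax
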