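import Vale.Agent.P219.Relax.RowField
import Vale.Agent.P219.Dir.BendRow

/-!
# P219: the exact row, uniform in the centre and the covector
-/

noncomputable section

open MeasureTheory Set Filter Topology Matrix

namespace Vale.Agent.P219.CH.Relax

variable {n : ℕ} {G : (Fin n → ℝ) → Matrix (Fin n) (Fin n) ℝ}
  {D : (Fin n → ℝ) → (Fin n → ℝ) → ℝ} {b : ℝ} {K : Set (Fin n → ℝ)} {u : (Fin n → ℝ) → ℝ}

/-- A homogeneous family of densities is uniformly continuous in its parameter. -/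
theorem uniform_near {X : Type*} [TopologicalSpace X] (h : IsCH G D) (hK : IsCompact K)
    (V : X → (Fin n → ℝ) → (Fin n → ℝ) → ℝ) (z₀ : X)
    (hc : ∀ y ξ, ξ ≠ 0 →
      ContinuousAt (fun q : X × (Fin n → ℝ) × (Fin n → ℝ) => V q.1 q.2.1 q.2.2) (z₀, y, ξ))
    (hs : ∀ z y ξ, ∀ k : ℝ, 0 < k → V z y (k • ξ) = k * V z y ξ) (hV0 : ∀ z y, V z y 0 = 0)
    {η : ℝ} (hη : 0 < η) :
    ∀ᶠ z in 𝓝 z₀, ∀ y ∈ K, ∀ ξ, |V z y ξ - V z₀ y ξ| ≤ η * conorm G y ξ := by
  set P : Set ((Fin n → ℝ) × (Fin n → ℝ)) := K ×ˢ Metric.sphere 0 1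
  have hP : IsCompact P := hK.prod (isCompact_sphere _ _)
  have h0 : ∀ w ∈ P, ∀ᶠ q : X × (Fin n → ℝ) × (Fin n → ℝ) in 𝓝 (z₀, w),
      |V q.1 q.2.1 q.2.2 - V z₀ q.2.1 q.2.2| < η * conorm G q.2.1 q.2.2 := by
    rintro ⟨y, ξ⟩ ⟨-, hsph⟩
    have hξ : ξ ≠ 0 := fun h0 => by simp only at hsph; simp [h0] at hsph
    have c1 := hc y ξ hξ
    have c2 : ContinuousAt (fun q : X × (Fin n → ℝ) × (Fin n → ℝ) => V z₀ q.2.1 q.2.2)
        (z₀, y, ξ) :=
      c1.comp_of_eq ((continuous_const (y := z₀)).prodMk continuous_snd).continuousAt rfl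
    have c3 : ContinuousAt (fun q : X × (Fin n → ℝ) × (Fin n → ℝ) => η * conorm G q.2.1 q.2.2)
        (z₀, y, ξ) :=
      (continuous_const.mul (h.continuous_conorm.comp continuous_snd)).continuousAt
    exact (c1.sub c2).abs.eventually_lt c3 (by simpa using mul_pos hη (h.conorm_pos y hξ))
  refine (hP.eventually_forall_of_forall_eventually
    (P := fun z w => |V z w.1 w.2 - V z₀ w.1 w.2| < η * conorm G w.1 w.2) h0).mono
      fun z hz y hy ξ => ?_
  rcases eq_or_ne ξ 0 with rfl | hξ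
  · simp [hV0, conorm_zero]
  have hn : 0 < ‖ξ‖ := norm_pos_iff.2 hξ
  have h1 := hz (y, ‖ξ‖⁻¹ • ξ) ⟨hy, by
    rw [mem_sphere_zero_iff_norm, norm_smul, norm_inv, norm_norm, inv_mul_cancel₀ hn.ne']⟩
  simp only [hs _ _ _ _ (inv_pos.2 hn), h.conorm_smul, abs_inv, abs_norm, ← mul_sub, abs_mul] at h1
  refine le_of_mul_le_mul_left ?_ (inv_pos.2 hn)
  linarith

lemma continuousAt_varX_family (h : IsCH G D) {X : Type*} [TopologicalSpace X]
    {c : X → Fin n → ℝ} (hc : Continuous c) {W : X → (Fin n → ℝ) → ℝ}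
    (hWc : Continuous fun q : X × (Fin n → ℝ) => W q.1 q.2)
    (hdW : Continuous fun q : X × (Fin n → ℝ) => cd (W q.1) q.2) (z₀ : X) (y : Fin n → ℝ)
    {ξ : Fin n → ℝ} (hξ : ξ ≠ 0) :
    ContinuousAt (fun q : X × (Fin n → ℝ) × (Fin n → ℝ) => varX G D (c q.1) (W q.1) q.2.1 q.2.2)
      (z₀, y, ξ) := by
  have hy : Continuous fun q : X × (Fin n → ℝ) × (Fin n → ℝ) => q.2.1 :=
    continuous_fst.comp continuous_snd
  have hx : Continuous fun q : X × (Fin n → ℝ) × (Fin n → ℝ) => q.2.2 :=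
    continuous_snd.comp continuous_snd
  have hcc : Continuous fun q : X × (Fin n → ℝ) × (Fin n → ℝ) => c q.1 := hc.comp continuous_fst
  have hW : Continuous fun q : X × (Fin n → ℝ) × (Fin n → ℝ) => W q.1 q.2.1 :=
    hWc.comp (f := fun q : X × (Fin n → ℝ) × (Fin n → ℝ) => (q.1, q.2.1))
      (continuous_fst.prodMk hy)
  have ha : Continuous fun q : X × (Fin n → ℝ) × (Fin n → ℝ) => cd (W q.1) q.2.1 :=
    hdW.comp (f := fun q : X × (Fin n → ℝ) × (Fin n → ℝ) => (q.1, q.2.1))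
      (continuous_fst.prodMk hy)
  have hg : Continuous fun q : X × (Fin n → ℝ) × (Fin n → ℝ) => cd (D (c q.1)) q.2.1 :=
    (Sharp.contDiff_logCovector h).continuous.comp (hy.prodMk hcc)
  have hT : Continuous fun q : X × (Fin n → ℝ) × (Fin n → ℝ) => hTr G D (c q.1) q.2.1 :=
    (continuous_hTr h).comp (f := fun q : X × (Fin n → ℝ) × (Fin n → ℝ) => (c q.1, q.2.1))
      (hcc.prodMk hy)
  have hQc : Continuous fun q : X × (Fin n → ℝ) × (Fin n → ℝ) =>
      hQ G D (c q.1) q.2.1 q.2.2 :=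
    (continuous_hQ h).comp
      (f := fun q : X × (Fin n → ℝ) × (Fin n → ℝ) => (c q.1, q.2.1, q.2.2))
      (hcc.prodMk (hy.prodMk hx))
  have hk : Continuous fun q : X × (Fin n → ℝ) × (Fin n → ℝ) => conorm G q.2.1 q.2.2 :=
    h.continuous_conorm.comp continuous_snd
  have p1 := h.continuous_pairing.comp (hy.prodMk (ha.prodMk hg))
  have p2 := h.continuous_pairing.comp (hy.prodMk (hx.prodMk hg))
  have p3 := h.continuous_pairing.comp (hy.prodMk (hx.prodMk ha))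
  have hne := (h.conorm_pos y hξ).ne'
  exact ((((hW.mul hT).add p1).mul hk).continuousAt.sub
    ((p2.mul p3).continuousAt.div hk.continuousAt hne)).sub
      ((hW.mul hQc).continuousAt.div hk.continuousAt hne)

/-- The row, uniform over a compact family. -/
theorem family_exactV (h : IsCH G D) (hn : 0 < n) (o : Fin n → ℝ) {R P₀ v₀ M κ : ℝ}
    {Φ hs : ℝ → ℝ} (hP₀ : 0 ≤ P₀) (hv₀ : 0 < v₀) (hΦ : Bend.IsProfile Φ hs)
    (hsup : Supports Φ hs) (hM : 0 ≤ M) (hκ : 0 < κ) {X : Type*} [TopologicalSpace X] {S : Set X}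
    (hS : IsCompact S) {c : X → Fin n → ℝ} (hc : Continuous c) {W : X → (Fin n → ℝ) → ℝ}
    (hW : ∀ z, ContDiff ℝ 1 (W z)) (hWc : Continuous fun q : X × (Fin n → ℝ) => W q.1 q.2)
    (hdW : Continuous fun q : X × (Fin n → ℝ) => cd (W q.1) q.2)
    (hmem : ∀ z ∈ S, D o (c z) ≤ R ∧ ∀ y, D o y ≤ R + 1 → 0 < W z y) :
    ∀ᶠ δ in 𝓝[>] (0 : ℝ), ∀ u, NearMinV G D o R P₀ v₀ Φ M δ u → ∀ z ∈ S,
      rowIntegS G D (hs (vol G u)) (c z) (W z) u ≤ κ := by
  set K : Set (Fin n → ℝ) := {y | D o y ≤ R}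
  have hK : IsCompact K := h.proper o R
  obtain ⟨hmax, ρ, hmax0, -, hhle, -⟩ := Dir.profile_slope hΦ (VK := volG G K) hv₀ one_lt_two
  obtain ⟨η, hη⟩ : ∃ z : ℝ, z = κ / (2 * ((P₀ + 1) * (1 + hmax))) := ⟨_, rfl⟩
  have hη0 : 0 < η := by rw [hη]; positivity
  rw [eventually_nhdsWithin_iff]
  refine (hS.eventually_forall_of_forall_eventually (x₀ := (0 : ℝ)) (P := fun δ z =>
    0 < δ → z ∈ S → ∀ u, NearMinV G D o R P₀ v₀ Φ M δ u →
      rowIntegS G D (hs (vol G u)) (c z) (W z) u ≤ κ) fun z₀ hz₀ => ?_).mono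
    fun δ hδ hpos u hu z hz => hδ z hz hpos hz u hu
  have hnode := eventually_nhdsWithin_iff.1 (node_exactV h hn o hP₀ hv₀ hΦ hsup hM (half_pos hκ)
    (hmem z₀ hz₀).1 (hW z₀) (hmem z₀ hz₀).2)
  have u1 := uniform_near h hK (fun z y ξ => varX G D (c z) (W z) y ξ) z₀
    (fun y ξ hξ => continuousAt_varX_family h hc hWc hdW z₀ y hξ)
    (fun z y ξ k hk => varX_smul h _ _ y hk ξ) (fun z y => varX_zero _ _ y) hη0
  have u2 := uniform_near h hK (fun z y ξ => -pairing G y ξ (cd (D (c z)) y) * W z y) z₀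
    (fun y ξ _ => by
      have hy : Continuous fun q : X × (Fin n → ℝ) × (Fin n → ℝ) => q.2.1 :=
        continuous_fst.comp continuous_snd
      exact ((h.continuous_pairing.comp (hy.prodMk ((continuous_snd.comp continuous_snd).prodMk
        ((Sharp.contDiff_logCovector h).continuous.comp
          (hy.prodMk (hc.comp continuous_fst)))))).neg.mul
            (hWc.comp (f := fun q : X × (Fin n → ℝ) × (Fin n → ℝ) => (q.1, q.2.1))
              (continuous_fst.prodMk hy))).continuousAt)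
    (fun z y ξ k _ => by simp only [pairing_smul_left]; ring)
    (fun z y => by simp [pairing]) hη0
  rw [nhds_prod_eq]
  filter_upwards [hnode.prod_mk (u1.and u2)] with q ⟨hq1, hq2, hq3⟩ hpos _ u hmin
  obtain ⟨hu, hPu, hVu, -, -⟩ := id hmin
  have hVle := h.vol_le hK hu
  obtain ⟨hh, hhh⟩ : ∃ z : ℝ, z = hs (vol G u) := ⟨_, rfl⟩
  have hh0 : 0 ≤ hh := hhh ▸ (hΦ.slope_pos _ (hv₀.trans_le hVu)).le
  have hhmax : hh ≤ hmax := by
    have := hhle _ hVu hVle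
    rw [← hhh] at this
    linarith
  have h0 := hq1 hpos u hmin
  rw [← hhh] at h0 ⊢
  have i0 : Integrable fun y => conorm G y (cd u y) * dens G y := by
    simpa using h.integrable_mul_conorm hK hu (continuous_const (y := (1 : ℝ)))
  have h1 : rowIntegS G D hh (c q.2) (W q.2) u ≤
      rowIntegS G D hh (c z₀) (W z₀) u + η * (1 + hmax) * per G u := by
    rw [rowIntegS, rowIntegS, per, ← integral_const_mul,
      ← integral_add (integrable_rowDensS h hn hK hu _ _ (hW z₀)) (i0.const_mul _)]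
    refine integral_mono (integrable_rowDensS h hn hK hu _ _ (hW q.2))
      ((integrable_rowDensS h hn hK hu _ _ (hW z₀)).add (i0.const_mul _)) fun y => ?_
    simp only
    rw [← mul_assoc, ← add_mul]
    refine mul_le_mul_of_nonneg_right ?_ (h.dens_pos y).le
    by_cases hy : y ∈ K
    · have a1 := hq2 y hy (cd u y)
      have a2 := mul_le_mul hhmax (hq3 y hy (cd u y)) (abs_nonneg _) (hh0.trans hhmax)
      rw [← abs_of_nonneg hh0, ← abs_mul] at a2
      simp only [rowDensS]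
      linarith [(abs_le.1 a1).2, (abs_le.1 a2).1]
    · have e : cd u y = 0 := cd_eq_zero_of_notMem fun hs => hy (hu.2.1 hs)
      simp [rowDensS, varX_zero, e, pairing, conorm_zero]
  have h4 : η * (1 + hmax) * per G u ≤ κ / 2 := by
    refine (mul_le_mul_of_nonneg_left hPu (by positivity)).trans ?_
    rw [hη, div_mul_eq_mul_div, div_mul_eq_mul_div, div_le_iff₀ (by positivity)]
    linarith [mul_nonneg hκ.le (add_nonneg zero_le_one hmax0.le)]
  linarith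

/-- The row over a family, from minimality among all competitors. -/
theorem family_exact (h : IsCH G D) (hn : 0 < n) (o : Fin n → ℝ) {R P₀ v₀ M κ : ℝ}
    {Φ hs : ℝ → ℝ} (hP₀ : 0 ≤ P₀) (hv₀ : 0 < v₀) (hΦ : Bend.IsProfile Φ hs)
    (hsup : Supports Φ hs) (hM : 0 ≤ M) (hκ : 0 < κ) {X : Type*} [TopologicalSpace X] {S : Set X}
    (hS : IsCompact S) {c : X → Fin n → ℝ} (hc : Continuous c) {W : X → (Fin n → ℝ) → ℝ}
    (hW : ∀ z, ContDiff ℝ 1 (W z)) (hWc : Continuous fun q : X × (Fin n → ℝ) => W q.1 q.2)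
    (hdW : Continuous fun q : X × (Fin n → ℝ) => cd (W q.1) q.2)
    (hmem : ∀ z ∈ S, D o (c z) ≤ R ∧ ∀ y, D o y ≤ R + 1 → 0 < W z y) :
    ∀ᶠ δ in 𝓝[>] (0 : ℝ), ∀ u, Bend.NearMinP G D o R P₀ v₀ Φ M δ u → ∀ z ∈ S,
      rowIntegS G D (hs (vol G u)) (c z) (W z) u ≤ κ :=
  (family_exactV h hn o hP₀ hv₀ hΦ hsup hM hκ hS hc hW hWc hdW hmem).mono fun _ hδ u hu =>
    hδ u (nearMinV_of_nearMinP hu)

/-- The exact row of every centre and covector. -/
theorem row_exactV (h : IsCH G D) (hn : 0 < n) (o : Fin n → ℝ) {R P₀ v₀ M κ : ℝ} {Φ hs : ℝ → ℝ}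
    (hP₀ : 0 ≤ P₀) (hv₀ : 0 < v₀) (hΦ : Bend.IsProfile Φ hs) (hsup : Supports Φ hs)
    (hM : 0 ≤ M) (hκ : 0 < κ) {w : ℝ × ℝ → ℝ} (hw : ContDiff ℝ 1 w)
    (hpos : ∀ p q, 0 ≤ p → q ^ 2 ≤ 2 * p → 0 < w (p, q)) :
    ∀ᶠ δ in 𝓝[>] (0 : ℝ), ∀ u, NearMinV G D o R P₀ v₀ Φ M δ u →
      ∀ x σ, D o x ≤ R → conorm G x σ ≤ 1 →
        rowIntegS G D (hs (vol G u)) x (Dir.weight G D w x σ) u ≤ κ := by
  have hq : Continuous fun q : ((Fin n → ℝ) × (Fin n → ℝ) × ℝ) × (Fin n → ℝ) =>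
      (q.1.1, q.1.2.1, q.2) := by fun_prop
  have hz : Continuous fun q : ((Fin n → ℝ) × (Fin n → ℝ) × ℝ) × (Fin n → ℝ) =>
      (D q.1.1 q.2, Dir.side G D q.1.1 q.1.2.1 q.2) :=
    (h.continuous_D.comp ((continuous_fst.comp continuous_fst).prodMk continuous_snd)).prodMk
      ((Dir.continuous_side h).comp hq)
  have hfam := family_exactV h hn o (R := R) hP₀ hv₀ hΦ hsup hM hκ
    (Dir.isCompact_paramSet h o R (P := {(0 : ℝ)}) isCompact_singleton)
    (c := fun z => z.1) continuous_fst (W := fun z => Dir.weight G D w z.1 z.2.1)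
    (fun z => Dir.contDiff_weight h hw _ _) (hw.continuous.comp hz) ?_ ?_
  · exact hfam.mono fun δ hδ u hu x σ hx hσ => hδ u hu (x, σ, 0) ⟨hx, hσ, rfl⟩
  · simp only [Dir.cd_weight h hw, Dir.wa, Dir.wb]
    have hd := (hw.continuous_fderiv one_ne_zero).comp hz
    exact ((hd.clm_apply continuous_const).smul ((Sharp.contDiff_logCovector h).continuous.comp
      (continuous_snd.prodMk (continuous_fst.comp continuous_fst)))).add
      ((hd.clm_apply continuous_const).smul ((Dir.continuous_sideD h).comp hq))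
  · rintro ⟨x, σ, p⟩ ⟨hx, hσ, -⟩
    exact ⟨hx, fun y _ => hpos _ _ (h.dist_nonneg x y) (Dir.sq_side_le h hσ y)⟩

/-- The row of every centre and covector, from minimality among all competitors. -/
theorem row_exact (h : IsCH G D) (hn : 0 < n) (o : Fin n → ℝ) {R P₀ v₀ M κ : ℝ} {Φ hs : ℝ → ℝ}
    (hP₀ : 0 ≤ P₀) (hv₀ : 0 < v₀) (hΦ : Bend.IsProfile Φ hs) (hsup : Supports Φ hs)
    (hM : 0 ≤ M) (hκ : 0 < κ) {w : ℝ × ℝ → ℝ} (hw : ContDiff ℝ 1 w)
    (hpos : ∀ p q, 0 ≤ p → q ^ 2 ≤ 2 * p → 0 < w (p, q)) :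
    ∀ᶠ δ in 𝓝[>] (0 : ℝ), ∀ u, Bend.NearMinP G D o R P₀ v₀ Φ M δ u →
      ∀ x σ, D o x ≤ R → conorm G x σ ≤ 1 →
        rowIntegS G D (hs (vol G u)) x (Dir.weight G D w x σ) u ≤ κ :=
  (row_exactV h hn o hP₀ hv₀ hΦ hsup hM hκ hw hpos).mono fun _ hδ u hu =>
    hδ u (nearMinV_of_nearMinP hu)

end Vale.Agent.P219.CH.Relax
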