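import Vale.Agent.P219.Relax.Schur

/-!
# P219: the Schur complement with one radial direction

`Z` is at least one on the unit vector `p` and at least `c` across it, `N` maps `p` to `q` and
shrinks the vectors across it by `g`; then `W = N Z⁻¹ Nᵀ` has trace `1 + O (g ^ 2 / c)`.
-/

noncomputable section

open Matrix

namespace Vale.Agent.P219.CH.Relax

variable {n : ℕ}

/-- The map that is the identity along `p` and `t` across it. -/
def dil (p : Fin n → ℝ) (t : ℝ) : Matrix (Fin n) (Fin n) ℝ :=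
  t • 1 + (1 - t) • vecMulVec p p

lemma dil_mulVec (p : Fin n → ℝ) (t : ℝ) (w : Fin n → ℝ) :
    dil p t *ᵥ w = t • w + ((1 - t) * (p ⬝ᵥ w)) • p := by
  simp only [dil, add_mulVec, smul_mulVec, one_mulVec, vecMulVec_mulVec, op_smul_eq_smul, smul_smul]

lemma dil_transpose (p : Fin n → ℝ) (t : ℝ) : (dil p t)ᵀ = dil p t := by
  simp [dil, transpose_vecMulVec]

lemma dot_dil {p : Fin n → ℝ} (hp : p ⬝ᵥ p = 1) (t : ℝ) (w : Fin n → ℝ) :
    p ⬝ᵥ (dil p t *ᵥ w) = p ⬝ᵥ w := by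
  rw [dil_mulVec, dotProduct_add, dotProduct_smul, dotProduct_smul, hp, smul_eq_mul, smul_eq_mul]
  ring

lemma sq_dil {p : Fin n → ℝ} (hp : p ⬝ᵥ p = 1) (t : ℝ) (w : Fin n → ℝ) :
    (dil p t *ᵥ w) ⬝ᵥ (dil p t *ᵥ w) = t ^ 2 * (w ⬝ᵥ w) + (1 - t ^ 2) * (p ⬝ᵥ w) ^ 2 := by
  simp only [dil_mulVec, add_dotProduct, dotProduct_add, smul_dotProduct, dotProduct_smul, hp,
    dotProduct_comm w p, smul_eq_mul]
  ring

lemma dil_mul {p : Fin n → ℝ} (hp : p ⬝ᵥ p = 1) (s t : ℝ) :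
    dil p s * dil p t = dil p (s * t) := by
  refine ext_iff_mulVec.2 fun w => ?_
  rw [← mulVec_mulVec, dil_mulVec p s, dot_dil hp, dil_mulVec, dil_mulVec, smul_add, smul_smul,
    smul_smul, add_assoc, ← add_smul]
  congr 2
  ring

lemma dil_one (p : Fin n → ℝ) : dil p 1 = 1 := by simp [dil]

lemma det_dil {p : Fin n → ℝ} (hp : p ⬝ᵥ p = 1) {t : ℝ} (ht : t ≠ 0) :
    (dil p t).det = t ^ (n - 1) := by
  have e : dil p t = t • (1 + vecMulVec (((1 - t) / t) • p) p) := by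
    simp only [dil, smul_add, smul_vecMulVec, smul_smul]
    congr 2
    field_simp
  rw [e, det_smul, Fintype.card_fin, vecMulVec_eq Unit,
    det_one_add_replicateCol_mul_replicateRow, dotProduct_smul, hp, smul_eq_mul]
  rcases Nat.eq_zero_or_pos n with hn | hn
  · subst hn
    simp [dotProduct] at hp
  obtain ⟨m, rfl⟩ : ∃ m, n = m + 1 := ⟨n - 1, by omega⟩
  rw [Nat.add_sub_cancel, pow_succ]
  field_simp
  ring

/-- The radial direction and the bound across it. -/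
structure ModelGe (Z : Matrix (Fin n) (Fin n) ℝ) (p : Fin n → ℝ) (c : ℝ) : Prop where
  herm : Z.IsHermitian
  fix : Z *ᵥ p = p
  quad : ∀ v, (p ⬝ᵥ v) ^ 2 + c * (v ⬝ᵥ v - (p ⬝ᵥ v) ^ 2) ≤ v ⬝ᵥ (Z *ᵥ v)

/-- The trace of the Schur complement against the model. -/
theorem trace_schur_model {Z N : Matrix (Fin n) (Fin n) ℝ} {p q : Fin n → ℝ} {c g : ℝ}
    (hn : 0 < n) (hp : p ⬝ᵥ p = 1) (hq : q ⬝ᵥ q = 1) (hc : 0 < c) (hg : 0 < g)
    (hZ : ModelGe Z p c) (hN1 : N *ᵥ p = q) (hN2 : Nᵀ *ᵥ q = p)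
    (hN : ∀ w, (N *ᵥ w) ⬝ᵥ (N *ᵥ w) ≤ (p ⬝ᵥ w) ^ 2 + g ^ 2 * (w ⬝ᵥ w - (p ⬝ᵥ w) ^ 2)) :
    1 ≤ Z.det / c ^ (n - 1) ∧
      (N * Z⁻¹ * Nᵀ).trace ≤ 1 + g ^ 2 / c *
        ((n : ℝ) - 1 - (1 - (|N.det| / g ^ (n - 1)) ^ 2 / (Z.det / c ^ (n - 1)))) := by
  have hs : 0 < Real.sqrt c := Real.sqrt_pos.2 hc
  have hs2 : Real.sqrt c ^ 2 = c := Real.sq_sqrt hc.le
  set S := (Real.sqrt c)⁻¹
  set Z' := dil p S * Z * dil p S with hZ'
  set N' := N * dil p g⁻¹ with hN'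
  have hS : S ≠ 0 := inv_ne_zero hs.ne'
  have hZ1 : GeOne Z' := by
    refine ⟨?_, fun v => ?_⟩
    · have := hZ.herm
      simp only [IsHermitian, conjTranspose_eq_transpose_of_trivial] at this ⊢
      rw [hZ', transpose_mul, transpose_mul, dil_transpose, this, Matrix.mul_assoc]
    · have e : v ⬝ᵥ (Z' *ᵥ v) = (dil p S *ᵥ v) ⬝ᵥ (Z *ᵥ (dil p S *ᵥ v)) := by
        simp only [hZ', ← mulVec_mulVec]
        rw [dotProduct_mulVec, ← mulVec_transpose, dil_transpose]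
      rw [e]
      refine le_trans (le_of_eq ?_) (hZ.quad _)
      rw [dot_dil hp, sq_dil hp, show S ^ 2 = c⁻¹ by rw [inv_pow, hs2]]
      field_simp
      ring
  have hN1' : Contr N' := fun w => by
    rw [hN', ← mulVec_mulVec]
    refine (hN _).trans (le_of_eq ?_)
    rw [dot_dil hp, sq_dil hp, inv_pow]
    field_simp
    ring
  have hQ : Z'.det = Z.det / c ^ (n - 1) := by
    rw [hZ', det_mul, det_mul, det_dil hp hS, mul_right_comm, ← mul_pow, ← sq, inv_pow, hs2,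
      inv_pow]
    ring
  have hNd : N'.det ^ 2 = (|N.det| / g ^ (n - 1)) ^ 2 := by
    rw [hN', det_mul, det_dil hp (inv_ne_zero hg.ne'), div_pow, sq_abs, mul_pow, inv_pow, inv_pow]
    ring
  have h1 := hZ1.one_le_det
  rw [hQ] at h1
  refine ⟨h1, ?_⟩
  have key := trace_det_schur hn hZ1 hN1'
  rw [hQ, hNd] at key
  set k := Real.sqrt c * g⁻¹
  have hZdet : Z.det ≠ 0 := fun h0 => by rw [h0, zero_div] at h1; linarith
  have hinv : Z'⁻¹ = dil p (Real.sqrt c) * Z⁻¹ * dil p (Real.sqrt c) := by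
    refine inv_eq_right_inv ?_
    rw [hZ']
    calc dil p S * Z * dil p S * (dil p (Real.sqrt c) * Z⁻¹ * dil p (Real.sqrt c))
        = dil p S * Z * (dil p S * dil p (Real.sqrt c)) * Z⁻¹ * dil p (Real.sqrt c) := by
          simp only [Matrix.mul_assoc]
      _ = dil p S * (Z * Z⁻¹) * dil p (Real.sqrt c) := by
          rw [dil_mul hp, inv_mul_cancel₀ hs.ne', dil_one, Matrix.mul_one]
          simp only [Matrix.mul_assoc]
      _ = 1 := by
          rw [mul_nonsing_inv _ hZdet.isUnit, Matrix.mul_one, dil_mul hp, inv_mul_cancel₀ hs.ne',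
            dil_one]
  have hcomm : N * dil p k = dil q k * N := by
    refine ext_iff_mulVec.2 fun w => ?_
    rw [← mulVec_mulVec, ← mulVec_mulVec, dil_mulVec, dil_mulVec, mulVec_add, mulVec_smul,
      mulVec_smul, hN1, dotProduct_mulVec q N w, ← mulVec_transpose, hN2]
  have hcomm2 : dil p k * Nᵀ = Nᵀ * dil q k := by
    have := congrArg Matrix.transpose hcomm
    rwa [transpose_mul, transpose_mul, dil_transpose, dil_transpose] at this
  have hW : N' * Z'⁻¹ * N'ᵀ = dil q k * (N * Z⁻¹ * Nᵀ) * dil q k := by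
    calc N' * Z'⁻¹ * N'ᵀ
        = N * (dil p g⁻¹ * dil p (Real.sqrt c)) * Z⁻¹ *
            ((dil p (Real.sqrt c) * dil p g⁻¹) * Nᵀ) := by
          rw [hN', hinv, transpose_mul, dil_transpose]
          simp only [Matrix.mul_assoc]
      _ = N * dil p k * Z⁻¹ * (dil p k * Nᵀ) := by
          rw [dil_mul hp, dil_mul hp, mul_comm g⁻¹]
      _ = _ := by rw [hcomm, hcomm2]; simp only [Matrix.mul_assoc]
  have hqW : (vecMulVec q q * (N * Z⁻¹ * Nᵀ)).trace = 1 := by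
    rw [vecMulVec_mul, trace_vecMulVec, dotProduct_comm, ← dotProduct_mulVec, ← mulVec_mulVec,
      ← mulVec_mulVec, hN2]
    have : Z⁻¹ *ᵥ p = p := by
      conv_lhs => rw [← hZ.fix]
      rw [mulVec_mulVec, nonsing_inv_mul _ hZdet.isUnit, one_mulVec]
    rw [this, hN1, hq]
  have htr : (N' * Z'⁻¹ * N'ᵀ).trace = k * k * (N * Z⁻¹ * Nᵀ).trace + (1 - k * k) := by
    rw [hW, trace_mul_comm, ← Matrix.mul_assoc, dil_mul hq, dil, Matrix.add_mul, Matrix.smul_mul,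
      Matrix.smul_mul, Matrix.one_mul, trace_add, trace_smul, trace_smul, hqW]
    simp
  rw [htr, show k * k = c / g ^ 2 by simp only [k]; rw [← sq, mul_pow, hs2, inv_pow]; ring] at key
  rw [← sub_le_iff_le_add', div_mul_eq_mul_div, le_div_iff₀ hc]
  have := mul_le_mul_of_nonneg_left key (sq_nonneg g)
  have e2 : g ^ 2 * (c / g ^ 2) = c := by field_simp
  rw [mul_sub (g ^ 2) (n : ℝ), mul_add, ← mul_assoc (g ^ 2), mul_sub (g ^ 2) (1 : ℝ) (c / g ^ 2),
    e2] at this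
  linarith

end Vale.Agent.P219.CH.Relax
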