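import Vale.Agent.P219.Relax.Split
import Vale.Agent.P219.Relax.SchurModel
import Vale.Agent.P219.Dir.Radial
import Vale.Agent.P219.Bend.HessDist
import Vale.Agent.P219.Bend.Jacobian

/-!
# P219: the radial direction in frames, and the bounds across it in curvature at most `-b ^ 2`
-/

noncomputable section

open MeasureTheory Set Filter Topology Matrix

namespace Vale.Agent.P219.CH.Relax

open Six (mixedD)

variable {n : ℕ} {G : (Fin n → ℝ) → Matrix (Fin n) (Fin n) ℝ}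
  {D : (Fin n → ℝ) → (Fin n → ℝ) → ℝ} {b : ℝ}

/-- The gradient of `D x` at `y` in the frame at `y`. -/
def radv (G : (Fin n → ℝ) → Matrix (Fin n) (Fin n) ℝ) (D : (Fin n → ℝ) → (Fin n → ℝ) → ℝ)
    (x y : Fin n → ℝ) : Fin n → ℝ :=
  Sharp.frame G y *ᵥ cd (D x) y

/-- The Hessian of the half squared distance on its gradient. -/
theorem hess_radial (h : IsCH G D) (x y : Fin n → ℝ) :
    hess G (D x) y (grad G (D x) y) = 2 * D x y := by
  set g := grad G (D x) y with hg
  set H := fun i => fderiv ℝ (fderiv ℝ (D x)) y g (ev i)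
  have hη : HasDerivAt (fun t : ℝ => grad G (D x) (y + t • g))
      ((G y)⁻¹ *ᵥ (H - dG G y g *ᵥ g)) 0 :=
    (((h.contDiff_grad_dist x).differentiable one_ne_zero y).hasFDerivAt.comp_hasDerivAt_of_eq 0
      (hasDerivAt_line y g) (by simp)).congr_deriv (by rw [h.fderiv_grad_dist])
  have hξ : HasDerivAt (fun t : ℝ => cd (D x) (y + t • g)) H 0 := by
    refine hasDerivAt_pi.2 fun i => ?_
    have hd := ((((h.contDiff_D x).fderiv_right (m := 1) le_rfl).differentiable one_ne_zero y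
      ).hasFDerivAt).comp_hasDerivAt_of_eq 0 (hasDerivAt_line y g) (by simp)
    exact ((ContinuousLinearMap.apply ℝ ℝ (ev i)).hasFDerivAt.comp_hasDerivAt 0 hd)
  have h1 : HasDerivAt (fun t : ℝ => ∑ i, cd (D x) (y + t • g) i * grad G (D x) (y + t • g) i)
      (∑ i, (H i * grad G (D x) (y + (0 : ℝ) • g) i +
        cd (D x) (y + (0 : ℝ) • g) i * ((G y)⁻¹ *ᵥ (H - dG G y g *ᵥ g)) i)) 0 :=
    HasDerivAt.fun_sum fun i _ => (hasDerivAt_pi.1 hξ i).mul (hasDerivAt_pi.1 hη i)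
  have h2 : HasDerivAt (fun t : ℝ => 2 * D x (y + t • g)) (2 * (cd (D x) y ⬝ᵥ g)) 0 := by
    rw [cd_dotProduct]
    exact ((((h.contDiff_D x).differentiable two_ne_zero y).hasFDerivAt).comp_hasDerivAt_of_eq 0
      (hasDerivAt_line y g) (by simp)).const_mul 2
  have e : (fun t : ℝ => ∑ i, cd (D x) (y + t • g) i * grad G (D x) (y + t • g) i) =
      fun t : ℝ => 2 * D x (y + t • g) := funext fun t => by
    rw [← h.eikonal]; rfl
  rw [e] at h1
  have key := h1.unique h2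
  have hG : cd (D x) y ⬝ᵥ ((G y)⁻¹ *ᵥ (H - dG G y g *ᵥ g)) = (H - dG G y g *ᵥ g) ⬝ᵥ g :=
    h.pairing_comm y _ _
  simp only [zero_smul, add_zero, ← hg] at key
  rw [Finset.sum_add_distrib] at key
  change H ⬝ᵥ g + cd (D x) y ⬝ᵥ ((G y)⁻¹ *ᵥ (H - dG G y g *ᵥ g)) = _ at key
  rw [hG, sub_dotProduct, dotProduct_comm (dG G y g *ᵥ g) g,
    show cd (D x) y ⬝ᵥ g = 2 * D x y from h.eikonal x y] at key
  have eH : H ⬝ᵥ g = fderiv ℝ (fderiv ℝ (D x)) y g g := by
    conv_rhs => rw [clm_eq_sum (fderiv ℝ (fderiv ℝ (D x)) y g) g]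
    simp [H, dotProduct, mul_comm]
  rw [hess, ← hg, ← eH]
  linarith

lemma radv_sq (h : IsCH G D) (x y : Fin n → ℝ) :
    radv G D x y ⬝ᵥ radv G D x y = 2 * D x y := by
  rw [radv, Sharp.frame_dot h, h.eikonal]

lemma frame_radv (h : IsCH G D) (x y : Fin n → ℝ) :
    Sharp.frame G y *ᵥ radv G D x y = grad G (D x) y := by
  rw [radv, mulVec_mulVec, (Sharp.frame_spec h y).2.2.1, grad]

lemma radv_dot (h : IsCH G D) (x y w : Fin n → ℝ) :
    radv G D x y ⬝ᵥ w = cd (D x) y ⬝ᵥ (Sharp.frame G y *ᵥ w) := by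
  rw [dotProduct_mulVec, ← mulVec_transpose, (Sharp.frame_spec h y).1, radv]

lemma hbar_quad (h : IsCH G D) (x y v : Fin n → ℝ) :
    v ⬝ᵥ (hbar G D x y *ᵥ v) = hess G (D x) y (Sharp.frame G y *ᵥ v) := by
  rw [← hmat_quad]
  simp only [hbar, ← mulVec_mulVec]
  rw [dotProduct_mulVec, ← mulVec_transpose, (Sharp.frame_spec h y).1]

lemma frame_qf (h : IsCH G D) (y v : Fin n → ℝ) : qf G y (Sharp.frame G y *ᵥ v) = v ⬝ᵥ v := by
  obtain ⟨h1, h2, -, -⟩ := Sharp.frame_spec h y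
  rw [qf, dotProduct_mulVec, vecMul_mulVec, h1, ← dotProduct_mulVec, mulVec_mulVec, h2, one_mulVec]

/-- The gradient is an eigenvector of the Hessian. -/
theorem hbar_radv (h : IsCH G D) (x y : Fin n → ℝ) :
    hbar G D x y *ᵥ radv G D x y = radv G D x y := by
  obtain ⟨hs, hq⟩ := geOne_hbar h x y
  have hP : (hbar G D x y - 1).PosSemidef :=
    Matrix.PosSemidef.of_dotProduct_mulVec_nonneg (hs.sub isHermitian_one) fun v => by
      simpa [sub_mulVec, dotProduct_sub] using sub_nonneg.2 (hq v)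
  have h0 : star (radv G D x y) ⬝ᵥ ((hbar G D x y - 1) *ᵥ radv G D x y) = 0 := by
    rw [star_trivial, sub_mulVec, one_mulVec, dotProduct_sub, hbar_quad h, frame_radv h,
      hess_radial h, radv_sq h, sub_self]
  have h1 := (hP.dotProduct_mulVec_zero_iff _).1 h0
  rwa [sub_mulVec, one_mulVec, sub_eq_zero] at h1

/-- The mixed Hessian takes the gradient at one end to the one at the other. -/
theorem nbar_radv (h : IsCH G D) (x y : Fin n → ℝ) :
    nbar G D x y *ᵥ radv G D x y = radv G D y x := by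
  rw [nbar, ← mulVec_mulVec, ← mulVec_mulVec, frame_radv h, Six.opMat_mulVec, Dir.mixed_radial h, radv]

/-- The contraction across the radial direction. -/
theorem nbar_sfac_le (h : IsCH G D) (hb : Bend.BendCH G D b) (x y w : Fin n → ℝ) :
    Bend.sfac b (D x y) ^ 2 * (2 * D x y) * ((nbar G D x y *ᵥ w) ⬝ᵥ (nbar G D x y *ᵥ w)) ≤
      2 * D x y * (w ⬝ᵥ w) + (Bend.sfac b (D x y) ^ 2 - 1) * (radv G D x y ⬝ᵥ w) ^ 2 := by
  set C := opMat (mixedD D x y)
  set A := Sharp.frame G x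
  set A' := Sharp.frame G y
  have hu : ∀ v k, cd (fun z => Sharp.ucoord G D x z k) y ⬝ᵥ v = (A *ᵥ (C *ᵥ v)) k := fun v k => by
    have hd : HasFDerivAt (fun z => A *ᵥ cd (D z) x)
        ((Matrix.toLin' A).toContinuousLinearMap.comp (mixedD D x y)) y :=
      ((Matrix.toLin' A).toContinuousLinearMap.hasFDerivAt).comp y (Six.hasFDerivAt_mixed h x y)
    rw [cd_dotProduct, show (fun z => Sharp.ucoord G D x z k) = fun z => (A *ᵥ cd (D z) x) k from rfl,
      (hasFDerivAt_pi'.1 hd k).fderiv, Six.opMat_mulVec]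
    simp
  have key := Bend.sum_fderiv_ucoord_sfac h hb x y (A' *ᵥ w)
  simp only [hu] at key
  rw [frame_qf h, ← radv_dot h] at key
  rw [nbar, ← mulVec_mulVec, ← mulVec_mulVec]
  simpa [dotProduct, sq] using key

/-- The Hessian is at least the model one across the radial direction. -/
theorem hbar_model_le (h : IsCH G D) (hb : Bend.BendCH G D b) (x y v : Fin n → ℝ) :
    (radv G D x y ⬝ᵥ v) ^ 2 + Bend.cfac b (D x y) *
        (2 * D x y * (v ⬝ᵥ v) - (radv G D x y ⬝ᵥ v) ^ 2) ≤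
      2 * D x y * (v ⬝ᵥ (hbar G D x y *ᵥ v)) := by
  rw [hbar_quad h, ← frame_qf h y v, radv_dot h]
  exact hb.hess_ge h x y _

end Vale.Agent.P219.CH.Relax
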