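import Vale.Agent.P219.Relax.Assembly
import Vale.Agent.P219.Bend.Model

/-!
# Relaxed certificates give the inequality at every volume
-/

noncomputable section

open MeasureTheory Set

namespace Vale.Agent.P219.CH.Relax

/-- Certificates against every ball give the model comparison at every volume. -/
theorem sharp_all_volumes (n : ℕ) [NeZero n] (hn : 2 ≤ n) (hC : Cert n)
    (G : (Fin n → ℝ) → Matrix (Fin n) (Fin n) ℝ) (D : (Fin n → ℝ) → (Fin n → ℝ) → ℝ)
    (hCH : IsCH G D) {b : ℝ} (hb : 0 < b) (hbend : Bend.BendCH G D b)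
    (Ω : Set (Fin n → ℝ)) (A : ℝ) (hΩ : MeasurableSet Ω) (hΩb : Bornology.IsBounded Ω)
    (hA : PerimeterLE G Ω A) :
    ∃ r, 0 ≤ r ∧ Bend.unitBall n * modelVol n b r = volG G Ω ∧
      Bend.unitBall n * modelArea n b r ≤ A := by
  have hw := Bend.unitBall_pos (show 1 ≤ n by omega)
  have h0 : 0 ≤ volG G Ω := setIntegral_nonneg hΩ fun y _ => (hCH.dens_pos y).le
  obtain ⟨r, hr, hrV⟩ := exists_modelVol_eq (show 1 ≤ n by omega) b (div_nonneg h0 hw.le)
  have heq : Bend.unitBall n * modelVol n b r = volG G Ω := by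
    rw [hrV, mul_div_cancel₀ _ hw.ne']
  exact ⟨r, hr, heq,
    sharpBend_of_cert hn hC (b * r) G D hCH b hb hbend Ω A hΩ hΩb hA r hr le_rfl heq⟩

end Vale.Agent.P219.CH.Relax
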