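import Vale.Agent.P219.Relax.Radial

/-!
# P219: cutting a geodesic against the space form of curvature `-b ^ 2`
-/

noncomputable section

open MeasureTheory Set Filter Topology Matrix

namespace Vale.Agent.P219.CH.Relax

open Six (Phase IsExp logv)
open Bend (cfac sfac)

variable {n : ℕ} {G : (Fin n → ℝ) → Matrix (Fin n) (Fin n) ℝ}
  {D : (Fin n → ℝ) → (Fin n → ℝ) → ℝ} {e : Phase n → Fin n → ℝ} {b : ℝ}

/-- The trace excess over the model of the Hessian of `D x` at `y`. -/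
def excessB (G : (Fin n → ℝ) → Matrix (Fin n) (Fin n) ℝ) (D : (Fin n → ℝ) → (Fin n → ℝ) → ℝ)
    (b : ℝ) (x y : Fin n → ℝ) : ℝ :=
  (hbar G D x y).trace - 1 - ((n : ℝ) - 1) * cfac b (D x y)

/-- The inverse Jacobian in model units. -/
def ijacB (G : (Fin n → ℝ) → Matrix (Fin n) (Fin n) ℝ) (D : (Fin n → ℝ) → (Fin n → ℝ) → ℝ)
    (b : ℝ) (x y : Fin n → ℝ) : ℝ :=
  ijac G D x y * sfac b (D x y) ^ (n - 1)

lemma ijacB_pos (h : IsCH G D) (b : ℝ) (x y : Fin n → ℝ) : 0 < ijacB G D b x y :=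
  mul_pos (ijac_pos h x y) (pow_pos (Bend.sfac_pos b (h.dist_nonneg x y)) _)

lemma ijacB_le_one (h : IsCH G D) (hb : Bend.BendCH G D b) (x y : Fin n → ℝ) :
    ijacB G D b x y ≤ 1 := by
  rw [ijacB, ijac, div_mul_eq_mul_div, mul_comm]
  exact div_le_one_of_le₀ (Bend.abs_det_mixed_le_sfac h hb x y)
    (mul_pos (h.dens_pos x) (h.dens_pos y)).le

lemma ijacB_symm (h : IsCH G D) (b : ℝ) (x y : Fin n → ℝ) :
    ijacB G D b x y = ijacB G D b y x := by
  rw [ijacB, ijacB, ijac_symm h, Sharp.dist_symm h x y]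

lemma sfac_sq (b r : ℝ) : sfac b (r ^ 2 / 2) * (b * r) = Real.sinh (b * r) := by
  rw [sfac, show 2 * b ^ 2 * (r ^ 2 / 2) = (b * r) ^ 2 by ring, ← Bend.two_mul_cshd_sq]
  ring

lemma cfac_sq (b r : ℝ) : cfac b (r ^ 2 / 2) * sfac b (r ^ 2 / 2) = Real.cosh (b * r) := by
  rw [cfac, sfac, show 2 * b ^ 2 * (r ^ 2 / 2) = (b * r) ^ 2 by ring, ← Bend.csh_sq]
  exact div_mul_cancel₀ _ (mul_pos two_pos (Bend.cshd_pos (sq_nonneg _))).ne'

lemma cfac_pos (b : ℝ) {t : ℝ} (ht : 0 ≤ t) : 0 < cfac b t :=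
  div_pos (Bend.csh_pos (Bend.arg_nonneg b ht))
    (mul_pos two_pos (Bend.cshd_pos (Bend.arg_nonneg b ht)))

/-- The model identities at a cut. -/
lemma model_cut (hb : 0 < b) {r l : ℝ} (hr : 0 < r) (h0 : 0 < l) (h1 : l < 1) :
    let c := (1 - l) * cfac b ((l * r) ^ 2 / 2) + l * cfac b (((1 - l) * r) ^ 2 / 2)
    sfac b (r ^ 2 / 2) = sfac b ((l * r) ^ 2 / 2) * sfac b (((1 - l) * r) ^ 2 / 2) * c ∧
      cfac b ((l * r) ^ 2 / 2) - (1 - l) * ((sfac b ((l * r) ^ 2 / 2))⁻¹ ^ 2 / c) =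
        l * cfac b (r ^ 2 / 2) := by
  intro c
  obtain ⟨x, hx⟩ : ∃ x, x = b * (l * r) := ⟨_, rfl⟩
  obtain ⟨y, hy⟩ : ∃ y, y = b * ((1 - l) * r) := ⟨_, rfl⟩
  have hxy : b * r = x + y := by rw [hx, hy]; ring
  have hl : 0 < 1 - l := by linarith
  have hx0 : 0 < x := by rw [hx]; positivity
  have hy0 : 0 < y := by rw [hy]; positivity
  have a1 := sfac_sq b (l * r)
  have a2 := sfac_sq b ((1 - l) * r)
  have a3 := sfac_sq b r
  have b1 := cfac_sq b (l * r)
  have b2 := cfac_sq b ((1 - l) * r)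
  have b3 := cfac_sq b r
  rw [← hx] at a1 b1
  rw [← hy] at a2 b2
  rw [hxy, Real.sinh_add] at a3
  rw [hxy, Real.cosh_add] at b3
  set S1 := sfac b ((l * r) ^ 2 / 2)
  set S2 := sfac b (((1 - l) * r) ^ 2 / 2)
  set S3 := sfac b (r ^ 2 / 2)
  have p1 : 0 < S1 := Bend.sfac_pos b (by positivity)
  have p2 : 0 < S2 := Bend.sfac_pos b (by positivity)
  have p3 : 0 < S3 := Bend.sfac_pos b (by positivity)
  have hsum : 0 < x + y := by linarith
  have el : l = x / (x + y) := by rw [← hxy, hx]; field_simp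
  have el' : 1 - l = y / (x + y) := by rw [← hxy, hy]; field_simp
  have e1 : S3 = S1 * S2 * c := by
    refine mul_right_cancel₀ hsum.ne' ?_
    rw [a3, ← a1, ← a2, ← b1, ← b2]
    simp only [c]
    rw [el', el]
    field_simp
    ring
  refine ⟨e1, ?_⟩
  have hc : c = S3 / (S1 * S2) := by rw [e1]; field_simp
  rw [hc, eq_div_iff p3.ne' |>.2 b3, eq_div_iff p1.ne' |>.2 b1]
  rw [el', el]
  have q2 : Real.sinh y = S2 * y := a2.symm
  have q1 : Real.sinh x = S1 * x := a1.symm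
  have q3 : S3 = (S1 * x * Real.cosh y + Real.cosh x * (S2 * y)) / (x + y) := by
    rw [eq_div_iff hsum.ne', a3, q1, q2]
  have hA : 0 < S1 * x * Real.cosh y + Real.cosh x * (S2 * y) := by positivity
  rw [q1, q2, q3]
  field_simp
  have := Real.cosh_sq_sub_sinh_sq x
  rw [q1] at this
  linear_combination (S2 * y) * this

lemma dist_cut (h : IsCH G D) (he : IsExp G D e) (l : ℝ) (a c : Fin n → ℝ) {r : ℝ}
    (hr : r ^ 2 = 2 * D a c) :
    D a (zf G D e l a c) = (l * r) ^ 2 / 2 ∧ D (zf G D e l a c) c = ((1 - l) * r) ^ 2 / 2 := by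
  have h1 := Six.logv_self_dot h a (zf G D e l a c)
  have h2 := Six.logv_self_dot h c (zf G D e l a c)
  rw [mid_left he] at h1
  rw [mid_right h he] at h2
  simp only [mulVec_smul, dotProduct_smul, smul_dotProduct, smul_eq_mul,
    Six.logv_self_dot h] at h1 h2
  rw [Sharp.dist_symm h c a] at h2
  rw [Sharp.dist_symm h (zf G D e l a c) c, mul_pow, mul_pow, hr]
  constructor <;> linarith

/-- The bound at one end. -/
theorem end_bend (h : IsCH G D) (he : IsExp G D e) (hb : Bend.BendCH G D b) (hb0 : 0 < b)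
    (hn : 0 < n) {l : ℝ} (h0 : 0 < l) (h1 : l < 1) (a c : Fin n → ℝ) {r : ℝ} (hr0 : 0 < r)
    (hr : r ^ 2 = 2 * D a c) :
    let z := zf G D e l a c
    let k := (1 - l) * cfac b ((l * r) ^ 2 / 2) + l * cfac b (((1 - l) * r) ^ 2 / 2)
    let Q := (zmat G D e l a c).det / k ^ (n - 1)
    1 ≤ Q ∧
      excessB G D b z a +
          (1 - l) * ((sfac b ((l * r) ^ 2 / 2))⁻¹ ^ 2 / k * (1 - ijacB G D b a z ^ 2 / Q)) ≤
        l * excessB G D b c a := by
  intro z k Q
  obtain ⟨d1, d2⟩ := dist_cut h he l a c hr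
  set R1 := l * r
  have hR : 0 < R1 := mul_pos h0 hr0
  set R2 := (1 - l) * r
  have hR2 : 0 < R2 := mul_pos (by linarith) hr0
  have k1 : 0 < cfac b (R1 ^ 2 / 2) := cfac_pos b (by positivity)
  have k2 : 0 < cfac b (R2 ^ 2 / 2) := cfac_pos b (by positivity)
  have hk : 0 < k := add_pos (mul_pos (by linarith) k1) (mul_pos h0 k2)
  set p := R1⁻¹ • radv G D a z
  set q := R1⁻¹ • radv G D z a
  have da : 2 * D a z = R1 ^ 2 := by rw [d1]; ring
  have dc : 2 * D c z = R2 ^ 2 := by rw [Sharp.dist_symm h c z, d2]; ring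
  have hp : p ⬝ᵥ p = 1 := by
    rw [smul_dotProduct, dotProduct_smul, radv_sq h, da, smul_eq_mul, smul_eq_mul]
    field_simp
  have hq : q ⬝ᵥ q = 1 := by
    rw [smul_dotProduct, dotProduct_smul, radv_sq h, Sharp.dist_symm h z a, da, smul_eq_mul,
      smul_eq_mul]
    field_simp
  have hbal : l • radv G D c z = -((1 - l) • radv G D a z) := by
    rw [eq_neg_iff_add_eq_zero, add_comm, radv, radv, ← mulVec_smul, ← mulVec_smul, ← mulVec_add,
      cd_balance h he, mulVec_zero]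
  have hcp : radv G D c z = (-R2) • p := by
    have e1 : l • radv G D c z = l • ((-R2) • p) := by
      rw [hbal, smul_smul, smul_smul, ← neg_smul]
      congr 1
      simp only [R1, R2]
      field_simp
    exact smul_right_injective _ h0.ne' e1
  have hZ : ModelGe (zmat G D e l a c) p k := by
    refine ⟨(geOne_zmat h e h0.le h1.le a c).1, ?_, fun v => ?_⟩
    · have e1 : hbar G D c z *ᵥ p = p := by
        have := hbar_radv h c z
        rw [hcp, mulVec_smul] at this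
        exact smul_right_injective _ (neg_ne_zero.2 hR2.ne') this
      have e2 : hbar G D a z *ᵥ p = p := by rw [mulVec_smul, hbar_radv h]
      rw [zmat, add_mulVec, smul_mulVec, smul_mulVec, e2, e1, ← add_smul, sub_add_cancel, one_smul]
    · have m1 := hbar_model_le h hb a z v
      have m2 := hbar_model_le h hb c z v
      rw [da, show radv G D a z = R1 • p by rw [smul_smul, mul_inv_cancel₀ hR.ne', one_smul],
        smul_dotProduct, smul_eq_mul, d1] at m1
      rw [dc, hcp, smul_dotProduct, smul_eq_mul, Sharp.dist_symm h c z, d2] at m2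
      have m1' : (p ⬝ᵥ v) ^ 2 + cfac b (R1 ^ 2 / 2) * (v ⬝ᵥ v - (p ⬝ᵥ v) ^ 2) ≤
          v ⬝ᵥ (hbar G D a z *ᵥ v) := le_of_mul_le_mul_left (by linarith) (pow_pos hR 2)
      have m2' : (p ⬝ᵥ v) ^ 2 + cfac b (R2 ^ 2 / 2) * (v ⬝ᵥ v - (p ⬝ᵥ v) ^ 2) ≤
          v ⬝ᵥ (hbar G D c z *ᵥ v) := le_of_mul_le_mul_left (by linarith) (pow_pos hR2 2)
      rw [zmat, add_mulVec, dotProduct_add, smul_mulVec, smul_mulVec, dotProduct_smul,
        dotProduct_smul, smul_eq_mul, smul_eq_mul]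
      have := mul_le_mul_of_nonneg_left m1' (sub_nonneg.2 h1.le)
      have := mul_le_mul_of_nonneg_left m2' h0.le
      simp only [k]
      linarith
  set S := sfac b (R1 ^ 2 / 2)
  have hS : 0 < S := Bend.sfac_pos b (by positivity)
  obtain ⟨hQ, htr⟩ := trace_schur_model (N := nbar G D a z) hn hp hq hk (inv_pos.2 hS) hZ
    (by rw [mulVec_smul, nbar_radv h]) (by rw [nbar_transpose h, mulVec_smul, nbar_radv h])
    fun w => by
      have m := nbar_sfac_le h hb a z w
      rw [da, show radv G D a z = R1 • p by rw [smul_smul, mul_inv_cancel₀ hR.ne', one_smul],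
        smul_dotProduct, smul_eq_mul, d1] at m
      refine le_of_mul_le_mul_left (m.trans (le_of_eq ?_)) (by positivity : 0 < S ^ 2 * R1 ^ 2)
      rw [inv_pow]
      field_simp
      ring
  refine ⟨hQ, ?_⟩
  have hij : ijacB G D b a z = |(nbar G D a z).det| / S⁻¹ ^ (n - 1) := by
    rw [ijacB, ijac_eq h, d1, inv_pow, div_inv_eq_mul]
  rw [← hij] at htr
  have hid : cfac b (R1 ^ 2 / 2) - (1 - l) * (S⁻¹ ^ 2 / k) = l * cfac b (r ^ 2 / 2) :=
    (model_cut hb0 hr0 h0 h1).2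
  have h3 := congrArg Matrix.trace (split h he h0 h1 a c).2
  rw [trace_smul, trace_sub, trace_smul, smul_eq_mul, smul_eq_mul] at h3
  have h4 := mul_le_mul_of_nonneg_left htr (sub_nonneg.2 h1.le)
  have h5 := congrArg (fun x => ((n : ℝ) - 1) * x) hid
  have hrc : D c a = r ^ 2 / 2 := by rw [Sharp.dist_symm h c a, hr]; ring
  rw [excessB, excessB, hrc, Sharp.dist_symm h z a, d1]
  simp only [Q, z, k] at *
  linarith

/-- The Jacobian of the whole. -/
theorem jac_bend (h : IsCH G D) (he : IsExp G D e) (hb0 : 0 < b) {l : ℝ} (h0 : 0 < l) (h1 : l < 1)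
    (a c : Fin n → ℝ) {r : ℝ} (hr0 : 0 < r) (hr : r ^ 2 = 2 * D a c) :
    let z := zf G D e l a c
    let k := (1 - l) * cfac b ((l * r) ^ 2 / 2) + l * cfac b (((1 - l) * r) ^ 2 / 2)
    ijacB G D b a c =
      ijacB G D b a z * ijacB G D b z c / ((zmat G D e l a c).det / k ^ (n - 1)) := by
  intro z k
  obtain ⟨d1, d2⟩ := dist_cut h he l a c hr
  have hk : 0 < k := add_pos (mul_pos (by linarith) (cfac_pos b (by positivity)))
    (mul_pos h0 (cfac_pos b (by positivity)))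
  have hdet : 0 < (zmat G D e l a c).det :=
    zero_lt_one.trans_le (geOne_zmat h e h0.le h1.le a c).one_le_det
  have hra : D a c = r ^ 2 / 2 := by rw [hr]; ring
  simp only [ijacB, ijac_eq h]
  rw [d1, d2, hra, (model_cut hb0 hr0 h0 h1).1, (split h he h0 h1 a c).1, det_neg, det_mul, det_mul,
    det_nonsing_inv, Ring.inverse_eq_inv', abs_mul, abs_pow, abs_neg, abs_one, one_pow, one_mul,
    abs_mul, abs_mul, abs_inv, abs_of_pos hdet, mul_pow, mul_pow]
  simp only [z, k]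
  field_simp

end Vale.Agent.P219.CH.Relax
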