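import Vale.Agent.P219.Dir.VolStep

/-!
# P219: the signed change of the volume along a step
-/

noncomputable section

open MeasureTheory Set Filter Topology Matrix

namespace Vale.Agent.P219.CH.Relax

open Sharp

variable {n : ℕ} {G : (Fin n → ℝ) → Matrix (Fin n) (Fin n) ℝ}
  {D : (Fin n → ℝ) → (Fin n → ℝ) → ℝ} {K : Set (Fin n → ℝ)} {Z : (Fin n → ℝ) → Fin n → ℝ}

/-- The flux after a step is close to the flux, with its sign. -/
theorem exists_flux_signed (h : IsCH G D) (hK : IsCompact K) (hZ : ContDiff ℝ 1 Z) {e : ℝ}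
    (he : 0 < e) :
    ∃ τ : ℝ, 0 < τ ∧ ∀ t ∈ Icc 0 τ, ∀ y ∈ K, ∀ ξ : Fin n → ℝ,
      (1 + t • opMat (fderiv ℝ Z y)).det * dens G (y + t • Z y) *
          (ξ ⬝ᵥ Z (y + t • Z y) - e * conorm G (y + t • Z y) ξ) ≤ (ξ ⬝ᵥ Z y) * dens G y := by
  set X := (Fin n → ℝ) × (Fin n → ℝ)
  set P : Set X := K ×ˢ Metric.sphere 0 1
  have hP : IsCompact P := hK.prod (isCompact_sphere _ _)
  set rhs : ℝ → X → ℝ := fun _ w => (w.2 ⬝ᵥ Z w.1) * dens G w.1
  set lhs : ℝ → X → ℝ := fun t w => (1 + t • opMat (fderiv ℝ Z w.1)).det *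
      dens G (w.1 + t • Z w.1) *
      (w.2 ⬝ᵥ Z (w.1 + t • Z w.1) - e * conorm G (w.1 + t • Z w.1) w.2)
  have hy : Continuous fun a : ℝ × X => a.2.1 := continuous_fst.comp continuous_snd
  have hξ : Continuous fun a : ℝ × X => a.2.2 := continuous_snd.comp continuous_snd
  have hv : Continuous fun a : ℝ × X => Z a.2.1 := hZ.continuous.comp hy
  have hz : Continuous fun a : ℝ × X => a.2.1 + a.1 • Z a.2.1 := hy.add (continuous_fst.smul hv)
  have hr : Continuous (Function.uncurry rhs) :=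
    (hξ.dotProduct hv).mul (h.continuous_dens.comp hy)
  have hl : Continuous (Function.uncurry lhs) := by
    refine ((Continuous.matrix_det ?_).mul (h.continuous_dens.comp hz)).mul
      ((hξ.dotProduct (hZ.continuous.comp hz)).sub
        (continuous_const.mul (h.continuous_conorm.comp (hz.prodMk hξ))))
    exact continuous_const.add (continuous_fst.smul (continuous_opMat.comp
      ((hZ.continuous_fderiv one_ne_zero).comp hy)))
  have h0 : ∀ w ∈ P, ∀ᶠ a : ℝ × X in 𝓝 ((0 : ℝ), w), lhs a.1 a.2 < rhs a.1 a.2 := by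
    rintro ⟨y, ξ⟩ ⟨-, hs⟩
    refine (hl.tendsto ((0 : ℝ), (y, ξ))).eventually_lt (hr.tendsto ((0 : ℝ), (y, ξ))) ?_
    have hξ0 : ξ ≠ 0 := fun h0 => by simp [h0] at hs
    have := mul_pos (h.dens_pos y) (mul_pos he (h.conorm_pos y hξ0))
    simp only [Function.uncurry, lhs, rhs, zero_smul, add_zero, Matrix.det_one, one_mul]
    linarith
  obtain ⟨τ, hτ, hsub⟩ := Metric.eventually_nhds_iff.1
    (hP.eventually_forall_of_forall_eventually (P := fun t w => lhs t w < rhs t w) h0)
  refine ⟨τ / 2, by positivity, fun t ht y hy ξ => ?_⟩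
  rcases eq_or_ne ξ 0 with rfl | hξ0
  · simp [conorm_zero]
  have hn : 0 < ‖ξ‖ := norm_pos_iff.2 hξ0
  have hu : ‖ξ‖⁻¹ • ξ ∈ Metric.sphere (0 : Fin n → ℝ) 1 := by
    rw [mem_sphere_zero_iff_norm, norm_smul, norm_inv, norm_norm, inv_mul_cancel₀ hn.ne']
  have h1 := hsub (show dist t 0 < τ by
    rw [dist_zero_right, Real.norm_eq_abs, abs_of_nonneg ht.1]; linarith [ht.2])
    (y, ‖ξ‖⁻¹ • ξ) ⟨hy, hu⟩
  simp only [lhs, rhs, smul_dotProduct, smul_eq_mul, h.conorm_smul, abs_inv, abs_norm] at h1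
  refine le_of_mul_le_mul_left ?_ (inv_pos.2 hn)
  linarith

/-- A step along a field of small Lipschitz constant reaches every point. -/
lemma surjective_step (hZ : Differentiable ℝ Z) {B t : ℝ} (hB : ∀ y, ‖fderiv ℝ Z y‖ ≤ B)
    (ht : 0 ≤ t) (htB : t * B < 1) : Function.Surjective fun y => y + t • Z y := by
  intro z
  have hB0 : 0 ≤ B := (norm_nonneg _).trans (hB 0)
  have hlip : ContractingWith ⟨t * B, mul_nonneg ht hB0⟩ fun y => z - t • Z y := by
    refine ⟨htB, LipschitzWith.of_dist_le_mul fun y y' => ?_⟩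
    have h1 : ‖Z y - Z y'‖ ≤ B * ‖y - y'‖ := convex_univ.norm_image_sub_le_of_norm_fderiv_le
      (fun w _ => hZ w) (fun w _ => hB w) (mem_univ y') (mem_univ y)
    rw [dist_eq_norm, dist_eq_norm, show z - t • Z y - (z - t • Z y') = -(t • (Z y - Z y')) by
      rw [smul_sub]; abel, norm_neg, norm_smul, Real.norm_eq_abs, abs_of_nonneg ht]
    exact (mul_le_mul_of_nonneg_left h1 ht).trans_eq (mul_assoc t B _).symm
  refine ⟨ContractingWith.fixedPoint _ hlip, ?_⟩
  have h1 := hlip.fixedPoint_isFixedPt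
  exact (eq_sub_iff_add_eq.1 h1.eq.symm)

/-- The volume after a small step is at least the volume plus the signed flux. -/
theorem exists_vol_step_signed (h : IsCH G D) (hK : IsCompact K) (hZ : ContDiff ℝ 1 Z)
    (hZc : HasCompactSupport Z) {e : ℝ} (he : 0 < e) :
    ∃ τ : ℝ, 0 < τ ∧ ∀ t ∈ Icc 0 τ, ∀ u, Comp K u →
      vol G u + t * ((∫ y, (cd u y ⬝ᵥ Z y) * dens G y) - e * per G u) ≤
        vol G (fun y => u (y + t • Z y)) := by
  set K' : Set (Fin n → ℝ) := K ∪ tsupport Z
  have hK' : IsCompact K' := hK.union hZc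
  obtain ⟨B, hB⟩ := (hZc.fderiv ℝ).exists_bound_of_continuous (hZ.continuous_fderiv one_ne_zero)
  have hB0 : 0 ≤ B := (norm_nonneg _).trans (hB 0)
  obtain ⟨τf, hτf, hflux⟩ := exists_flux_signed h hK' hZ he
  obtain ⟨τj, hτj, hdetb⟩ := exists_det_step (n := n) B
  refine ⟨min (min τf τj) (1 / (B + 1)), by positivity, fun t ht u hu => ?_⟩
  have htτ : t ≤ τf ∧ t ≤ τj ∧ t ≤ 1 / (B + 1) :=
    ⟨ht.2.trans ((min_le_left _ _).trans (min_le_left _ _)),
      ht.2.trans ((min_le_left _ _).trans (min_le_right _ _)), ht.2.trans (min_le_right _ _)⟩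
  obtain ⟨S, hS⟩ : ∃ S : ℝ, S = (∫ y, (cd u y ⬝ᵥ Z y) * dens G y) - e * per G u := ⟨_, rfl⟩
  have hd := Dir.hasDerivAt_vol_step h hK hZ hZc hu
  have hdu : Continuous (fderiv ℝ u) := hu.1.continuous_fderiv one_ne_zero
  have i0 : Integrable fun y => conorm G y (cd u y) * dens G y := by
    simpa using h.integrable_mul_conorm hK hu (continuous_const (y := (1 : ℝ)))
  have i1 : Integrable fun y => (cd u y ⬝ᵥ Z y) * dens G y := by
    refine Continuous.integrable_of_hasCompactSupport
      (((continuous_cd hu.1).dotProduct hZ.continuous).mul h.continuous_dens)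
      (HasCompactSupport.intro hK fun y hy => ?_)
    simp [cd_eq_zero_of_notMem fun hs => hy (hu.2.1 hs)]
  set g : (Fin n → ℝ) → ℝ := fun z =>
    (cd u z ⬝ᵥ Z z) * dens G z - e * (conorm G z (cd u z) * dens G z)
  have ig : Integrable g := i1.sub (i0.const_mul e)
  have hslope : ∀ r ∈ Icc 0 t, S ≤ ∫ y, fderiv ℝ u (y + r • Z y) (Z y) * dens G y := by
    intro r hr
    have hrB : r * B < 1 := by
      calc r * B ≤ 1 / (B + 1) * B := mul_le_mul_of_nonneg_right (hr.2.trans htτ.2.2) hB0
        _ < 1 := by rw [div_mul_eq_mul_div, div_lt_one (by positivity)]; linarith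
    have hZd := hZ.differentiable one_ne_zero
    have hsurj := surjective_step hZd hB hr.1 hrB
    have hinj := injective_step hZd hB hr.1 hrB
    have hdet : ∀ y ∈ K', 0 ≤ (1 + r • opMat (fderiv ℝ Z y)).det := fun y _ =>
      le_trans (by norm_num) (hdetb r ⟨hr.1, hr.2.trans htτ.2.1⟩ _ (hB y))
    have hgK : ∀ z, z ∉ (fun y => y + r • Z y) '' K' → g z = 0 := by
      intro z hz
      obtain ⟨y, rfl⟩ := hsurj z
      have hy : y ∉ K' := fun hy => hz ⟨y, hy, rfl⟩
      rw [Set.mem_union, not_or] at hy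
      have hZy := image_eq_zero_of_notMem_tsupport hy.2
      have : cd u (y + r • Z y) = 0 := cd_eq_zero_of_notMem fun hs => by
        simp [hZy] at hs; exact hy.1 (hu.2.1 hs)
      simp [g, this, conorm_zero]
    have hd' : ∀ y ∈ K', HasFDerivWithinAt (fun y => y + r • Z y)
        (ContinuousLinearMap.id ℝ (Fin n → ℝ) + r • fderiv ℝ Z y) K' y := fun y _ =>
      ((hasFDerivAt_id y).add ((hZd y).hasFDerivAt.const_smul r)).hasFDerivWithinAt
    have he' : ∀ y ∈ K', |(ContinuousLinearMap.id ℝ (Fin n → ℝ) + r • fderiv ℝ Z y).det| •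
        g (y + r • Z y) = (1 + r • opMat (fderiv ℝ Z y)).det * g (y + r • Z y) := fun y hy => by
      rw [det_id_add_smul, abs_of_nonneg (hdet y hy), smul_eq_mul]
    have hint : IntegrableOn (fun y => (1 + r • opMat (fderiv ℝ Z y)).det * g (y + r • Z y)) K' :=
      ((integrableOn_image_iff_integrableOn_abs_det_fderiv_smul volume hK'.measurableSet hd'
        hinj.injOn g).1 ig.integrableOn).congr_fun he' hK'.measurableSet
    have heq : ∫ y in K', (1 + r • opMat (fderiv ℝ Z y)).det * g (y + r • Z y) = ∫ z, g z := by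
      rw [← setIntegral_congr_fun hK'.measurableSet he',
        ← integral_image_eq_integral_abs_det_fderiv_smul volume hK'.measurableSet hd' hinj.injOn]
      exact setIntegral_eq_integral_of_forall_compl_eq_zero hgK
    have hcf : Continuous fun y => fderiv ℝ u (y + r • Z y) (Z y) * dens G y :=
      ((hdu.comp (continuous_id.add (hZ.continuous.const_smul r))).clm_apply hZ.continuous).mul
        h.continuous_dens
    rw [← setIntegral_eq_integral_of_forall_compl_eq_zero (s := K')
      (f := fun y => fderiv ℝ u (y + r • Z y) (Z y) * dens G y) fun y hy => by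
      rw [Set.mem_union, not_or] at hy
      simp [image_eq_zero_of_notMem_tsupport hy.2]]
    refine le_trans (le_of_eq ?_) (setIntegral_mono_on hint
      (hcf.continuousOn.integrableOn_compact hK') hK'.measurableSet fun y hy => ?_)
    · rw [heq]
      simp only [g]
      rw [integral_sub i1 (i0.const_mul e), integral_const_mul, hS]
      rfl
    · have h1 := hflux r ⟨hr.1, hr.2.trans htτ.1⟩ y hy (cd u (y + r • Z y))
      rw [← cd_dotProduct]
      refine le_trans (le_of_eq ?_) h1
      simp only [g]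
      ring
  have hc : ∀ r : ℝ, HasDerivAt (fun r => vol G (fun y => u (y + r • Z y)) - r * S)
      ((∫ y, fderiv ℝ u (y + r • Z y) (Z y) * dens G y) - S) r := fun r => by
    exact (hd r).sub (((hasDerivAt_id r).mul_const S).congr_deriv (one_mul S))
  have hmono : MonotoneOn (fun r => vol G (fun y => u (y + r • Z y)) - r * S) (Icc 0 t) := by
    refine monotoneOn_of_hasDerivWithinAt_nonneg (convex_Icc 0 t)
      (fun r _ => (hc r).continuousAt.continuousWithinAt) (fun r _ => (hc r).hasDerivWithinAt)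
      fun r hr => ?_
    linarith [hslope r (interior_subset hr)]
  have h3 := hmono ⟨le_rfl, ht.1⟩ ⟨ht.1, le_rfl⟩ ht.1
  simp only [zero_mul, sub_zero, zero_smul, add_zero] at h3
  rw [← hS]
  linarith

end Vale.Agent.P219.CH.Relax
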