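import Vale.Agent.P219.Relax.VarBound
import Vale.Agent.P219.Relax.VolSigned
import Vale.Agent.P219.Dir.BendFamily

/-!
# P219: the row of a centre and a weight with exact slope and signed flux
-/

noncomputable section

open MeasureTheory Set Filter Topology Matrix

namespace Vale.Agent.P219.CH.Relax

open Sharp (wfield contDiff_wfield)

variable {n : ℕ} {G : (Fin n → ℝ) → Matrix (Fin n) (Fin n) ℝ}
  {D : (Fin n → ℝ) → (Fin n → ℝ) → ℝ} {b : ℝ} {K : Set (Fin n → ℝ)} {u : (Fin n → ℝ) → ℝ}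

/-- The slope gives supporting lines of the profile on both sides. -/
def Supports (Φ h : ℝ → ℝ) : Prop :=
  ∀ V W, 0 < V → 0 < W → Φ V - Φ W ≤ h W * (V - W)

/-- The row of a centre and a weight. -/
def rowIntegS (G : (Fin n → ℝ) → Matrix (Fin n) (Fin n) ℝ) (D : (Fin n → ℝ) → (Fin n → ℝ) → ℝ)
    (hh : ℝ) (c : Fin n → ℝ) (W u : (Fin n → ℝ) → ℝ) : ℝ :=
  ∫ y, rowDensS G D hh c W y (cd u y) * dens G y

lemma integrable_flux (h : IsCH G D) (hK : IsCompact K) (hu : Comp K u) (c : Fin n → ℝ)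
    {W : (Fin n → ℝ) → ℝ} (hW : Continuous W) :
    Integrable fun y => normalPart G D c u y * W y * dens G y := by
  refine Continuous.integrable_of_hasCompactSupport
    (((h.continuous_normalPart hu.1 c).mul hW).mul h.continuous_dens)
    (HasCompactSupport.intro hK fun y hy => ?_)
  simp [normalPart, pairing, cd_eq_zero_of_notMem fun hs => hy (hu.2.1 hs)]

lemma integrable_varX (h : IsCH G D) (hn : 0 < n) (hK : IsCompact K) (hu : Comp K u)
    (c : Fin n → ℝ) {W : (Fin n → ℝ) → ℝ} (hW : ContDiff ℝ 1 W) :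
    Integrable fun y => varX G D c W y (cd u y) * dens G y := by
  obtain ⟨Cv, -, hCv⟩ := exists_abs_varX_le h hn c hW hK
  have i0 : Integrable fun y => conorm G y (cd u y) * dens G y := by
    simpa using h.integrable_mul_conorm hK hu (continuous_const (y := (1 : ℝ)))
  refine (i0.const_mul Cv).mono'
    ((measurable_varX_cd h c hW hu.1).mul h.continuous_dens.measurable).aestronglyMeasurable
    (Eventually.of_forall fun y => ?_)
  rw [Real.norm_eq_abs, abs_mul, abs_of_pos (h.dens_pos y), ← mul_assoc]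
  refine mul_le_mul_of_nonneg_right ?_ (h.dens_pos y).le
  by_cases hy : y ∈ K
  · exact hCv y hy _
  · simp [cd_eq_zero_of_notMem fun hs => hy (hu.2.1 hs), varX_zero, conorm_zero]

lemma integrable_rowDensS (h : IsCH G D) (hn : 0 < n) (hK : IsCompact K) (hu : Comp K u) (hh : ℝ)
    (c : Fin n → ℝ) {W : (Fin n → ℝ) → ℝ} (hW : ContDiff ℝ 1 W) :
    Integrable fun y => rowDensS G D hh c W y (cd u y) * dens G y := by
  refine ((integrable_varX h hn hK hu c hW).add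
    ((integrable_flux h hK hu c hW.continuous).const_mul hh)).congr
      (Eventually.of_forall fun y => ?_)
  simp only [Pi.add_apply, rowDensS, normalPart]
  ring

lemma rowIntegS_eq (h : IsCH G D) (hn : 0 < n) (hK : IsCompact K) (hu : Comp K u) (hh : ℝ)
    (c : Fin n → ℝ) {W : (Fin n → ℝ) → ℝ} (hW : ContDiff ℝ 1 W) :
    rowIntegS G D hh c W u = (∫ y, varX G D c W y (cd u y) * dens G y) +
      hh * ∫ y, normalPart G D c u y * W y * dens G y := by
  rw [← integral_const_mul, ← integral_add (integrable_varX h hn hK hu c hW)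
    ((integrable_flux h hK hu c hW.continuous).const_mul hh), rowIntegS]
  refine integral_congr_ae (Eventually.of_forall fun y => ?_)
  simp only [rowDensS, normalPart]
  ring

/-- Pulling back along `W ∇ D c`, with the flux signed. -/
theorem exists_outVarS (h : IsCH G D) (hn : 0 < n) (o : Fin n → ℝ) {R : ℝ} {c : Fin n → ℝ}
    (hc : D o c ≤ R) {W : (Fin n → ℝ) → ℝ} (hW : ContDiff ℝ 1 W)
    (hWp : ∀ y, D o y ≤ R + 1 → 0 < W y) {e : ℝ} (he : 0 < e) :
    ∃ τ C : ℝ, 0 < τ ∧ 0 ≤ C ∧ ∀ t u, 0 < t → t ≤ τ → Comp {y | D o y ≤ R} u →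
      ∃ u', Comp {y | D o y ≤ R} u' ∧
        per G u' ≤ per G u - t * (∫ y, varX G D c W y (cd u y) * dens G y) + t * e * per G u ∧
        vol G u + t * (∫ y, normalPart G D c u y * W y * dens G y) - t * e * per G u ≤ vol G u' ∧
        |vol G u' - vol G u| ≤
          t * ((∫ y, |normalPart G D c u y| * W y * dens G y) + e * per G u) ∧
        gap G u' ≤ (1 + C * t) * gap G u := by
  set K : Set (Fin n → ℝ) := {y | D o y ≤ R}
  have hK : IsCompact K := h.proper o R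
  obtain ⟨r, hr, hKr⟩ := hK.isBounded.subset_closedBall_lt 0 0
  obtain ⟨φ, hφd⟩ : ∃ φ : ContDiffBump (0 : Fin n → ℝ), φ.rIn = r + 2 :=
    ⟨⟨r + 2, r + 3, by linarith, by linarith⟩, rfl⟩
  set Z : (Fin n → ℝ) → Fin n → ℝ := fun y => φ y • wfield G D c W y
  have hZ : ContDiff ℝ 1 Z := φ.contDiff.smul (contDiff_wfield h c hW)
  have hZc : HasCompactSupport Z := φ.hasCompactSupport.smul_right
  obtain ⟨B₁, hB₁⟩ := hZc.exists_bound_of_continuous hZ.continuous
  obtain ⟨B₂, hB₂⟩ := (hZc.fderiv ℝ).exists_bound_of_continuous (hZ.continuous_fderiv one_ne_zero)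
  obtain ⟨B, hBd⟩ : ∃ B, B = max (max B₁ B₂) 0 := ⟨_, rfl⟩
  have hB0 : 0 ≤ B := hBd ▸ le_max_right _ _
  have hB : ∀ y, ‖Z y‖ ≤ B ∧ ‖fderiv ℝ Z y‖ ≤ B := fun y => hBd ▸
    ⟨(hB₁ y).trans ((le_max_left _ _).trans (le_max_left _ _)),
      (hB₂ y).trans ((le_max_right _ _).trans (le_max_left _ _))⟩
  have hev : ∀ y, ‖y‖ < r + 2 → Z =ᶠ[𝓝 y] wfield G D c W := fun y hy => by
    filter_upwards [φ.eventuallyEq_one_of_mem_ball (x := y) (by simpa [hφd] using hy)] with z hz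
    simp [Z, hz]
  have hnear : ∀ y ∈ K, ‖y‖ < r + 2 := fun y hy => by
    have : ‖y‖ ≤ r := by simpa using hKr hy
    linarith
  have hWK : ∀ y ∈ K, 0 < W y := fun y hy => hWp y (by have : D o y ≤ R := hy; linarith)
  obtain ⟨τd, hτd, hdef⟩ := Sharp.exists_defect_step h hK hZ (varX G D c W)
    (fun y _ hξ => continuousAt_varX h c hW y hξ) (fun y ξ k hk => varX_smul h c W y hk ξ)
    (fun y => varX_zero c W y) (fun y hy ξ _ => by
      rw [(hev y (hnear y hy)).eq_of_nhds, (hev y (hnear y hy)).fderiv_eq]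
      exact (defect'_wfield_eq h c hW y ξ).le) he
  obtain ⟨τs, hτs, hsupp⟩ := Sharp.exists_support_field h o R c hc hW hWp hKr hB0 (fun y => (hB y).1)
    (fun y hy => (hev y hy).eq_of_nhds)
  obtain ⟨τv, hτv, hvol⟩ := exists_vol_step_signed h hK hZ hZc he
  obtain ⟨τa, hτa, hvola⟩ := Sharp.exists_vol_step h hK hZ hZc he
  obtain ⟨τj, hτj, hdetb⟩ := exists_det_step (n := n) B
  obtain ⟨Cj, hCj, hjac⟩ := h.exists_jacobian_bound r B
  obtain ⟨md, hmd, hmdle⟩ : ∃ md : ℝ, 0 < md ∧ ∀ y, ‖y‖ ≤ r + 1 → md ≤ dens G y := by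
    obtain ⟨y₀, -, hy₀⟩ := (isCompact_closedBall (0 : Fin n → ℝ) (r + 1)).exists_isMinOn
      ⟨0, by simp; linarith⟩ h.continuous_dens.continuousOn
    exact ⟨dens G y₀, h.dens_pos y₀, fun y hy => hy₀ (by simpa using hy)⟩
  obtain ⟨Cv, hCv0, hCv⟩ := exists_abs_varX_le h hn c hW hK
  obtain ⟨τ, hτ⟩ : ∃ τ : ℝ, τ = min (min (min τd τs) (min τv τj))
      (min (min 1 τa) (min (1 / (B + 1)) (1 / Cv))) := ⟨_, rfl⟩
  have hτpos : 0 < τ := by rw [hτ]; positivity
  have hle : τ ≤ τd ∧ τ ≤ τs ∧ τ ≤ τv ∧ τ ≤ τj ∧ τ ≤ 1 ∧ τ ≤ τa ∧ τ ≤ 1 / (B + 1) ∧ τ ≤ 1 / Cv := by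
    rw [hτ]
    simp only [min_le_iff, le_refl, true_or, or_true, and_self]
  obtain ⟨hle1, hle2, hle3, hle4, hle5, hlea, hle6, hle7⟩ := hle
  refine ⟨τ, 2 * Cj / md, hτpos, by positivity, fun t u ht htτ hu => ?_⟩
  have htB : t * B < 1 := by
    calc t * B ≤ 1 / (B + 1) * B := mul_le_mul_of_nonneg_right (htτ.trans hle6) hB0
      _ < 1 := by rw [div_mul_eq_mul_div, div_lt_one (by positivity)]; linarith
  have hdet : ∀ y, 1 / 2 ≤ (1 + t • opMat (fderiv ℝ Z y)).det :=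
    fun y => hdetb t ⟨ht.le, htτ.trans hle4⟩ _ (hB y).2
  have hsupp' : ∀ y, y + t • Z y ∈ K → y ∈ K :=
    fun y hy => hsupp t ⟨ht.le, htτ.trans hle2⟩ y hy
  have hZW : ∀ y, cd u y ⬝ᵥ Z y = normalPart G D c u y * W y := fun y => by
    by_cases hy : y ∈ K
    · rw [(hev y (hnear y hy)).eq_of_nhds, wfield, dotProduct_smul, smul_eq_mul, mul_comm]
      rfl
    · simp [normalPart, pairing, cd_eq_zero_of_notMem fun hs => hy (hu.2.1 hs)]
  refine ⟨fun y => u (y + t • Z y), ⟨hu.1.comp (contDiff_id.add (hZ.const_smul t)), ?_,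
    fun y => hu.2.2 _⟩, ?_, ?_, ?_, ?_⟩
  · refine closure_minimal (fun y hy => hsupp' y (hu.2.1 ?_)) hK.isClosed
    exact subset_tsupport _ hy
  · refine Bend.per_step_density h hK hu hZ _ (fun y => varX_zero c W y)
      (measurable_varX_cd h c hW hu.1) (fun y => (hB y).2) hCv ht.le he.le htB ?_
      (fun y => le_trans (by norm_num) (hdet y)) (hdef t ⟨ht.le, htτ.trans hle1⟩) hsupp'
    calc t * Cv ≤ 1 / Cv * Cv := mul_le_mul_of_nonneg_right (htτ.trans hle7) hCv0.le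
      _ = 1 := div_mul_cancel₀ _ hCv0.ne'
  · have h1 := hvol t ⟨ht.le, htτ.trans hle3⟩ u hu
    simp only [hZW] at h1
    linarith
  · have h1 := hvola t ⟨ht.le, htτ.trans hlea⟩ u hu
    have e1 : ∀ y, |cd u y ⬝ᵥ Z y| * dens G y = |normalPart G D c u y| * W y * dens G y := fun y => by
      rw [hZW, abs_mul]
      by_cases hy : y ∈ K
      · rw [abs_of_pos (hWK y hy)]
      · simp [normalPart, pairing, cd_eq_zero_of_notMem fun hs => hy (hu.2.1 hs)]
    simp only [e1] at h1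
    exact h1
  · exact h.gap_step hK hKr hu hZ hB hmd hmdle hCj hjac ⟨ht.le, htτ.trans hle5⟩ htB hdet hsupp'

/-- Near minimality against one competitor, with the numbers only. -/
lemma stationary_exact {Φ h : ℝ → ℝ} (hΦ : Supports Φ h)
    {P P' P₀ V V' g g' F Fb Ψ M C δ t e ε hmax : ℝ} (hV : 0 < V) (hV' : 0 < V')
    (hvol : V + t * F - t * e * P ≤ V') (hM : 0 ≤ M) (hC : 0 ≤ C) (ht : 0 < t) (he : 0 ≤ e)
    (hP : 0 ≤ P) (hP₀ : P ≤ P₀) (hh' : 0 ≤ h V') (hhmax : h V' ≤ hmax) (hF : |F| ≤ Fb)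
    (hε : |h V' - h V| ≤ ε) (hg : g ≤ δ) (hper : P' ≤ P - t * Ψ + t * e * P)
    (hgap : g' ≤ (1 + C * t) * g) (hopt : P - Φ V + M * g ≤ P' - Φ V' + M * g' + δ) :
    Ψ + h V * F ≤ ε * Fb + e * P₀ * (1 + hmax) + M * C * δ + δ / t := by
  have h3 : Φ V - Φ V' ≤ h V' * (-(t * F) + t * e * P) :=
    (hΦ V V' hV hV').trans (mul_le_mul_of_nonneg_left (by linarith) hh')
  have h4 : M * g' ≤ M * g + M * C * t * δ :=
    calc M * g' ≤ M * ((1 + C * t) * g) := mul_le_mul_of_nonneg_left hgap hM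
      _ = M * g + M * C * t * g := by ring
      _ ≤ M * g + M * C * t * δ :=
        add_le_add le_rfl (mul_le_mul_of_nonneg_left hg (by positivity))
  have h6 : h V' * (t * e * P) ≤ hmax * (t * e * P₀) :=
    mul_le_mul hhmax (mul_le_mul_of_nonneg_left hP₀ (by positivity)) (by positivity)
      (hh'.trans hhmax)
  have h6' : t * e * P ≤ t * e * P₀ := mul_le_mul_of_nonneg_left hP₀ (by positivity)
  have h7 : (h V - h V') * F ≤ ε * Fb := by
    refine (le_abs_self _).trans ((abs_mul _ _).trans_le ?_)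
    exact mul_le_mul (by rwa [abs_sub_comm]) hF (abs_nonneg _) ((abs_nonneg _).trans hε)
  have h8 := mul_le_mul_of_nonneg_left h7 ht.le
  refine le_of_mul_le_mul_left ?_ ht
  have e1 : t * (ε * Fb + e * P₀ * (1 + hmax) + M * C * δ + δ / t) =
      t * (ε * Fb) + t * e * P₀ + hmax * (t * e * P₀) + M * C * t * δ + δ := by
    field_simp
    ring
  rw [e1]
  linarith

/-- An almost minimiser among the competitors of at least half the least volume. -/
def NearMinV (G : (Fin n → ℝ) → Matrix (Fin n) (Fin n) ℝ)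
    (D : (Fin n → ℝ) → (Fin n → ℝ) → ℝ) (o : Fin n → ℝ) (R P₀ v₀ : ℝ) (Φ : ℝ → ℝ) (M δ : ℝ)
    (u : (Fin n → ℝ) → ℝ) : Prop :=
  Comp {y | D o y ≤ R} u ∧ per G u ≤ P₀ ∧ v₀ ≤ vol G u ∧ gap G u ≤ δ ∧
    ∀ u', Comp {y | D o y ≤ R} u' → v₀ / 2 ≤ vol G u' →
      per G u - Φ (vol G u) + M * gap G u ≤ per G u' - Φ (vol G u') + M * gap G u' + δ

/-- An almost minimiser is one among competitors of comparable volume. -/
lemma nearMinV_of_nearMinP {o : Fin n → ℝ} {R P₀ v₀ M δ : ℝ} {Φ : ℝ → ℝ}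
    {u : (Fin n → ℝ) → ℝ} (hu : Bend.NearMinP G D o R P₀ v₀ Φ M δ u) :
    NearMinV G D o R P₀ v₀ Φ M δ u :=
  ⟨hu.1, hu.2.1, hu.2.2.1, hu.2.2.2.1, fun u' h' _ => hu.2.2.2.2 u' h'⟩

/-- The row at one centre with one weight. -/
theorem node_exactV (h : IsCH G D) (hn : 0 < n) (o : Fin n → ℝ) {R P₀ v₀ M κ : ℝ} {Φ hs : ℝ → ℝ}
    (hP₀ : 0 ≤ P₀) (hv₀ : 0 < v₀) (hΦ : Bend.IsProfile Φ hs) (hsup : Supports Φ hs)
    (hM : 0 ≤ M) (hκ : 0 < κ) {c : Fin n → ℝ} (hc : D o c ≤ R)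
    {W : (Fin n → ℝ) → ℝ} (hW : ContDiff ℝ 1 W) (hWp : ∀ y, D o y ≤ R + 1 → 0 < W y) :
    ∀ᶠ δ in 𝓝[>] (0 : ℝ), ∀ u, NearMinV G D o R P₀ v₀ Φ M δ u →
      rowIntegS G D (hs (vol G u)) c W u ≤ κ := by
  set K : Set (Fin n → ℝ) := {y | D o y ≤ R}
  have hK : IsCompact K := h.proper o R
  have hWK : ∀ y ∈ K, 0 < W y := fun y hy => hWp y (by have : D o y ≤ R := hy; linarith)
  obtain ⟨Bw, hBw0, hBw⟩ : ∃ B : ℝ, 0 ≤ B ∧ ∀ y ∈ K, W y * √(2 * D c y) ≤ B := by
    obtain ⟨B, hB⟩ := hK.bddAbove_image (f := fun y => W y * √(2 * D c y))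
      (hW.continuous.mul (continuous_const.mul (h.continuous_D_left c)).sqrt).continuousOn
    exact ⟨max B 0, le_max_right _ _, fun y hy => (hB ⟨y, hy, rfl⟩).trans (le_max_left _ _)⟩
  -- the slope on the possible volumes
  obtain ⟨VK, hVK⟩ : ∃ z : ℝ, z = max (volG G K) v₀ := ⟨_, rfl⟩
  set I := Icc (v₀ / 2) VK
  have hIsub : I ⊆ Ioi (0 : ℝ) := fun x hx => show 0 < x by linarith [hx.1]
  have hI : ContinuousOn hs I := hΦ.cont_slope.mono hIsub
  have hIne : I.Nonempty := nonempty_Icc.2 (by linarith [hVK ▸ le_max_right (volG G K) v₀])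
  obtain ⟨xM, hxM, hhi⟩ := isCompact_Icc.exists_isMaxOn hIne hI
  obtain ⟨ρ, hρ, huc⟩ := Metric.uniformContinuousOn_iff.1
    (isCompact_Icc.uniformContinuousOn_of_continuous hI) (κ / (4 * (Bw * P₀ + 1))) (by positivity)
  obtain ⟨hmax, hhmax⟩ : ∃ z : ℝ, z = hs xM := ⟨_, rfl⟩
  have hmax0 : 0 < hmax := hhmax ▸ hΦ.slope_pos _ (hIsub hxM)
  obtain ⟨e, he⟩ : ∃ z : ℝ, z = κ / (4 * (P₀ * (1 + hmax) + 1)) := ⟨_, rfl⟩
  have he0 : 0 < e := by rw [he]; positivity
  obtain ⟨τ, C, hτ, hC, hvar⟩ := exists_outVarS h hn o hc hW hWp he0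
  obtain ⟨Fm, hFm⟩ : ∃ z : ℝ, z = Bw * P₀ + e * P₀ + 1 := ⟨_, rfl⟩
  have hFm0 : 0 < Fm := by rw [hFm]; positivity
  obtain ⟨t, ht⟩ : ∃ z : ℝ, z = min τ (min (ρ / 2) (v₀ / 2) / Fm) := ⟨_, rfl⟩
  have ht0 : 0 < t := ht ▸ lt_min hτ (div_pos (lt_min (by linarith) (by linarith)) hFm0)
  have htF : t * Fm ≤ min (ρ / 2) (v₀ / 2) := (le_div_iff₀ hFm0).1 (ht ▸ min_le_right _ _)
  filter_upwards [Ioc_mem_nhdsGT (show (0 : ℝ) < κ / (2 * (M * C + 1 / t + 1)) by positivity)]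
    with δ hδ u hmin
  obtain ⟨hu, hPu, hVu, hgu, hopt⟩ := hmin
  obtain ⟨u', hu', hper, hvol, habs, hgap⟩ := hvar t u ht0 (ht ▸ min_le_left _ _) hu
  rw [rowIntegS_eq h hn hK hu _ c hW]
  have i0 : Integrable fun y => conorm G y (cd u y) * dens G y := by
    simpa using h.integrable_mul_conorm hK hu (continuous_const (y := (1 : ℝ)))
  have iabs : Integrable fun y => |normalPart G D c u y| * W y * dens G y := by
    refine Continuous.integrable_of_hasCompactSupport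
      (((h.continuous_normalPart hu.1 c).abs.mul hW.continuous).mul h.continuous_dens)
      (HasCompactSupport.intro hK fun y hy => ?_)
    simp [normalPart, pairing, cd_eq_zero_of_notMem fun hs => hy (hu.2.1 hs)]
  have hFa : ∫ y, |normalPart G D c u y| * W y * dens G y ≤ Bw * P₀ := by
    refine (integral_mono iabs (i0.const_mul Bw) fun y => ?_).trans (by
        rw [integral_const_mul]; exact mul_le_mul_of_nonneg_left hPu hBw0)
    simp only
    by_cases hy : y ∈ K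
    · rw [← mul_assoc]
      refine mul_le_mul_of_nonneg_right ?_ (h.dens_pos y).le
      calc |normalPart G D c u y| * W y
          ≤ conorm G y (cd u y) * √(2 * D c y) * W y :=
            mul_le_mul_of_nonneg_right (h.abs_normalPart_le c u y) (hWK y hy).le
        _ = conorm G y (cd u y) * (W y * √(2 * D c y)) := by ring
        _ ≤ _ := by
            rw [mul_comm Bw]
            exact mul_le_mul_of_nonneg_left (hBw y hy) (conorm_nonneg _ _)
    · have : cd u y = 0 := cd_eq_zero_of_notMem fun hs => hy (hu.2.1 hs)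
      simpa [normalPart, pairing, this] using mul_nonneg hBw0
        (mul_nonneg (conorm_nonneg y (cd u y)) (h.dens_pos y).le)
  have hF : |∫ y, normalPart G D c u y * W y * dens G y| ≤ Bw * P₀ := by
    refine le_trans abs_integral_le_integral_abs (le_trans (le_of_eq ?_) hFa)
    refine integral_congr_ae (Eventually.of_forall fun y => ?_)
    simp only [abs_mul, abs_of_pos (h.dens_pos y)]
    by_cases hy : y ∈ K
    · rw [abs_of_pos (hWK y hy)]
    · simp [normalPart, pairing, cd_eq_zero_of_notMem fun hs => hy (hu.2.1 hs)]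
  have hP := h.per_nonneg u
  have hd : |vol G u' - vol G u| ≤ t * Fm := by
    refine habs.trans (mul_le_mul_of_nonneg_left ?_ ht0.le)
    have := mul_le_mul_of_nonneg_left hPu he0.le
    rw [hFm]
    linarith
  have hd' := abs_le.1 hd
  have hd1 : t * Fm ≤ ρ / 2 := htF.trans (min_le_left _ _)
  have hd2 : t * Fm ≤ v₀ / 2 := htF.trans (min_le_right _ _)
  have hV : vol G u ∈ I :=
    ⟨by linarith, hVK ▸ (h.vol_le hK hu).trans (le_max_left _ _)⟩
  have hV' : vol G u' ∈ I :=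
    ⟨by linarith, hVK ▸ (h.vol_le hK hu').trans (le_max_left _ _)⟩
  have hε := huc _ hV' _ hV (by rw [Real.dist_eq]; linarith)
  rw [Real.dist_eq] at hε
  have hh' : hs (vol G u') ≤ hmax := hhmax ▸ hhi hV'
  refine (stationary_exact hsup (hIsub hV) (hIsub hV') hvol hM hC ht0 he0.le hP hPu
    (hΦ.slope_pos _ (hIsub hV')).le hh' hF hε.le hgu hper hgap (hopt u' hu' hV'.1)).trans ?_
  have h1 : κ / (4 * (Bw * P₀ + 1)) * (Bw * P₀) ≤ κ / 4 := by
    rw [div_mul_eq_mul_div, div_le_iff₀ (by positivity)]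
    linarith [mul_nonneg hκ.le (mul_nonneg hBw0 hP₀)]
  have h2 : e * P₀ * (1 + hmax) ≤ κ / 4 := by
    rw [he, mul_assoc, div_mul_eq_mul_div, div_le_iff₀ (by positivity)]
    linarith
  have h3 : M * C * δ + δ / t ≤ κ / 2 := by
    calc M * C * δ + δ / t = δ * (M * C + 1 / t) := by ring
      _ ≤ κ / (2 * (M * C + 1 / t + 1)) * (M * C + 1 / t + 1) :=
          mul_le_mul hδ.2 (by linarith) (by positivity) (by positivity)
      _ = κ / 2 := by field_simp
  linarith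

/-- The exact row, from minimality among all competitors. -/
theorem node_exact (h : IsCH G D) (hn : 0 < n) (o : Fin n → ℝ) {R P₀ v₀ M κ : ℝ} {Φ hs : ℝ → ℝ}
    (hP₀ : 0 ≤ P₀) (hv₀ : 0 < v₀) (hΦ : Bend.IsProfile Φ hs) (hsup : Supports Φ hs)
    (hM : 0 ≤ M) (hκ : 0 < κ) {c : Fin n → ℝ} (hc : D o c ≤ R)
    {W : (Fin n → ℝ) → ℝ} (hW : ContDiff ℝ 1 W) (hWp : ∀ y, D o y ≤ R + 1 → 0 < W y) :
    ∀ᶠ δ in 𝓝[>] (0 : ℝ), ∀ u, Bend.NearMinP G D o R P₀ v₀ Φ M δ u →
      rowIntegS G D (hs (vol G u)) c W u ≤ κ :=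
  (node_exactV h hn o hP₀ hv₀ hΦ hsup hM hκ hc hW hWp).mono fun _ hδ u hu =>
    hδ u (nearMinV_of_nearMinP hu)

end Vale.Agent.P219.CH.Relax
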