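import Mathlib

/-!
# P219: the scalar inequality of the curvature gain

`X s`, `Y s` are the trace excesses of the Hessians at the two ends of a geodesic of length `s` and
`d s` the inverse Jacobian in flat units. The two hypotheses come from cutting the geodesic at an
interior point; the conclusion is `(1 - d) ^ 2 ≤ X * Y`.
-/

noncomputable section

open Filter Topology

namespace Vale.Agent.P219.CH.Relax

/-- The line bound at one step of a partition. -/
lemma step_le {a c p s s' : ℝ} (ha : 0 < a) (hp : 0 < p) (hc : 0 ≤ c) (hs : a ≤ s) (hss : s ≤ s')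
    (hl : a ≤ p * s - c) :
    -1 / s' + 1 / (p * (p * s' - c)) - (-1 / s + 1 / (p * (p * s - c))) -
        c * (s' - s) ^ 2 / a ^ 4 ≤
      (1 / s - 1 / s') * (1 - s ^ 2 / (p * s - c) ^ 2) := by
  have hl' : a ≤ p * s' - c := hl.trans (by nlinarith)
  have s0 : 0 < s := lt_of_lt_of_le ha hs
  have s0' : 0 < s' := lt_of_lt_of_le s0 hss
  have l0 : 0 < p * s - c := lt_of_lt_of_le ha hl
  have l0' : 0 < p * s' - c := lt_of_lt_of_le ha hl'
  have e : (1 / s - 1 / s') * (1 - s ^ 2 / (p * s - c) ^ 2) =
      -1 / s' + 1 / (p * (p * s' - c)) - (-1 / s + 1 / (p * (p * s - c))) -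
        c * (s' - s) ^ 2 / ((p * s - c) ^ 2 * s' * (p * s' - c)) := by
    generalize hL : p * s - c = L at *
    generalize hL' : p * s' - c = L' at *
    field_simp
    subst hL hL'
    ring
  rw [e, sub_le_sub_iff_left]
  refine div_le_div_of_nonneg_left (mul_nonneg hc (sq_nonneg _)) (pow_pos ha 4) ?_
  calc a ^ 4 = a ^ 2 * a * a := by ring
    _ ≤ _ := by
      gcongr
      exact hs.trans hss

/-- The scalar gain. -/
theorem scalar_gain {X Y d : ℝ → ℝ} {t : ℝ} (ht : 0 < t)
    (hX : ∀ s, 0 < s → s ≤ t → 0 ≤ X s) (hY : 0 ≤ Y t)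
    (hd : ∀ s, 0 < s → s ≤ t → 0 < d s ∧ d s ≤ 1)
    (hrec : ∀ s s', 0 < s → s < s' → s' ≤ t →
      X s / s + (1 / s - 1 / s') * (1 - d s ^ 2) ≤ X s' / s')
    (hline : ∀ s, 0 < s → s < t → t / d t - (1 + Y t) / d t * (t - s) ≤ s / d s) :
    (1 - d t) ^ 2 ≤ X t * Y t := by
  obtain ⟨hd0, hd1⟩ := hd t ht le_rfl
  rcases hd1.eq_or_lt with h1 | h1
  · rw [h1]; simpa using mul_nonneg (hX t ht le_rfl) hY
  rcases hY.eq_or_lt with hy0 | hy0
  · exfalso
    -- `Y = 0` makes `d` monotone, so the recursion forces `X t` to be infinite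
    set K := (1 - d t ^ 2)
    have hK : 0 < K := by simp only [K]; nlinarith
    obtain ⟨k, hk⟩ := exists_nat_gt ((X t / t + K / t) * t / K + 1)
    have hk1 : (1 : ℝ) < k := lt_of_le_of_lt (by
      have : 0 ≤ (X t / t + K / t) * t / K := by
        have := hX t ht le_rfl
        positivity
      linarith) hk
    set s := t / k
    have hs0 : 0 < s := div_pos ht (by linarith)
    have hst : s < t := div_lt_self ht hk1
    have h2 := hline s hs0 hst
    rw [← hy0, add_zero] at h2
    obtain ⟨ds0, ds1⟩ := hd s hs0 hst.le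
    have hds : d s ≤ d t := by
      have h3 : s / d t ≤ s / d s := by
        refine le_trans (le_of_eq ?_) h2
        field_simp
        ring
      rwa [div_le_div_iff_of_pos_left hs0 hd0 ds0] at h3
    have h4 := hrec s t hs0 hst le_rfl
    have h5 : (1 / s - 1 / t) * K ≤ (1 / s - 1 / t) * (1 - d s ^ 2) :=
      mul_le_mul_of_nonneg_left (by simp only [K]; nlinarith)
        (sub_nonneg.2 (one_div_le_one_div_of_le hs0 hst.le))
    have h6 : 0 ≤ X s / s := div_nonneg (hX s hs0 hst.le) hs0.le
    have h7 : (1 / s - 1 / t) * K = (k - 1) * K / t := by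
      simp only [s]
      field_simp
    have h8 : (X t / t + K / t) * t / K < k - 1 := by linarith
    rw [div_lt_iff₀ hK] at h8
    have h9 : (k - 1) * K / t ≤ X t / t := by linarith
    rw [div_le_div_iff_of_pos_right ht] at h9
    have : (X t / t + K / t) * t = X t + K := by field_simp
    rw [this] at h8
    linarith
  set p := (1 + Y t) / d t with hp_def
  set c := t * Y t / d t with hc_def
  set a := t * Y t / (1 + Y t - d t) with ha_def
  have hden : 0 < 1 + Y t - d t := by linarith
  have ha : 0 < a := by positivity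
  have hat : a < t := by
    rw [ha_def, div_lt_iff₀ hden]
    nlinarith
  have hp : 0 < p := by positivity
  have hc : 0 ≤ c := by positivity
  have hla : p * a - c = a := by
    rw [hp_def, hc_def, ha_def]
    field_simp
    ring
  have key : ∀ N : ℕ, 0 < N →
      -1 / t + 1 / (p * (p * t - c)) - (-1 / a + 1 / (p * (p * a - c))) -
          c * (t - a) ^ 2 / a ^ 4 * (N : ℝ)⁻¹ ≤ X t / t := by
    intro N hN
    set h := (t - a) / N
    have hN' : (0 : ℝ) < N := by exact_mod_cast hN
    have hh : 0 < h := div_pos (sub_pos.2 hat) hN'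
    have hind : ∀ i : ℕ, i ≤ N →
        -1 / (a + i * h) + 1 / (p * (p * (a + i * h) - c)) -
            (-1 / a + 1 / (p * (p * a - c))) - c * h ^ 2 / a ^ 4 * i ≤
          X (a + i * h) / (a + i * h) := by
      intro i
      induction i with
      | zero =>
        intro _
        simpa using div_nonneg (hX a ha hat.le) ha.le
      | succ i ih =>
        intro hi
        push_cast
        have hi' : (i : ℝ) + 1 ≤ N := by exact_mod_cast hi
        have hle : a + ((i : ℝ) + 1) * h ≤ t := by
          have := mul_le_mul_of_nonneg_right hi' hh.le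
          have e : (N : ℝ) * h = t - a := by simp only [h]; field_simp
          linarith
        have h0 := mul_nonneg (Nat.cast_nonneg (α := ℝ) i) hh.le
        have hs0 : 0 < a + i * h := by linarith
        have hlt : a + i * h < a + ((i : ℝ) + 1) * h := by linarith
        have hs1 : a + i * h < t := hlt.trans_le hle
        have hl : a ≤ p * (a + i * h) - c := by
          have := mul_nonneg hp.le h0
          linarith
        have h1 := hrec _ _ hs0 hlt hle
        have h2 := step_le (s' := a + ((i : ℝ) + 1) * h) ha hp hc (by linarith) hlt.le hl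
        have h3 := hline _ hs0 hs1
        obtain ⟨ds0, -⟩ := hd _ hs0 hs1.le
        have h4 : d (a + i * h) ^ 2 ≤ (a + i * h) ^ 2 / (p * (a + i * h) - c) ^ 2 := by
          rw [← div_pow]
          refine pow_le_pow_left₀ ds0.le ?_ 2
          rw [le_div_iff₀ (ha.trans_le hl), mul_comm, ← le_div_iff₀ ds0]
          refine le_trans (le_of_eq ?_) h3
          rw [hp_def, hc_def]
          field_simp
          ring
        have h5 := mul_le_mul_of_nonneg_left (sub_le_sub_left h4 1)
          (sub_nonneg.2 (one_div_le_one_div_of_le hs0 hlt.le))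
        have h6 := ih (by omega)
        have e : a + ((i : ℝ) + 1) * h - (a + i * h) = h := by ring
        rw [e] at h2
        linarith
    have h1 := hind N le_rfl
    have e : a + (N : ℝ) * h = t := by simp only [h]; field_simp; ring
    have e2 : c * h ^ 2 / a ^ 4 * N = c * (t - a) ^ 2 / a ^ 4 * (N : ℝ)⁻¹ := by
      simp only [h]; field_simp
    rwa [e, e2] at h1
  have hlim : -1 / t + 1 / (p * (p * t - c)) - (-1 / a + 1 / (p * (p * a - c))) ≤ X t / t := by
    refine le_of_tendsto (f := fun N : ℕ => -1 / t + 1 / (p * (p * t - c)) -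
      (-1 / a + 1 / (p * (p * a - c))) - c * (t - a) ^ 2 / a ^ 4 * (N : ℝ)⁻¹) ?_
      (eventually_atTop.2 ⟨1, fun N hN => key N hN⟩)
    simpa using (tendsto_inv_atTop_nhds_zero_nat (𝕜 := ℝ)).const_mul (c * (t - a) ^ 2 / a ^ 4)
      |>.const_sub (-1 / t + 1 / (p * (p * t - c)) - (-1 / a + 1 / (p * (p * a - c))))
  have hval : -1 / t + 1 / (p * (p * t - c)) - (-1 / a + 1 / (p * (p * a - c))) =
      (1 - d t) ^ 2 / (t * Y t) := by
    rw [hla, show p * t - c = t / d t by rw [hp_def, hc_def]; field_simp; ring, hp_def, ha_def]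
    field_simp
    ring
  rw [hval, div_le_div_iff₀ (by positivity) ht] at hlim
  refine le_of_mul_le_mul_right ?_ ht
  linarith

end Vale.Agent.P219.CH.Relax
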