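import Vale.Agent.P219.Relax.Split
import Vale.Agent.P219.Bend.VarAlgebra

/-!
# P219: the exact first variation density along `W ∇ (r ^ 2 / 2)`

No comparison is used: the density keeps the whole Hessian of the half squared distance.
-/

noncomputable section

open MeasureTheory Set Filter Topology Matrix

namespace Vale.Agent.P219.CH.Relax

open Bend (varG)
open Sharp (wfield)

variable {n : ℕ} {G : (Fin n → ℝ) → Matrix (Fin n) (Fin n) ℝ}
  {D : (Fin n → ℝ) → (Fin n → ℝ) → ℝ} {W : (Fin n → ℝ) → ℝ}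

/-- The trace of the Hessian of `D x` at `y`. -/
def hTr (G : (Fin n → ℝ) → Matrix (Fin n) (Fin n) ℝ) (D : (Fin n → ℝ) → (Fin n → ℝ) → ℝ)
    (x y : Fin n → ℝ) : ℝ :=
  ((G y)⁻¹ * hmat G D x y).trace

/-- The Hessian of `D x` at `y` on the vector dual to `ξ`. -/
def hQ (G : (Fin n → ℝ) → Matrix (Fin n) (Fin n) ℝ) (D : (Fin n → ℝ) → (Fin n → ℝ) → ℝ)
    (x y ξ : Fin n → ℝ) : ℝ :=
  ((G y)⁻¹ *ᵥ ξ) ⬝ᵥ (hmat G D x y *ᵥ ((G y)⁻¹ *ᵥ ξ))

/-- The first variation density along `W ∇ D c`, exactly. -/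
def varX (G : (Fin n → ℝ) → Matrix (Fin n) (Fin n) ℝ) (D : (Fin n → ℝ) → (Fin n → ℝ) → ℝ)
    (c : Fin n → ℝ) (W : (Fin n → ℝ) → ℝ) (y ξ : Fin n → ℝ) : ℝ :=
  varG G (fun z => W z * hTr G D c z) (cd W) (cd (D c)) y ξ -
    W y * hQ G D c y ξ / conorm G y ξ

lemma hTr_eq (h : IsCH G D) (x y : Fin n → ℝ) :
    hTr G D x y = ((G y)⁻¹ * hessMat G (D x) y).trace := by
  have hi : ((G y)⁻¹)ᵀ = (G y)⁻¹ := by simpa using (h.posDef_inv y).isHermitian.eq
  have hT : ((G y)⁻¹ * (hessMat G (D x) y)ᵀ).trace = ((G y)⁻¹ * hessMat G (D x) y).trace := by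
    conv_lhs => rw [← trace_transpose, transpose_mul, transpose_transpose, hi, trace_mul_comm]
  rw [hTr, hmat, Matrix.mul_smul, trace_smul, Matrix.mul_add, trace_add, hT, smul_eq_mul]
  ring

/-- The pointwise variation along `W ∇ D c` is the density, exactly. -/
theorem defect'_wfield_eq (h : IsCH G D) (c : Fin n → ℝ) (hW : ContDiff ℝ 1 W) (y ξ : Fin n → ℝ) :
    defect' G y (wfield G D c W y) (fderiv ℝ (wfield G D c W) y) ξ =
      -(dens G y * varX G D c W y ξ) := by
  have hd : fderiv ℝ (wfield G D c W) y =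
      W y • fderiv ℝ (grad G (D c)) y + (fderiv ℝ W y).smulRight (grad G (D c) y) :=
    ((hW.differentiable one_ne_zero y).hasFDerivAt.smul
      ((h.contDiff_grad_dist c).differentiable one_ne_zero y).hasFDerivAt).fderiv
  have e1 : fderiv ℝ W y ((G y)⁻¹ *ᵥ ξ) = pairing G y ξ (cd W y) := by
    rw [h.pairing_comm, ← cd_dotProduct]; rfl
  have e2 : fderiv ℝ W y (grad G (D c) y) = pairing G y (cd W y) (cd (D c) y) :=
    (pairing_cd _ _ _).symm
  rw [hd, wfield, Sharp.defect'_smul_add, Bend.defect'_grad_eq h, e1, e2,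
    show ξ ⬝ᵥ grad G (D c) y = pairing G y ξ (cd (D c) y) from rfl, varX, varG, hQ, hmat_quad,
    hessMat_quad, hTr_eq h]
  ring

lemma varX_zero (c : Fin n → ℝ) (W : (Fin n → ℝ) → ℝ) (y : Fin n → ℝ) :
    varX G D c W y 0 = 0 := by
  simp [varX, Bend.varG_zero, hQ, conorm_zero]

lemma varX_smul (h : IsCH G D) (c : Fin n → ℝ) (W : (Fin n → ℝ) → ℝ) (y : Fin n → ℝ) {k : ℝ}
    (hk : 0 < k) (ξ : Fin n → ℝ) : varX G D c W y (k • ξ) = k * varX G D c W y ξ := by
  simp only [varX, Bend.varG_smul h y hk, hQ, h.conorm_smul, abs_of_pos hk, mulVec_smul,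
    smul_dotProduct, dotProduct_smul, smul_eq_mul]
  rcases eq_or_ne (conorm G y ξ) 0 with h0 | h0
  · simp [h0]
  · field_simp

/-! ## Continuity in the centre and the point -/

lemma continuous_secL (h : IsCH G D) :
    Continuous fun p : (Fin n → ℝ) × (Fin n → ℝ) => opMat (secL D p.1 p.2) := by
  have hL : ContDiff ℝ 1 fun p : (Fin n → ℝ) × (Fin n → ℝ) => cd (D p.2) p.1 :=
    Sharp.contDiff_logCovector h
  have e : ∀ x y v, secL D x y v =
      fderiv ℝ (fun p : (Fin n → ℝ) × (Fin n → ℝ) => cd (D p.2) p.1) (y, x) (v, 0) := fun x y v => by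
    have h2 : HasFDerivAt (fun z => cd (D x) z) (secL D x y) y :=
      ((h.contDiff_cd_dist x).differentiable one_ne_zero y).hasFDerivAt
    have h3 := ((hL.differentiable one_ne_zero (y, x)).hasFDerivAt).comp
      (f := fun z : Fin n → ℝ => (z, x)) y (hasFDerivAt_prodMk_left (𝕜 := ℝ) y x)
    exact DFunLike.congr_fun (h2.unique h3) v
  refine continuous_pi fun a => continuous_pi fun b => ?_
  simp only [opMat, Matrix.of_apply, e]
  exact (continuous_apply a).comp (((hL.continuous_fderiv one_ne_zero).comp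
    (continuous_snd.prodMk continuous_fst)).clm_apply continuous_const)

lemma continuous_hmat (h : IsCH G D) :
    Continuous fun p : (Fin n → ℝ) × (Fin n → ℝ) => hmat G D p.1 p.2 := by
  have hg : Continuous fun p : (Fin n → ℝ) × (Fin n → ℝ) => grad G (D p.1) p.2 :=
    Continuous.matrix_mulVec
      (continuous_matrix fun i j => (h.contDiff_inv i j).continuous.comp continuous_snd)
      ((Sharp.contDiff_logCovector h).continuous.comp (continuous_snd.prodMk continuous_fst))
  have hd : ∀ (i j : Fin n) {v : (Fin n → ℝ) × (Fin n → ℝ) → Fin n → ℝ}, Continuous v →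
      Continuous fun p => dG G p.2 (v p) i j := fun i j v hv =>
    (((h.smooth_metric i j).continuous_fderiv one_ne_zero).comp continuous_snd).clm_apply hv
  simp only [hmat_eq h]
  refine (continuous_secL h).add (continuous_pi fun a => continuous_pi fun b => ?_)
  simp only [conn, Matrix.of_apply]
  refine ((Continuous.add ?_ ?_).neg.div_const 2).add (((hd a b hg).add (hd b a hg)).div_const 4)
  · exact hg.dotProduct (Continuous.matrix_mulVec
      (continuous_matrix fun i j => hd i j continuous_const) continuous_const)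
  · exact hg.dotProduct (Continuous.matrix_mulVec
      (continuous_matrix fun i j => hd i j continuous_const) continuous_const)

lemma continuous_hTr (h : IsCH G D) :
    Continuous fun p : (Fin n → ℝ) × (Fin n → ℝ) => hTr G D p.1 p.2 :=
  Continuous.matrix_trace (Continuous.matrix_mul
    (continuous_matrix fun i j => (h.contDiff_inv i j).continuous.comp continuous_snd)
    (continuous_hmat h))

lemma continuous_hQ (h : IsCH G D) :
    Continuous fun p : (Fin n → ℝ) × (Fin n → ℝ) × (Fin n → ℝ) => hQ G D p.1 p.2.1 p.2.2 := by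
  have hη : Continuous fun p : (Fin n → ℝ) × (Fin n → ℝ) × (Fin n → ℝ) =>
      (G p.2.1)⁻¹ *ᵥ p.2.2 :=
    Continuous.matrix_mulVec (continuous_matrix fun i j =>
      (h.contDiff_inv i j).continuous.comp (continuous_fst.comp continuous_snd))
      (continuous_snd.comp continuous_snd)
  have hm0 := (continuous_hmat h).comp
    (f := fun p : (Fin n → ℝ) × (Fin n → ℝ) × (Fin n → ℝ) => (p.1, p.2.1))
    (continuous_fst.prodMk (continuous_fst.comp continuous_snd))
  have hm : Continuous fun p : (Fin n → ℝ) × (Fin n → ℝ) × (Fin n → ℝ) =>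
      hmat G D p.1 p.2.1 := hm0
  exact hη.dotProduct (hm.matrix_mulVec hη)

lemma continuous_hTr_left (h : IsCH G D) (c : Fin n → ℝ) : Continuous fun y => hTr G D c y :=
  (continuous_hTr h).comp (f := fun y => (c, y)) (continuous_const.prodMk continuous_id)

lemma continuousAt_varX (h : IsCH G D) (c : Fin n → ℝ) (hW : ContDiff ℝ 1 W) (y : Fin n → ℝ)
    {ξ : Fin n → ℝ} (hξ : ξ ≠ 0) :
    ContinuousAt (fun p : (Fin n → ℝ) × (Fin n → ℝ) => varX G D c W p.1 p.2) (y, ξ) := by
  have hq : Continuous fun p : (Fin n → ℝ) × (Fin n → ℝ) => W p.1 * hQ G D c p.1 p.2 :=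
    (hW.continuous.comp continuous_fst).mul
      ((continuous_hQ h).comp (f := fun p : (Fin n → ℝ) × (Fin n → ℝ) => (c, p.1, p.2))
        (continuous_const.prodMk continuous_id))
  exact (Bend.continuousAt_varG h (hW.continuous.mul (continuous_hTr_left h c)) (continuous_cd hW)
    (Sharp.continuous_cd_dist h c) y hξ).sub
      (hq.continuousAt.div h.continuous_conorm.continuousAt (h.conorm_pos y hξ).ne')

lemma measurable_varX_cd (h : IsCH G D) (c : Fin n → ℝ) (hW : ContDiff ℝ 1 W)
    {u : (Fin n → ℝ) → ℝ} (hu : ContDiff ℝ 1 u) :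
    Measurable fun y => varX G D c W y (cd u y) :=
  (Bend.measurable_varG_cd h (hW.continuous.mul (continuous_hTr_left h c)) (continuous_cd hW)
    (Sharp.continuous_cd_dist h c) hu).sub
      ((hW.continuous.mul ((continuous_hQ h).comp (f := fun y => (c, y, cd u y))
        (continuous_const.prodMk (continuous_id.prodMk (continuous_cd hu))))).measurable.div
          (h.continuous_conorm_cd hu).measurable)

/-- The Hessian on a vector lies between the metric and the trace. -/
lemma hQ_bounds (h : IsCH G D) (hn : 0 < n) (x y ξ : Fin n → ℝ) :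
    0 ≤ hQ G D x y ξ ∧ hQ G D x y ξ ≤ conorm G y ξ ^ 2 * hTr G D x y := by
  rcases eq_or_ne ξ 0 with rfl | hξ
  · simp [hQ, conorm_zero]
  rw [hQ, hmat_quad, hTr_eq h]
  refine ⟨le_trans ?_ (h.hessian x y _), ?_⟩
  · exact (h.posDef y).posSemidef.dotProduct_mulVec_nonneg _
  · have h1 := h.trace_bound y (hessMat G (D x) y)
      (fun v => by rw [hessMat_quad]; exact h.hessian x y v) hξ
    rw [hessMat_quad, ← h.conorm_sq y ξ] at h1
    have h2 : (1 : ℝ) ≤ n := Nat.one_le_cast.2 hn
    nlinarith [sq_nonneg (conorm G y ξ)]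

/-- On a compact set the density is bounded by the length. -/
lemma exists_abs_varX_le (h : IsCH G D) (hn : 0 < n) (c : Fin n → ℝ) (hW : ContDiff ℝ 1 W)
    {K : Set (Fin n → ℝ)} (hK : IsCompact K) :
    ∃ C : ℝ, 0 < C ∧ ∀ y ∈ K, ∀ ξ, |varX G D c W y ξ| ≤ C * conorm G y ξ := by
  obtain ⟨C₁, hC₁, hb⟩ := Bend.exists_abs_varG_le h (hW.continuous.mul (continuous_hTr_left h c))
    (continuous_cd hW) (Sharp.continuous_cd_dist h c) hK
  obtain ⟨C₂, hC₂⟩ := hK.bddAbove_image (f := fun y => |W y * hTr G D c y|)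
    (hW.continuous.mul (continuous_hTr_left h c)).abs.continuousOn
  refine ⟨C₁ + max C₂ 0, by positivity, fun y hy ξ => ?_⟩
  have h2 : |W y * hQ G D c y ξ / conorm G y ξ| ≤ max C₂ 0 * conorm G y ξ := by
    rcases (conorm_nonneg (G := G) y ξ).eq_or_lt with h0 | h0
    · simp [← h0]
    obtain ⟨q0, q1⟩ := hQ_bounds h hn c y ξ
    rw [abs_div, abs_of_pos h0, div_le_iff₀ h0, abs_mul, abs_of_nonneg q0]
    calc |W y| * hQ G D c y ξ ≤ |W y| * (conorm G y ξ ^ 2 * hTr G D c y) :=
          mul_le_mul_of_nonneg_left q1 (abs_nonneg _)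
      _ ≤ conorm G y ξ ^ 2 * |W y * hTr G D c y| := by
          rw [abs_mul]
          nlinarith [mul_nonneg (sq_nonneg (conorm G y ξ)) (abs_nonneg (W y)),
            le_abs_self (hTr G D c y)]
      _ ≤ conorm G y ξ ^ 2 * max C₂ 0 :=
          mul_le_mul_of_nonneg_left ((hC₂ ⟨y, hy, rfl⟩).trans (le_max_left _ _)) (sq_nonneg _)
      _ = _ := by ring
  rw [varX]
  refine (abs_sub _ _).trans ?_
  rw [add_mul]
  exact add_le_add (hb y hy ξ) h2

end Vale.Agent.P219.CH.Relax
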