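import Vale.Agent.P219.Relax.Var
import Vale.Agent.P219.Relax.Defs
import Vale.Agent.P219.Dir.BendPointwise

/-!
# P219: the exact density is the relaxed integrand plus the curvature excess
-/

noncomputable section

open MeasureTheory Set Filter Topology Matrix

namespace Vale.Agent.P219.CH.Relax

open Bend (cfac sfac)

variable {n : ℕ} {G : (Fin n → ℝ) → Matrix (Fin n) (Fin n) ℝ}
  {D : (Fin n → ℝ) → (Fin n → ℝ) → ℝ} {b : ℝ}

/-- The integrand of the first variation along `W ∇ D c` with mean curvature `hh`, flux signed. -/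
def rowDensS (G : (Fin n → ℝ) → Matrix (Fin n) (Fin n) ℝ) (D : (Fin n → ℝ) → (Fin n → ℝ) → ℝ)
    (hh : ℝ) (c : Fin n → ℝ) (W : (Fin n → ℝ) → ℝ) (y ξ : Fin n → ℝ) : ℝ :=
  varX G D c W y ξ - hh * (-pairing G y ξ (cd (D c) y) * W y)

lemma psd_le_trace {E : Matrix (Fin n) (Fin n) ℝ} (hE : E.PosSemidef) (w : Fin n → ℝ) :
    w ⬝ᵥ (E *ᵥ w) ≤ (w ⬝ᵥ w) * E.trace := by
  have hP : ((w ⬝ᵥ w) • (1 : Matrix (Fin n) (Fin n) ℝ) - vecMulVec w w).PosSemidef := by
    refine Matrix.PosSemidef.of_dotProduct_mulVec_nonneg ?_ fun v => ?_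
    · rw [IsHermitian, conjTranspose_eq_transpose_of_trivial, transpose_sub, transpose_smul,
        transpose_one, transpose_vecMulVec]
    · have h1 : (w ⬝ᵥ v) ^ 2 ≤ (w ⬝ᵥ w) * (v ⬝ᵥ v) := by
        simpa [dotProduct, sq] using Finset.sum_mul_sq_le_sq_mul_sq Finset.univ w v
      simp only [star_trivial, sub_mulVec, smul_mulVec, one_mulVec, dotProduct_sub, dotProduct_smul,
        vecMulVec_mulVec, op_smul_eq_smul, smul_eq_mul, dotProduct_comm v w]
      linarith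
  have key := trace_mul_nonneg hP hE
  rw [Matrix.sub_mul, trace_sub, Matrix.smul_mul, trace_smul, Matrix.one_mul, vecMulVec_mul,
    trace_vecMulVec, smul_eq_mul, dotProduct_comm w (w ᵥ* E), ← dotProduct_mulVec] at key
  linarith

lemma hTr_eq_hbar (h : IsCH G D) (x y : Fin n → ℝ) :
    hTr G D x y = (hbar G D x y).trace := by
  rw [hTr, hbar, trace_mul_comm (Sharp.frame G y * hmat G D x y), ← Matrix.mul_assoc,
    (Sharp.frame_spec h y).2.2.1]

lemma hQ_eq_hbar (h : IsCH G D) (x y ξ : Fin n → ℝ) :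
    hQ G D x y ξ =
      (Sharp.frame G y *ᵥ ξ) ⬝ᵥ (hbar G D x y *ᵥ (Sharp.frame G y *ᵥ ξ)) := by
  rw [hbar_quad h, mulVec_mulVec, (Sharp.frame_spec h y).2.2.1, hQ, hmat_quad]

/-- The trace off one direction keeps the model and a share `d ^ 2` of the excess. -/
theorem hess_excess_le (h : IsCH G D) (hb : Bend.BendCH G D b) (x y : Fin n → ℝ)
    {ξ : Fin n → ℝ} (hξ : ξ ≠ 0) {d : ℝ}
    (hd : d * Real.sqrt (2 * D x y) * conorm G y ξ = -pairing G y ξ (cd (D x) y))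
    (hd0 : D x y = 0 → d = 0) :
    conorm G y ξ ^ 2 * ((1 - d ^ 2) + cfac b (D x y) * (((n : ℝ) - 2) + d ^ 2) +
        d ^ 2 * excessB G D b x y) + hQ G D x y ξ ≤
      conorm G y ξ ^ 2 * hTr G D x y := by
  rcases eq_or_lt_of_le (h.dist_nonneg x y) with h0 | h0
  · have h1 := h.trace_bound y (hessMat G (D x) y)
      (fun v => by rw [hessMat_quad]; exact h.hessian x y v) hξ
    rw [hessMat_quad, ← h.conorm_sq y ξ] at h1
    have hc : cfac b (D x y) = 1 := by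
      rw [← h0]; simp [cfac, Bend.cshd_zero, Bend.csh_zero]
    rw [hd0 h0.symm, hc, hQ, hmat_quad, hTr_eq h]
    linarith
  obtain ⟨r, hr⟩ : ∃ r, r = Real.sqrt (2 * D x y) := ⟨_, rfl⟩
  have hr0 : 0 < r := hr ▸ Real.sqrt_pos.2 (by linarith)
  have hr2 : r ^ 2 = 2 * D x y := hr ▸ Real.sq_sqrt (by linarith)
  set c := cfac b (D x y)
  set H := hbar G D x y
  set v := Sharp.frame G y *ᵥ ξ
  set p := r⁻¹ • radv G D x y
  have hp : p ⬝ᵥ p = 1 := by
    rw [smul_dotProduct, dotProduct_smul, radv_sq h, ← hr2, smul_eq_mul, smul_eq_mul]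
    field_simp
  have hHp : H *ᵥ p = p := by rw [mulVec_smul, hbar_radv h]
  obtain ⟨hHs, -⟩ := geOne_hbar h x y
  set E : Matrix (Fin n) (Fin n) ℝ :=
    H - (c • (1 : Matrix (Fin n) (Fin n) ℝ) + (1 - c) • vecMulVec p p) with hEdef
  have hEq : ∀ w, w ⬝ᵥ (E *ᵥ w) =
      w ⬝ᵥ (H *ᵥ w) - (c * (w ⬝ᵥ w) + (1 - c) * (p ⬝ᵥ w) ^ 2) := fun w => by
    simp only [hEdef, sub_mulVec, add_mulVec, smul_mulVec, one_mulVec, dotProduct_sub,
      dotProduct_add, dotProduct_smul, vecMulVec_mulVec, op_smul_eq_smul, smul_eq_mul,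
      dotProduct_comm w p]
    ring
  have hE : E.PosSemidef := Matrix.PosSemidef.of_dotProduct_mulVec_nonneg
    (by
      rw [IsHermitian, conjTranspose_eq_transpose_of_trivial] at hHs ⊢
      rw [hEdef, transpose_sub, transpose_add, transpose_smul, transpose_smul, transpose_one,
        transpose_vecMulVec, hHs])
    fun w => by
      have m := hbar_model_le h hb x y w
      rw [← hr2, show radv G D x y = r • p by rw [smul_smul, mul_inv_cancel₀ hr0.ne', one_smul],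
        smul_dotProduct, smul_eq_mul] at m
      have m' : (p ⬝ᵥ w) ^ 2 + c * (w ⬝ᵥ w - (p ⬝ᵥ w) ^ 2) ≤ w ⬝ᵥ (H *ᵥ w) :=
        le_of_mul_le_mul_left (by linarith) (pow_pos hr0 2)
      rw [star_trivial, hEq]
      linarith
  have htr : E.trace = excessB G D b x y := by
    rw [hEdef, trace_sub, trace_add, trace_smul, trace_smul, trace_one, trace_vecMulVec, hp,
      Fintype.card_fin, smul_eq_mul, smul_eq_mul, excessB]
    ring
  have hEp : E *ᵥ p = 0 := by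
    rw [hEdef, sub_mulVec, add_mulVec, smul_mulVec, smul_mulVec, one_mulVec, vecMulVec_mulVec, hHp,
      hp, op_smul_eq_smul, one_smul, ← add_smul, add_sub_cancel, one_smul, sub_self]
  set k := conorm G y ξ
  have hvv : v ⬝ᵥ v = k ^ 2 := by rw [Sharp.frame_dot h, h.conorm_sq]
  have hpv : p ⬝ᵥ v = -(d * k) := by
    rw [smul_dotProduct, radv, Sharp.frame_dot h, h.pairing_comm, smul_eq_mul,
      show pairing G y ξ (cd (D x) y) = -(d * r * k) by rw [hr]; linarith]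
    field_simp
  set s := p ⬝ᵥ v with hsdef
  set w := v - s • p
  have hw : v ⬝ᵥ (E *ᵥ v) = w ⬝ᵥ (E *ᵥ w) := by
    have hEs : Eᵀ = E := by simpa using hE.isHermitian.eq
    have hpE : p ⬝ᵥ (E *ᵥ v) = 0 := by
      rw [dotProduct_mulVec, ← mulVec_transpose, hEs, hEp, zero_dotProduct]
    simp [w, mulVec_sub, mulVec_smul, hEp, hpE]
  have hww : w ⬝ᵥ w = k ^ 2 - (d * k) ^ 2 := by
    have e : v ⬝ᵥ p = s := dotProduct_comm v p
    simp only [w, sub_dotProduct, dotProduct_sub, smul_dotProduct, dotProduct_smul, smul_eq_mul,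
      hp, hvv, e, ← hsdef, hpv]
    ring
  have key := psd_le_trace hE w
  rw [← hw, hww, htr, hEq, hvv, ← hsdef, hpv] at key
  rw [hQ_eq_hbar h, hTr_eq_hbar h]
  have e := htr
  rw [excessB] at e key
  rw [excessB]
  linarith

/-- The exact density is at least the relaxed integrand with the excess of the Hessian. -/
theorem kernS_le_rowDensS (h : IsCH G D) (hb : Bend.BendCH G D b) (u : (Fin n → ℝ) → ℝ)
    {w : ℝ × ℝ → ℝ} (hw : ContDiff ℝ 1 w) {x σ : Fin n → ℝ} (hσ : conorm G x σ ≤ 1) (hh : ℝ)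
    (y : Fin n → ℝ) (hw0 : 0 ≤ w (D x y, Dir.side G D x σ y)) :
    (kernS n b hh w (D x y) (Dir.side G D x σ y) (Dir.scos G D u x y) +
        Dir.scos G D u x y ^ 2 * excessB G D b x y * w (D x y, Dir.side G D x σ y)) *
        conorm G y (cd u y) ≤
      rowDensS G D hh x (Dir.weight G D w x σ) y (cd u y) := by
  rcases eq_or_ne (cd u y) 0 with h0 | hξ
  · simp [h0, conorm_zero, rowDensS, varX_zero, pairing]
  have hd := Dir.scos_mul h u x y
  have hd1 := Dir.scos_mem h u x y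
  have hX := Dir.abs_cross_bend_le h hb hσ y (cd u y) hd hd1
  have hH := hess_excess_le h hb x y hξ hd fun h0 => by simp [Dir.scos, h0]
  obtain ⟨d, hdd⟩ : ∃ z, z = Dir.scos G D u x y := ⟨_, rfl⟩
  obtain ⟨k, hk⟩ : ∃ z, z = conorm G y (cd u y) := ⟨_, rfl⟩
  obtain ⟨s, hs⟩ : ∃ z, z = Dir.side G D x σ y := ⟨_, rfl⟩
  obtain ⟨p, hp⟩ : ∃ z, z = pairing G y (cd u y) (cd (D x) y) := ⟨_, rfl⟩
  obtain ⟨q, hq⟩ : ∃ z, z = pairing G y (cd u y) (Dir.sideD G D x σ y) := ⟨_, rfl⟩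
  have hk0 : 0 < k := hk ▸ h.conorm_pos y hξ
  rw [normalPart, ← hp] at hd
  simp only [rowDensS, varX, Bend.varG, kernS, Dir.cd_weight h hw, Dir.weight, Dir.pairing_lin h,
    Dir.pairing_lin_left, h.eikonal, Dir.pairing_sideD_dist h, ← hdd, ← hk, ← hs, ← hp, ← hq]
    at hd hX hH ⊢
  obtain ⟨f, hf⟩ : ∃ z, z = w (D x y, s) := ⟨_, rfl⟩
  obtain ⟨A, hA⟩ : ∃ z, z = Dir.wa w (D x y, s) := ⟨_, rfl⟩
  obtain ⟨B, hB⟩ : ∃ z, z = Dir.wb w (D x y, s) := ⟨_, rfl⟩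
  obtain ⟨a, ha⟩ : ∃ z, z = D x y := ⟨_, rfl⟩
  obtain ⟨T, hT⟩ : ∃ z, z = hTr G D x y := ⟨_, rfl⟩
  obtain ⟨Q', hQ'⟩ : ∃ z, z = hQ G D x y (cd u y) := ⟨_, rfl⟩
  obtain ⟨S, hS⟩ : ∃ z, z = sfac b (D x y) := ⟨_, rfl⟩
  obtain ⟨X, hXd⟩ : ∃ z, z = excessB G D b x y := ⟨_, rfl⟩
  obtain ⟨C, hC⟩ : ∃ z, z = cfac b (D x y) := ⟨_, rfl⟩
  obtain ⟨Q, hQd⟩ : ∃ z, z = |d| * Real.sqrt (1 - d ^ 2) * Real.sqrt (2 * D x y - s ^ 2) / S :=
    ⟨_, rfl⟩
  rw [← hS, ← hQd] at hX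
  have e1 : |B| * |d| * Real.sqrt (1 - d ^ 2) * (Real.sqrt (2 * D x y - s ^ 2) / S) = |B| * Q := by
    rw [hQd]; ring
  rw [← hs] at hw0
  simp only [← hT, ← hQ', ← hXd, ← hC, ← hS] at hH ⊢
  rw [← hf] at hw0
  simp only [← hf, ← hA, ← hB, e1]
  obtain ⟨r, hr⟩ : ∃ z, z = Real.sqrt (2 * D x y) := ⟨_, rfl⟩
  have hr2 : r ^ 2 = 2 * a := by
    rw [hr, ha]; exact Real.sq_sqrt (by linarith [h.dist_nonneg x y])
  simp only [← hr] at hd ⊢
  rw [← ha]
  have hp' : p = -(d * r * k) := by linarith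
  have hpp : p * p = d ^ 2 * k ^ 2 * (2 * a) := by
    rw [← hr2, hp']; ring
  have hB' : B * (p * q) ≤ B * (d ^ 2 * k ^ 2 * s) + |B| * (k ^ 2 * Q) := by
    have h1 : B * (p * q - d ^ 2 * k ^ 2 * s) ≤ |B| * (k ^ 2 * Q) :=
      (le_abs_self _).trans ((abs_mul _ _).trans_le
        (mul_le_mul_of_nonneg_left hX (abs_nonneg B)))
    linarith
  have hH' := mul_le_mul_of_nonneg_left hH hw0
  refine le_of_mul_le_mul_left ?_ hk0
  have e2 : k * ((f * T + (A * (2 * a) + B * s)) * k - p * (A * p + B * q) / k - f * Q' / k -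
      hh * (-p * f)) = (f * T + (A * (2 * a) + B * s)) * k ^ 2 - (A * (p * p) + B * (p * q)) -
        f * Q' - hh * (k * (-p * f)) := by
    field_simp
  have e3 : hh * (k * (-p * f)) = hh * r * d * f * k ^ 2 := by rw [hp']; ring
  rw [e2, hpp, e3]
  linarith

end Vale.Agent.P219.CH.Relax
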